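import Vale.Agent.P188.Z1.Flat
import Vale.Agent.P188.Z1.LineS
import Vale.Agent.P188.Z1.Fat
import Mathlib.Analysis.InnerProductSpace.PiL2

/-!
# P188, FLAT in the model, part 1: windows, Cartan words, paths
-/

set_option linter.all false

open MeasureTheory Set
open Vale.Agent.P188.H530 (hgt)

namespace Vale.Agent.P188.Z1.RModel.F6



/-! ### linear algebra of the window -/

section lin

variable {k : ℕ}

theorem apply_eq (b : Ht k →L[ℝ] ℝ) (w : Ht k) : b w = ∑ i, sh b i * w i := by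
  have h : w = ∑ i, w i • (Pi.single i (1 : ℝ) : Ht k) := by
    ext j
    simp [Finset.sum_apply, Pi.single_apply]
  conv_lhs => rw [h]
  rw [map_sum]
  refine Finset.sum_congr rfl fun i _ => ?_
  rw [map_smul, smul_eq_mul, mul_comm]
  rfl

/-- the functional as a Euclidean vector -/
noncomputable def eu (b : Ht k →L[ℝ] ℝ) : EuclideanSpace ℝ (Fin k) := WithLp.toLp 2 (sh b)

theorem en_eq (b : Ht k →L[ℝ] ℝ) : en b = ‖eu b‖ := by
  rw [EuclideanSpace.norm_eq, en]
  congr 1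
  refine Finset.sum_congr rfl fun i _ => ?_
  rw [Real.norm_eq_abs, sq_abs]
  rfl

theorem eu_add (b b' : Ht k →L[ℝ] ℝ) : eu (b + b') = eu b + eu b' := by
  ext i; rfl

theorem eu_smul (t : ℝ) (b : Ht k →L[ℝ] ℝ) : eu (t • b) = t • eu b := by
  ext i; rfl

theorem eu_zero : eu (0 : Ht k →L[ℝ] ℝ) = 0 := by
  ext i; rfl

theorem eu_inj {b b' : Ht k →L[ℝ] ℝ} (h : eu b = eu b') : b = b' := by
  ext w
  rw [apply_eq, apply_eq]
  refine Finset.sum_congr rfl fun i _ => ?_
  have : sh b i = sh b' i := by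
    have := congrArg (fun v : EuclideanSpace ℝ (Fin k) => v i) h
    exact this
  rw [this]

theorem en_nonneg (b : Ht k →L[ℝ] ℝ) : 0 ≤ en b := Real.sqrt_nonneg _

theorem en_zero : en (0 : Ht k →L[ℝ] ℝ) = 0 := by rw [en_eq, eu_zero, norm_zero]

theorem en_pos {b : Ht k →L[ℝ] ℝ} (hb : b ≠ 0) : 0 < en b := by
  rw [en_eq, norm_pos_iff]
  intro h
  exact hb (eu_inj (h.trans eu_zero.symm))

theorem en_add_le (b b' : Ht k →L[ℝ] ℝ) : en (b + b') ≤ en b + en b' := by
  rw [en_eq, en_eq, en_eq, eu_add]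
  exact norm_add_le _ _

theorem en_smul (t : ℝ) (ht : 0 ≤ t) (b : Ht k →L[ℝ] ℝ) : en (t • b) = t * en b := by
  rw [en_eq, en_eq, eu_smul, norm_smul, Real.norm_eq_abs, abs_of_nonneg ht]

/-- the direction of the facet of `b` -/
noncomputable def fd (b : Ht k →L[ℝ] ℝ) : Ht k := fun i => sh b i / en b

theorem apply_fd (b b' : Ht k →L[ℝ] ℝ) : b' (fd b) = inner ℝ (eu b') (eu b) / en b := by
  rw [apply_eq, PiLp.inner_apply, Finset.sum_div]
  refine Finset.sum_congr rfl fun i _ => ?_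
  show sh b' i * (sh b i / en b) = inner ℝ (sh b' i) (sh b i) / en b
  rw [RCLike.inner_apply, conj_trivial]
  ring

theorem fd_self {b : Ht k →L[ℝ] ℝ} (hb : b ≠ 0) : b (fd b) = en b := by
  rw [apply_fd, real_inner_self_eq_norm_sq, ← en_eq, sq]
  exact mul_div_cancel_right₀ _ (en_pos hb).ne'

theorem fd_le {b : Ht k →L[ℝ] ℝ} (hb : b ≠ 0) (b' : Ht k →L[ℝ] ℝ) : b' (fd b) ≤ en b' := by
  rw [apply_fd, div_le_iff₀ (en_pos hb), en_eq, en_eq]
  exact real_inner_le_norm _ _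

theorem fd_lt {b b' : Ht k →L[ℝ] ℝ} (hb : b ≠ 0) (hb' : b' ≠ 0)
    (h : ∀ t : ℝ, 0 < t → b' ≠ t • b) : b' (fd b) < en b' := by
  refine lt_of_le_of_ne (fd_le hb b') fun heq => ?_
  rw [apply_fd, div_eq_iff (en_pos hb).ne', en_eq b', en_eq b, inner_eq_norm_mul_iff_real,
    ← en_eq, ← en_eq] at heq
  have h1 := en_pos hb
  have h2 := en_pos hb'
  refine h (en b' / en b) (div_pos h2 h1) (eu_inj ?_)
  rw [eu_smul, div_eq_inv_mul, mul_smul]
  rw [← heq, smul_smul, inv_mul_cancel₀ h1.ne', one_smul]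

theorem fd_norm_le {b : Ht k →L[ℝ] ℝ} (hb : b ≠ 0) : ‖fd b‖ ≤ 1 := by
  rw [pi_norm_le_iff_of_nonneg zero_le_one]
  intro i
  rw [fd, Real.norm_eq_abs, abs_div, abs_of_pos (en_pos hb), div_le_one (en_pos hb), en_eq]
  have := EuclideanSpace.norm_eq (eu b)
  rw [this]
  refine Real.abs_le_sqrt ?_
  refine le_trans (le_of_eq ?_) (Finset.single_le_sum (f := fun j => ‖eu b j‖ ^ 2)
    (fun j _ => by positivity) (Finset.mem_univ i))
  show sh b i ^ 2 = ‖sh b i‖ ^ 2
  rw [Real.norm_eq_abs, sq_abs]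

end lin

/-! ### good windows -/

section good

variable {S : Type} [Group S] [MeasurableSpace S] {Γ : Type} [Group Γ]
  {V : Type} [AddCommGroup V] [Module ℝ V] {k : ℕ} (M : RModel S Γ V k)

/-- a lower bound for the support function on the classes -/
theorem exists_en_lower : ∃ e₀ : ℝ, 0 < e₀ ∧ ∀ b ∈ M.Φ, e₀ ≤ en b := by
  classical
  by_cases h : M.Φ.Nonempty
  · obtain ⟨b, hb, hmin⟩ := M.Φ.exists_min_image en h
    exact ⟨en b, en_pos (M.Φ_ne b hb), hmin⟩
  · rw [Finset.not_nonempty_iff_eq_empty] at h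
    exact ⟨1, one_pos, fun b hb => by rw [h] at hb; simp at hb⟩

/-- the gap between different facets -/
theorem exists_gap : ∃ g : ℝ, 0 < g ∧ ∀ b ∈ M.Φ, ∀ b' ∈ M.Φ, (∃ t : ℝ, 0 < t ∧ b' = t • b) ∨
    b' (fd b) ≤ en b' - g := by
  classical
  set P := (M.Φ ×ˢ M.Φ).filter fun q => ∀ t : ℝ, 0 < t → q.2 ≠ t • q.1 with hP
  by_cases h : P.Nonempty
  · obtain ⟨q, hq, hmin⟩ := P.exists_min_image (fun q => en q.2 - q.2 (fd q.1)) h
    have hq' := Finset.mem_filter.1 hq
    have hq1 := Finset.mem_product.1 hq'.1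
    refine ⟨en q.2 - q.2 (fd q.1), sub_pos.2 (fd_lt (M.Φ_ne _ hq1.1) (M.Φ_ne _ hq1.2) hq'.2), ?_⟩
    intro b hb b' hb'
    by_cases hc : ∃ t : ℝ, 0 < t ∧ b' = t • b
    · exact Or.inl hc
    · right
      have h1 := hmin (b, b') (Finset.mem_filter.2 ⟨Finset.mem_product.2 ⟨hb, hb'⟩, fun t ht h =>
        hc ⟨t, ht, h⟩⟩)
      simp only at h1
      linarith
  · rw [Finset.not_nonempty_iff_eq_empty] at h
    refine ⟨1, one_pos, fun b hb b' hb' => ?_⟩
    by_contra hcon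
    rw [not_or] at hcon
    have : (b, b') ∈ P := Finset.mem_filter.2 ⟨Finset.mem_product.2 ⟨hb, hb'⟩, fun t ht h =>
        hcon.1 ⟨t, ht, h⟩⟩
    rw [h] at this
    simp at this

/-- **small perturbations of the ball are good windows** -/
theorem exists_hgood : ∃ c δ₀ : ℝ, 0 < c ∧ 0 < δ₀ ∧ ∀ h : (Ht k →L[ℝ] ℝ) → ℝ,
    (∀ b ∈ M.Φ, |h b - en b| ≤ δ₀) →
    (∀ b ∈ M.Φ, ∀ b' ∈ M.Φ, ∀ t : ℝ, 0 < t → b' = t • b → h b' = t * h b) → M.HGood c h := by
  classical
  obtain ⟨e₀, he0, he⟩ := exists_en_lower M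
  obtain ⟨g, hg0, hg⟩ := exists_gap M
  set N : ℝ := 1 + ∑ b ∈ M.Φ, (‖b‖ + en b) with hN
  have hNb : ∀ b ∈ M.Φ, ‖b‖ + en b + 1 ≤ N := by
    intro b hb
    have := Finset.single_le_sum (f := fun b : Ht k →L[ℝ] ℝ => ‖b‖ + en b)
      (fun b _ => add_nonneg (norm_nonneg _) (en_nonneg b)) hb
    rw [hN]; linarith
  have hN1 : 1 ≤ N := by
    have := Finset.sum_nonneg (s := M.Φ) (f := fun b : Ht k →L[ℝ] ℝ => ‖b‖ + en b)
      (fun b _ => add_nonneg (norm_nonneg _) (en_nonneg b))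
    rw [hN]; linarith
  set δ₀ : ℝ := min (e₀ / 2) (min 1 (g / (2 * (1 + N / e₀)))) with hδ
  have hq : 0 < 2 * (1 + N / e₀) := by positivity
  have hδ0 : 0 < δ₀ := lt_min (by linarith) (lt_min one_pos (by positivity))
  have hδ1 : δ₀ ≤ e₀ / 2 := min_le_left _ _
  have hδ2 : δ₀ ≤ 1 := (min_le_right _ _).trans (min_le_left _ _)
  have hδ3 : δ₀ ≤ g / (2 * (1 + N / e₀)) := (min_le_right _ _).trans (min_le_right _ _)
  set c : ℝ := min (e₀ / 2) (min (g / 2) (min N⁻¹ (2⁻¹))) with hc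
  have hc0 : 0 < c := lt_min (by linarith) (lt_min (by linarith) (lt_min (by positivity)
    (by norm_num)))
  have hc1 : c ≤ e₀ / 2 := min_le_left _ _
  have hc2 : c ≤ g / 2 := (min_le_right _ _).trans (min_le_left _ _)
  have hc3 : c ≤ N⁻¹ := (min_le_right _ _).trans ((min_le_right _ _).trans (min_le_left _ _))
  have hc4 : c ≤ 2⁻¹ := (min_le_right _ _).trans ((min_le_right _ _).trans (min_le_right _ _))
  have hc3' : N ≤ c⁻¹ := by rw [le_inv_comm₀ (by linarith) hc0]; exact hc3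
  have hc4' : 2 ≤ c⁻¹ := by rw [le_inv_comm₀ (by norm_num) hc0]; exact hc4
  refine ⟨c, δ₀, hc0, hδ0, fun h hh hray => ⟨fun b hb => ?_, hray, fun b hb => ?_⟩⟩
  · have h1 := abs_le.1 (hh b hb)
    have h2 := he b hb
    have h3 := hNb b hb
    have h4 := norm_nonneg b
    exact ⟨by linarith [h1.1], by linarith [h1.2]⟩
  · have h1 := abs_le.1 (hh b hb)
    have h2 := he b hb
    have hb0 := M.Φ_ne b hb
    have hen := en_pos hb0
    refine ⟨(h b / en b) • fd b, ?_, ?_, ?_⟩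
    · rw [norm_smul, Real.norm_eq_abs, abs_div, abs_of_pos hen]
      have h3 : |h b| ≤ 2 * en b := by
        rw [abs_le]; constructor <;> linarith [h1.1, h1.2]
      have h4 : |h b| / en b ≤ 2 := by rw [div_le_iff₀ hen]; exact h3
      calc |h b| / en b * ‖fd b‖ ≤ 2 * 1 := mul_le_mul h4 (fd_norm_le hb0) (norm_nonneg _) (by norm_num)
        _ ≤ c⁻¹ := by linarith
    · rw [map_smul, smul_eq_mul, fd_self hb0, div_mul_cancel₀ _ hen.ne']
    · intro b' hb'
      rcases hg b hb b' hb' with h3 | h3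
      · exact Or.inl h3
      · right
        rw [map_smul, smul_eq_mul]
        have h4 := abs_le.1 (hh b' hb')
        have h5 : |b' (fd b)| ≤ N := by
          rw [← Real.norm_eq_abs]
          refine (b'.le_opNorm _).trans ?_
          have h6 := fd_norm_le hb0
          have h7 := hNb b' hb'
          have h8 := en_nonneg b'
          nlinarith [norm_nonneg b', norm_nonneg (fd b)]
        have h6 : |(h b / en b - 1) * b' (fd b)| ≤ δ₀ / e₀ * N := by
          rw [abs_mul]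
          refine mul_le_mul ?_ h5 (abs_nonneg _) (by positivity)
          have h7 : h b / en b - 1 = (h b - en b) / en b := by field_simp
          rw [h7, abs_div, abs_of_pos hen]
          exact div_le_div₀ hδ0.le (hh b hb) he0 h2
        have h7 : δ₀ * (2 * (1 + N / e₀)) ≤ g := by rwa [le_div_iff₀ hq] at hδ3
        have h8 : δ₀ / e₀ * N = δ₀ * (N / e₀) := by ring
        have h9 := (abs_le.1 h6).2
        rw [h8] at h9
        have h10 : h b / en b * b' (fd b) = b' (fd b) + (h b / en b - 1) * b' (fd b) := by ring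
        rw [h10]
        nlinarith [h4.1]

theorem exists_hgood_en : ∃ c : ℝ, 0 < c ∧ M.HGood c en := by
  obtain ⟨c, δ, hc, hδ, h⟩ := exists_hgood M
  refine ⟨c, hc, h en (fun b _ => by rw [sub_self, abs_zero]; exact hδ.le) ?_⟩
  intro b _ b' _ t ht hbt
  rw [hbt, en_smul t ht.le]

end good

end Vale.Agent.P188.Z1.RModel.F6
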