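import Vale.Agent.P188.H616.M10

/-!
# P188, FLAT in the model, part 11: the domains at a frame
-/

set_option linter.all false

open MeasureTheory Set Filter
open Vale.Agent.P188.H530 (hgt)
open Vale.Agent.P188.H616 (Coord Sec Phi slide)

namespace Vale.Agent.P188.Z1.RModel.F6

variable {S : Type} [Group S] [MeasurableSpace S] {Γ : Type} [Group Γ]
  {V : Type} [AddCommGroup V] [Module ℝ V] {k : ℕ} {M : RModel S Γ V k}

/-- positions at the frame `g` -/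
def DF (B : M.NatBox) (h : (Ht k →L[ℝ] ℝ) → ℝ) (Λ d₁ κ4 s : ℝ) (g : S) : Set S :=
  {z | np M (z * g⁻¹) ∈ B.Bx (fun i => Λ * M.szh h d₁ s i) ∧ ‖M.θ (z * g⁻¹)‖ ≤ κ4 * s}

/-- positions with heights near `a` -/
def DA (B : M.NatBox) (h : (Ht k →L[ℝ] ℝ) → ℝ) (Λ d₁ s : ℝ) (a : Ht k) (R : ℝ) : Set S :=
  {z | np M z ∈ B.Bx (fun i => Λ * M.szh h d₁ s i) ∧ ‖M.θ z - a‖ ≤ R}

variable (B : M.NatBox) {h : (Ht k →L[ℝ] ℝ) → ℝ} {Λ d₁ κ4 s : ℝ} {g : S}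

theorem DA_eq (a : Ht k) (R : ℝ) : DA B h Λ d₁ s a R =
    BW M (B.Bx (fun i => Λ * M.szh h d₁ s i)) {w | ‖(ht w : Ht k) - a‖ ≤ R} := rfl

theorem DA_meas (a : Ht k) (R : ℝ) : MeasurableSet (DA B h Λ d₁ s a R) := by
  rw [DA_eq]
  exact BW_meas M (B.meas _) (B.sub _) _

theorem DA_measure (a : Ht k) (R : ℝ) : M.μ (DA B h Λ d₁ s a R) =
    {w : Fin k → ℤ | ‖(ht w : Ht k) - a‖ ≤ R}.ncard * M.μ (B.Bx (fun i => Λ * M.szh h d₁ s i)) := by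
  rw [DA_eq]
  exact BW_measure M (B.meas _) (B.sub _) (ball_finite a R).1

theorem DF_eq : DF B h Λ d₁ κ4 s g = (fun z => z * g⁻¹) ⁻¹' (DA B h Λ d₁ s 0 (κ4 * s)) := by
  ext z
  simp only [DF, DA, mem_setOf_eq, mem_preimage, sub_zero]

theorem DF_meas : MeasurableSet (DF B h Λ d₁ κ4 s g) := by
  rw [DF_eq]
  exact (M.mp _).measurable (DA_meas B _ _)

theorem DF_measure : M.μ (DF B h Λ d₁ κ4 s g) = M.μ (DA B h Λ d₁ s 0 (κ4 * s)) := by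
  rw [DF_eq]
  exact (M.mp _).measure_preimage (DA_meas B _ _).nullMeasurableSet

theorem DF_ge (hs : 0 ≤ κ4 * s) : M.μ (B.Bx (fun i => Λ * M.szh h d₁ s i)) ≤
    M.μ (DF B h Λ d₁ κ4 s g) := by
  rw [DF_measure, DA_measure]
  refine le_mul_of_one_le_left zero_le' ?_
  have h1 : 1 ≤ {w : Fin k → ℤ | ‖(ht w : Ht k) - 0‖ ≤ κ4 * s}.ncard := by
    rw [Nat.one_le_iff_ne_zero]
    refine Set.ncard_ne_zero_of_mem (a := 0) ?_ (ball_finite 0 (κ4 * s)).1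
    rw [mem_setOf_eq, sub_zero]
    have : (ht (0 : Fin k → ℤ) : Ht k) = 0 := by
      funext i
      simp [ht]
    rw [this, norm_zero]
    exact hs
  exact_mod_cast h1

theorem DF_ne_top : M.μ (DF B h Λ d₁ κ4 s g) ≠ ⊤ := by
  rw [DF_measure, DA_measure]
  exact ENNReal.mul_ne_top (ENNReal.natCast_ne_top _) (B.fin _)

theorem DF_mono {Λ' : ℝ} (hΛ : 0 ≤ Λ) (hΛ' : Λ ≤ Λ') :
    DF B h Λ d₁ κ4 s g ⊆ DF B h Λ' d₁ κ4 s g := by
  rintro z ⟨h1, h2⟩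
  refine ⟨B.mono _ _ (fun i => ?_) (fun i => ?_) h1, h2⟩
  · have := szh_pos (M := M) (h := h) (d₁ := d₁) (s := s) i
    positivity
  · exact mul_le_mul_of_nonneg_right hΛ' (szh_pos (M := M) i).le

/-- ratio of the measures -/
theorem DA_le {C' : ℝ} (hC' : M.μ (B.Bx (fun i => Λ * M.szh h d₁ s i)) ≤
    ENNReal.ofReal C' * M.μ (B.Bx (fun i => κ4 * M.szh h d₁ s i))) (hC0 : 0 ≤ C') (a : Ht k) (R : ℝ) :
    M.μ (DA B h Λ d₁ s a R) ≤
      ((⌈C' * (2 * |R| + 1) ^ k⌉₊ : ℕ) : ENNReal) * M.μ (B.Bx (fun i => κ4 * M.szh h d₁ s i)) := by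
  rw [DA_measure]
  refine (mul_le_mul_right hC' _).trans ?_
  rw [← mul_assoc]
  refine mul_le_mul_left ?_ _
  have h1 := (ball_finite (k := k) a R).2
  have h2 : (({w : Fin k → ℤ | ‖(ht w : Ht k) - a‖ ≤ R}.ncard : ℕ) : ENNReal) =
      ENNReal.ofReal ({w : Fin k → ℤ | ‖(ht w : Ht k) - a‖ ≤ R}.ncard : ℕ) := by simp
  rw [h2, ← ENNReal.ofReal_mul (Nat.cast_nonneg _)]
  have h3 : ((⌈C' * (2 * |R| + 1) ^ k⌉₊ : ℕ) : ENNReal) =
      ENNReal.ofReal ((⌈C' * (2 * |R| + 1) ^ k⌉₊ : ℕ) : ℝ) := by simp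
  rw [h3]
  refine ENNReal.ofReal_le_ofReal (le_trans ?_ (Nat.le_ceil _))
  rw [mul_comm]
  exact mul_le_mul_of_nonneg_left h1 hC0

/-- slides keep the domains -/
theorem slide_eq (u z : S) : slide M.sec u g z * g⁻¹ = np M (z * g⁻¹) * u * M.sec (z * g⁻¹) := by
  unfold slide np
  group

theorem η_slide {u : S} (hu : M.η u = 1) (z : S) : M.η (slide M.sec u g z * g⁻¹) = M.η (z * g⁻¹) := by
  rw [slide_eq, map_mul, map_mul, hu, mul_one]
  unfold np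
  rw [map_mul, map_inv]
  group

theorem np_slide {u : S} (hu : M.η u = 1) (z : S) :
    np M (slide M.sec u g z * g⁻¹) = np M (z * g⁻¹) * u := by
  have h1 := sec_congr M (η_slide (g := g) hu z)
  have h2 := slide_eq (M := M) (g := g) u z
  unfold np at h2 ⊢
  rw [h1, h2]
  group

theorem θ_slide {u : S} (hu : M.η u = 1) (z : S) :
    M.θ (slide M.sec u g z * g⁻¹) = M.θ (z * g⁻¹) := M.θ_of_η (η_slide hu z)

theorem slide_DF (hΛ : 0 ≤ Λ) {u : S} (hu : u ∈ B.Bx (fun i => Λ * M.szh h d₁ s i)) {z : S}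
    (hz : z ∈ DF B h Λ d₁ κ4 s g) : slide M.sec u g z ∈ DF B h (B.C * Λ) d₁ κ4 s g := by
  have hη := B.sub _ _ hu
  refine ⟨?_, ?_⟩
  · rw [np_slide hη]
    have h1 := B.mul _ (fun i => mul_nonneg hΛ (szh_pos (M := M) i).le) _ hz.1 _ hu
    have e : (fun i => B.C * Λ * M.szh h d₁ s i) = fun i => B.C * (Λ * M.szh h d₁ s i) := by
      funext i; ring
    rw [e]; exact h1
  · rw [θ_slide hη]
    exact hz.2

/-- the `N_R`-part of a position at a frame -/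
theorem ev_DF {c₂ A : ℝ} (hc : 0 < c₂) (hd : 0 < d₁) (hκ : κ4 ≤ A) (hΛ : 1 ≤ Λ) :
    ∀ᶠ s : ℝ in atTop, ∀ h : (Ht k →L[ℝ] ℝ) → ℝ, M.HB c₂ h → ∀ n : ℕ, (n : ℝ) ≤ A * s →
      ∀ g ∈ M.CB n, ∀ z ∈ DF B h Λ d₁ κ4 s g, np M z ∈ B.Bx fun i => B.C * Λ * M.szh h d₁ s i := by
  filter_upwards [ev_cocycle B hc hd A one_pos, eventually_ge_atTop (0 : ℝ)] with s h1 hs h hh n hn g
    hg z hz
  have h2 := h1 h hh (z * g⁻¹) (hz.2.trans (mul_le_mul_of_nonneg_right hκ hs)) n hn g hg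
  have h3 : np M z = np M (z * g⁻¹) * (M.sec (z * g⁻¹) * g * (M.sec (z * g⁻¹ * g))⁻¹) := by
    have := np_mul M (z * g⁻¹) g
    rw [inv_mul_cancel_right] at this ⊢
    exact this
  rw [h3]
  have h4 := Bx_mul B (R := fun i => Λ * M.szh h d₁ s i)
    (fun i => by have := szh_pos (M := M) (h := h) (d₁ := d₁) (s := s) i; positivity)
    (fun i => by have := szh_pos (M := M) (h := h) (d₁ := d₁) (s := s) i; positivity)
    (fun i => le_rfl) (fun i => by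
      have := (szh_pos (M := M) (h := h) (d₁ := d₁) (s := s) i).le
      nlinarith) hz.1 h2
  have e : (fun i => B.C * Λ * M.szh h d₁ s i) = fun i => B.C * (Λ * M.szh h d₁ s i) := by
    funext i; ring
  rw [e]; exact h4

end Vale.Agent.P188.Z1.RModel.F6
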