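import Vale.Agent.P188.H616.M7

/-!
# P188, FLAT in the model, part 8: paths and straightness at a fixed scale
-/

set_option linter.all false

open MeasureTheory Set Filter
open Vale.Agent.P188.H530 (hgt)
open Vale.Agent.P188.H616 (Coord Sec Phi slide StrAt badR badL)

namespace Vale.Agent.P188.Z1.RModel.F6

variable {S : Type} [Group S] [MeasurableSpace S] {Γ : Type} [Group Γ]
  {V : Type} [AddCommGroup V] [Module ℝ V] {k : ℕ} (M : RModel S Γ V k)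

/-- path along the powers of a Cartan word -/
theorem pow_path {n₁ : ℕ} (hn : 1 ≤ n₁) {g : S} (hg : g ∈ M.CB n₁) : ∃ q : ℕ → S, q 0 = 1 ∧
    (∀ j, q (j * n₁) = g ^ j) ∧ (∀ i, (q i)⁻¹ * q (i + 1) ∈ M.CB 1) ∧ (∀ i, q i ∈ M.CB i) ∧
    ∀ i, ‖M.θ (q i) - ((i / n₁ : ℕ) : ℝ) • M.θ g‖ ≤ n₁ := by
  obtain ⟨q₀, h0, h1, h2, h3⟩ := CB_path M hg
  have hθp : ∀ j : ℕ, M.θ (g ^ j) = (j : ℝ) • M.θ g := by
    intro j
    induction j with
    | zero => simp [M.θ_one]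
    | succ j ih => rw [pow_succ, M.θ_mul, ih, Nat.cast_succ, add_smul, one_smul]
  refine ⟨fun i => g ^ (i / n₁) * q₀ (i % n₁), by simp [h0], ?_, ?_, ?_, ?_⟩
  · intro j
    show g ^ (j * n₁ / n₁) * q₀ (j * n₁ % n₁) = g ^ j
    rw [Nat.mul_div_cancel _ (by omega), Nat.mul_mod_left, h0, mul_one]
  · intro i
    show (g ^ (i / n₁) * q₀ (i % n₁))⁻¹ * (g ^ ((i + 1) / n₁) * q₀ ((i + 1) % n₁)) ∈ M.CB 1
    have hlt := Nat.mod_lt i (show n₁ > 0 by omega)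
    by_cases hi : i % n₁ + 1 = n₁
    · have e1 : (i + 1) / n₁ = i / n₁ + 1 := by
        rw [Nat.succ_div]
        have : n₁ ∣ i + 1 := by
          have := Nat.div_add_mod i n₁
          exact ⟨i / n₁ + 1, by rw [Nat.mul_add, mul_one]; omega⟩
        rw [if_pos this]
      have e2 : (i + 1) % n₁ = 0 := by
        have : n₁ ∣ i + 1 := by
          have := Nat.div_add_mod i n₁
          exact ⟨i / n₁ + 1, by rw [Nat.mul_add, mul_one]; omega⟩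
        exact Nat.mod_eq_zero_of_dvd this
      rw [e1, e2, h0, mul_one, pow_succ, mul_inv_rev]
      have e3 : (q₀ (i % n₁))⁻¹ * (g ^ (i / n₁))⁻¹ * (g ^ (i / n₁) * g) =
          (q₀ (i % n₁))⁻¹ * q₀ (i % n₁ + 1) := by
        rw [hi, h1]; group
      rw [e3]
      exact h2 _
    · have e1 : (i + 1) / n₁ = i / n₁ := by
        rw [Nat.succ_div, if_neg]
        · rfl
        · rintro ⟨c, hc⟩
          have h4 := Nat.div_add_mod i n₁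
          have h5 : i + 1 = n₁ * (i / n₁) + (i % n₁ + 1) := by omega
          have h6 : i % n₁ + 1 < n₁ := by omega
          have h7 : (i + 1) % n₁ = i % n₁ + 1 := by
            rw [h5, Nat.mul_add_mod, Nat.mod_eq_of_lt h6]
          have h8 : (i + 1) % n₁ = 0 := by rw [hc]; exact Nat.mul_mod_right _ _
          omega
      have e2 : (i + 1) % n₁ = i % n₁ + 1 := by
        have h4 := Nat.div_add_mod i n₁
        have h5 : i + 1 = n₁ * (i / n₁) + (i % n₁ + 1) := by omega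
        rw [h5, Nat.mul_add_mod, Nat.mod_eq_of_lt (by omega)]
      rw [e1, e2, mul_inv_rev]
      have e3 : (q₀ (i % n₁))⁻¹ * (g ^ (i / n₁))⁻¹ * (g ^ (i / n₁) * q₀ (i % n₁ + 1)) =
          (q₀ (i % n₁))⁻¹ * q₀ (i % n₁ + 1) := by group
      rw [e3]
      exact h2 _
  · intro i
    show g ^ (i / n₁) * q₀ (i % n₁) ∈ M.CB i
    have h4 := M.CB_mul (M.CB_pow hg (i / n₁)) (h3 (i % n₁))
    have h5 : i / n₁ * n₁ + i % n₁ = i := by
      rw [mul_comm]; exact Nat.div_add_mod i n₁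
    rwa [h5] at h4
  · intro i
    show ‖M.θ (g ^ (i / n₁) * q₀ (i % n₁)) - _‖ ≤ n₁
    rw [M.θ_mul, hθp, add_sub_cancel_left]
    refine (θ_CB M (h3 _)).trans ?_
    exact_mod_cast (Nat.mod_lt i (show n₁ > 0 by omega)).le

/-- the reversed path -/
theorem rev_path {n : ℕ} {q : ℕ → S} (h0 : q 0 = 1)
    (hs : ∀ i < n, (q i)⁻¹ * q (i + 1) ∈ M.CB 1) :
    ((q n)⁻¹ * q (n - 0) = 1) ∧ ((q n)⁻¹ * q (n - n) = (q n)⁻¹) ∧
    ∀ i < n, ((q n)⁻¹ * q (n - i))⁻¹ * ((q n)⁻¹ * q (n - (i + 1))) ∈ M.CB 1 := by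
  refine ⟨by simp, by simp [h0], fun i hi => ?_⟩
  have e1 : ((q n)⁻¹ * q (n - i))⁻¹ * ((q n)⁻¹ * q (n - (i + 1))) =
      ((q (n - (i + 1)))⁻¹ * q (n - (i + 1) + 1))⁻¹ := by
    have : n - (i + 1) + 1 = n - i := by omega
    rw [this]; group
  rw [e1]
  exact M.CB_inv (hs _ (by omega))

/-- straightness at a fixed scale: `f` is affine along most Cartan paths and constant along most
neutral moves inside `D` -/
structure StrSc {Λ : Type*} (σ : S → Λ) (T : Λ → Ht k →L[ℝ] Ht k) (f : S → Ht k) (D : Set S)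
    (A ε κ dm s : ℝ) : Prop where
  path : ∀ n : ℕ, (n : ℝ) ≤ A * s → ∀ q : ℕ → S, q 0 = 1 →
    (∀ i < n, (q i)⁻¹ * q (i + 1) ∈ M.CB 1) →
    ∀ Din : Set S, (∀ z ∈ Din, ∀ i ≤ n, z * q i ∈ M.In (κ * s) D) →
      M.μ {z | z ∈ Din ∧ (σ (z * q n) ≠ σ z ∨
        ∃ i ≤ n, ε * s < ‖f (z * q i) - f z - T (σ z) (M.θ (q i))‖)} ≤
        ENNReal.ofReal ε * M.μ D
  neut : ∀ y : Multiplicative (Fin k → ℤ) → V,
    (∀ w, y w ∈ M.Vw 0 ∧ M.nm (y w) ≤ Real.exp (dm * s)) →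
    ∀ Din : Set S,
      (∀ z ∈ Din, ∀ x : ℝ, 0 ≤ x → x ≤ 1 → z * M.ex (x • y (M.η z)) ∈ M.In (κ * s) D) →
      M.μ {z | z ∈ Din ∧ (σ (z * M.ex (y (M.η z))) ≠ σ z ∨
        ε * s < ‖f (z * M.ex (y (M.η z))) - f z‖)} ≤ ENNReal.ofReal ε * M.μ D

variable {M} {Λ : Type*} {σ : S → Λ} {T : Λ → Ht k →L[ℝ] Ht k} {f : S → Ht k} {D : Set S}
  {A ε κ dm s : ℝ}

/-- additive maps -/
def Ta (T : Λ → Ht k →L[ℝ] Ht k) (a : Λ) : Ht k →+ Ht k := (T a).toLinearMap.toAddMonoidHom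

theorem Ta_apply (T : Λ → Ht k →L[ℝ] Ht k) (a : Λ) (w : Ht k) : Ta T a w = T a w := rfl

/-- linear maps -/
def Tl (T : Λ → Ht k →L[ℝ] Ht k) (a : Λ) : Ht k →ₗ[ℝ] Ht k := (T a).toLinearMap

theorem Tl_apply (T : Λ → Ht k →L[ℝ] Ht k) (a : Λ) (w : Ht k) : Tl T a w = T a w := rfl

theorem StrSc.go (h : StrSc M σ T f D A ε κ dm s) {n : ℕ} (hn : (n : ℝ) ≤ A * s) {q : ℕ → S}
    (h0 : q 0 = 1) (hs : ∀ i < n, (q i)⁻¹ * q (i + 1) ∈ M.CB 1) {Dm : Set S}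
    (hD : ∀ z ∈ Dm, ∀ i ≤ n, z * q i ∈ M.In (κ * s) D) :
    M.μ (Dm ∩ badR σ f (Ta T) M.θ (q n) (ε * s)) ≤ ENNReal.ofReal ε * M.μ D := by
  refine le_trans (measure_mono ?_) (h.path n hn q h0 hs Dm hD)
  rintro z ⟨hz, hz2⟩
  refine ⟨hz, ?_⟩
  rcases hz2 with h1 | h1
  · exact Or.inl h1
  · exact Or.inr ⟨n, le_rfl, h1⟩

theorem StrSc.back (h : StrSc M σ T f D A ε κ dm s) {n : ℕ} (hn : (n : ℝ) ≤ A * s) {q : ℕ → S}
    (h0 : q 0 = 1) (hs : ∀ i < n, (q i)⁻¹ * q (i + 1) ∈ M.CB 1) {Dm : Set S}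
    (hD : ∀ z ∈ Dm, ∀ i ≤ n, z * (q n)⁻¹ * q i ∈ M.In (κ * s) D) :
    M.μ (Dm ∩ badR σ f (Ta T) M.θ (q n)⁻¹ (ε * s)) ≤ ENNReal.ofReal ε * M.μ D := by
  obtain ⟨h1, h2, h3⟩ := rev_path M h0 hs
  have h4 := h.go hn (q := fun i => (q n)⁻¹ * q (n - i)) h1 h3 (Dm := Dm) (by
    intro z hz i hi
    have := hD z hz (n - i) (by omega)
    rwa [mul_assoc] at this)
  simp only [h2] at h4
  exact h4

/-- **straight lines** -/
theorem StrSc.strAt (h : StrSc M σ T f D A ε κ dm s) {v : Fin k → ℤ} {nv : ℕ} (hnv : 1 ≤ nv)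
    (hv : M.τ v ∈ M.CB nv) {m : ℕ} (hm : ((m * nv : ℕ) : ℝ) ≤ A * s) {Din : Set S}
    (hD : ∀ z ∈ Din, ∀ i ≤ m * nv, ∀ g ∈ M.CB i, (∃ j ≤ m, ‖M.θ g - (j : ℝ) • ht v‖ ≤ nv ∨
      ‖M.θ g + (j : ℝ) • ht v‖ ≤ nv) → z * g ∈ M.In (κ * s) D) :
    M.μ {z | z ∈ Din ∧ ¬ StrAt f σ (Tl T) (M.τ v) (ht v) m (ε * s) z} ≤
      2 * (ENNReal.ofReal ε * M.μ D) := by
  obtain ⟨q, q0, qj, qs, qC, qθ⟩ := pow_path M hnv hv
  obtain ⟨q', q0', qj', qs', qC', qθ'⟩ := pow_path M hnv (M.CB_inv hv)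
  have hdiv : ∀ i ≤ m * nv, i / nv ≤ m := fun i hi =>
    Nat.div_le_of_le_mul (by rwa [mul_comm])
  have h1 := h.path (m * nv) hm q q0 (fun i _ => qs i) Din (by
    intro z hz i hi
    refine hD z hz i hi _ (qC i) ⟨i / nv, hdiv i hi, Or.inl ?_⟩
    have := qθ i
    rwa [θ_τht] at this)
  have h2 := h.path (m * nv) hm q' q0' (fun i _ => qs' i) Din (by
    intro z hz i hi
    refine hD z hz i hi _ (qC' i) ⟨i / nv, hdiv i hi, Or.inr ?_⟩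
    have := qθ' i
    rwa [M.θ_inv, θ_τht, smul_neg, sub_neg_eq_add] at this)
  rw [two_mul]
  refine le_trans (measure_mono ?_) ((measure_union_le _ _).trans (add_le_add h1 h2))
  rintro z ⟨hz, hz2⟩
  by_contra hcon
  rw [mem_union, not_or] at hcon
  obtain ⟨h3, h4⟩ := hcon
  simp only [mem_setOf_eq, not_and, not_or, not_not, not_exists, not_lt] at h3 h4
  apply hz2
  intro j hj
  have hjm : j * nv ≤ m * nv := Nat.mul_le_mul_right _ hj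
  have h5 := (h3 hz).2 (j * nv) hjm
  have h6 := (h4 hz).2 (j * nv) hjm
  rw [qj, θ_τpow] at h5
  rw [qj'] at h6
  have e6 : M.θ ((M.τ v)⁻¹ ^ j) = -((j : ℝ) • (ht v : Ht k)) := by
    rw [inv_pow, M.θ_inv, θ_τpow]
  rw [e6] at h6
  constructor
  · rw [Tl_apply, ← map_smul]
    exact h5
  · rw [Tl_apply, ← map_smul]
    rw [map_neg, sub_neg_eq_add] at h6
    exact h6

end Vale.Agent.P188.Z1.RModel.F6
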