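import Vale.Agent.P188.H616.Tau
import Mathlib.MeasureTheory.Integral.Average
import Mathlib.Analysis.Normed.Group.Basic

/-!
# P188, block FLATNESS, part 2: scripts, selection of a base point, exact base point
-/

set_option linter.all false

namespace Vale.Agent.P188.H616

open MeasureTheory Set

variable {S : Type*} [Group S]

/-! ### the moves `Φ u g` -/

/-- A class function `s` (section modulo `E`). -/
structure Sec (E : Subgroup S) (s : S → S) : Prop where
  mem : ∀ z, z * (s z)⁻¹ ∈ E
  inv : ∀ e ∈ E, ∀ z, s (e * z) = s z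

/-- `n c ↦ n u c g` -/
def Phi (s : S → S) (u g z : S) : S := z * (s z)⁻¹ * u * s z * g

theorem Phi_mul (s : S → S) (u g h z : S) : Phi s u (g * h) z = Phi s u g z * h := by
  unfold Phi; group

theorem Phi_one (s : S → S) (z : S) : Phi s 1 1 z = z := by unfold Phi; group

theorem Phi_one_left (s : S → S) (g z : S) : Phi s 1 g z = z * g := by unfold Phi; group

variable {E : Subgroup S} {s : S → S}

theorem Sec.s_s (h : Sec E s) (z : S) : s (s z) = s z := by
  have h1 := h.inv _ (h.mem z) (s z)
  rw [inv_mul_cancel_right] at h1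
  exact h1.symm

theorem Sec.s_Phi (h : Sec E s) {u : S} (hu : u ∈ E) (g z : S) : s (Phi s u g z * g⁻¹) = s z := by
  have h1 := h.inv (z * (s z)⁻¹ * u) (mul_mem (h.mem z) hu) (s z)
  rw [h.s_s] at h1
  rw [← h1]
  congr 1
  unfold Phi; group

/-- the slide `τ` in the frame `g` -/
def slide (s : S → S) (u g w : S) : S := w * ((s (w * g⁻¹) * g)⁻¹ * u * (s (w * g⁻¹) * g))

theorem Sec.slide_Phi (h : Sec E s) {u : S} (hu : u ∈ E) (v g z : S) :
    slide s v g (Phi s u g z) = Phi s (u * v) g z := by
  unfold slide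
  rw [h.s_Phi hu]
  unfold Phi; group

/-! ### scripts -/

section script

variable {Λ V W : Type*} [NormedAddCommGroup V] [AddCommGroup W]

/-- the bad set of one step -/
def badStep (σ : S → Λ) (f : S → V) (T : Λ → W →+ V) (D : Set S) (p q : S → S) (a : W) (err : ℝ) :
    Set S :=
  {z | z ∈ D ∧ (σ (q z) ≠ σ (p z) ∨ err < ‖f (q z) - f (p z) - T (σ (p z)) a‖)}

theorem script_bound [MeasurableSpace S] (μ : Measure S) (σ : S → Λ) (f : S → V) (T : Λ → W →+ V)
    (D : Set S) (p : ℕ → S → S) (a : ℕ → W) {err : ℝ} {ε : ENNReal} (M : ℕ)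
    (h : ∀ i < M, μ (badStep σ f T D (p i) (p (i + 1)) (a i) err) ≤ ε) :
    μ (badStep σ f T D (p 0) (p M) (∑ i ∈ Finset.range M, a i) (M * err)) ≤ M * ε := by
  have hsub : badStep σ f T D (p 0) (p M) (∑ i ∈ Finset.range M, a i) (M * err) ⊆
      ⋃ i ∈ Finset.range M, badStep σ f T D (p i) (p (i + 1)) (a i) err := by
    intro z hz
    by_contra hcon
    simp only [mem_iUnion, Finset.mem_range, not_exists] at hcon
    have h1 : ∀ i < M, σ (p (i + 1) z) = σ (p i z) ∧
        ‖f (p (i + 1) z) - f (p i z) - T (σ (p i z)) (a i)‖ ≤ err := by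
      intro i hi
      have h2 := hcon i hi
      simp only [badStep, mem_setOf_eq, not_and, not_or, not_not, not_lt] at h2
      exact h2 hz.1
    have h3 : ∀ j ≤ M, σ (p j z) = σ (p 0 z) ∧
        ‖f (p j z) - f (p 0 z) - T (σ (p 0 z)) (∑ i ∈ Finset.range j, a i)‖ ≤ j * err := by
      intro j
      induction j with
      | zero => intro _; simp
      | succ j ih =>
        intro hj
        obtain ⟨h4, h5⟩ := ih (by omega)
        obtain ⟨h6, h7⟩ := h1 j (by omega)
        refine ⟨h6.trans h4, ?_⟩
        rw [h4] at h7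
        rw [Finset.sum_range_succ, map_add]
        calc ‖f (p (j + 1) z) - f (p 0 z) -
              (T (σ (p 0 z)) (∑ i ∈ Finset.range j, a i) + T (σ (p 0 z)) (a j))‖
            = ‖(f (p (j + 1) z) - f (p j z) - T (σ (p 0 z)) (a j)) +
              (f (p j z) - f (p 0 z) - T (σ (p 0 z)) (∑ i ∈ Finset.range j, a i))‖ := by
              congr 1; abel
          _ ≤ _ := norm_add_le _ _
          _ ≤ err + j * err := add_le_add h7 h5
          _ = _ := by push_cast; ring
    obtain ⟨h8, h9⟩ := h3 M le_rfl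
    rcases hz.2 with h10 | h10
    · exact h10 h8
    · exact absurd h10 (not_lt.2 h9)
  calc μ (badStep σ f T D (p 0) (p M) (∑ i ∈ Finset.range M, a i) (M * err))
      ≤ μ (⋃ i ∈ Finset.range M, badStep σ f T D (p i) (p (i + 1)) (a i) err) := measure_mono hsub
    _ ≤ ∑ i ∈ Finset.range M, μ (badStep σ f T D (p i) (p (i + 1)) (a i) err) :=
        measure_biUnion_finset_le _ _
    _ ≤ ∑ i ∈ Finset.range M, ε := Finset.sum_le_sum fun i hi => h i (Finset.mem_range.1 hi)
    _ = M * ε := by simp

end script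

/-! ### selection -/

theorem exists_good [MeasurableSpace S] {E' : Type*} [MeasurableSpace E'] (μ : Measure S)
    [SFinite μ] (ν : Measure E') [SFinite ν] {D : Set S} (hD : MeasurableSet D) (hD0 : μ D ≠ 0)
    (hD1 : μ D ≠ ⊤) {Bx : Set E'} (hBx : MeasurableSet Bx) {bad : Set (S × E')}
    (hbad : MeasurableSet bad) {ε : ENNReal}
    (h : ∀ u ∈ Bx, μ {z | z ∈ D ∧ (z, u) ∈ bad} ≤ ε * μ D) :
    ∃ z ∈ D, ν {u | u ∈ Bx ∧ (z, u) ∈ bad} ≤ ε * ν Bx := by
  set F : S → ENNReal := fun z => ν {u | u ∈ Bx ∧ (z, u) ∈ bad} with hF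
  have hFm : Measurable F := by
    have : MeasurableSet ((univ ×ˢ Bx) ∩ bad) := (MeasurableSet.univ.prod hBx).inter hbad
    have h2 := measurable_measure_prodMk_left (ν := ν) this
    have h3 : F = fun z => ν (Prod.mk z ⁻¹' ((univ ×ˢ Bx) ∩ bad)) := by
      funext z
      simp only [hF]
      congr 1
      ext u
      simp
    rw [h3]
    exact h2
  have h1 : ∫⁻ z in D, F z ∂μ ≤ ε * μ D * ν Bx := by
    have hset : MeasurableSet ((D ×ˢ Bx) ∩ bad) := (hD.prod hBx).inter hbad
    calc ∫⁻ z in D, F z ∂μ = ∫⁻ z, ν (Prod.mk z ⁻¹' ((D ×ˢ Bx) ∩ bad)) ∂μ := by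
          rw [← lintegral_indicator hD]
          refine lintegral_congr fun z => ?_
          by_cases hz : z ∈ D
          · rw [indicator_of_mem hz]
            simp only [hF]
            congr 1
            ext u
            simp [hz]
          · rw [indicator_of_notMem hz]
            symm
            convert measure_empty (μ := ν)
            ext u
            simp [hz]
      _ = (μ.prod ν) ((D ×ˢ Bx) ∩ bad) := (Measure.prod_apply hset).symm
      _ = ∫⁻ u, μ ((fun z => (z, u)) ⁻¹' ((D ×ˢ Bx) ∩ bad)) ∂ν := Measure.prod_apply_symm hset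
      _ ≤ ∫⁻ u, Bx.indicator (fun _ => ε * μ D) u ∂ν := by
          refine lintegral_mono fun u => ?_
          by_cases hu : u ∈ Bx
          · rw [indicator_of_mem hu]
            refine le_trans (measure_mono ?_) (h u hu)
            rintro z ⟨h3, h4⟩
            exact ⟨h3.1, h4⟩
          · rw [indicator_of_notMem hu]
            refine le_of_eq ?_
            convert measure_empty (μ := μ)
            ext z
            simp [hu]
      _ = ε * μ D * ν Bx := by
          rw [lintegral_indicator hBx, setLIntegral_const]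
  obtain ⟨z, hz, hz2⟩ := exists_le_setLAverage hD0 hD1 (hFm.aemeasurable)
  refine ⟨z, hz, ?_⟩
  refine hz2.trans ?_
  rw [setLAverage_eq]
  refine (ENNReal.div_le_of_le_mul ?_)
  refine h1.trans (le_of_eq ?_)
  ring

end Vale.Agent.P188.H616
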