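import Vale.Agent.P188.H616.Flat1

/-!
# P188, block FLATNESS, part 3: from a good base point to the exact base point
-/

set_option linter.all false

namespace Vale.Agent.P188.H616

open MeasureTheory Set

variable {S : Type*} [Group S] {E : Subgroup S} {s : S → S}
  {V W : Type*} [NormedAddCommGroup V] [AddCommGroup W]

theorem exact_base [MeasurableSpace E] (ν : Measure E)
    (hinv : ∀ (n e : E) (A : Set E), ν {v | n * v * e ∈ A} ≤ ν A)
    {l : S → ℝ} {f : S → V} {L K κ : ℝ} (hf : ∀ z g, ‖f (z * g) - f z‖ ≤ L * l g) (hL : 0 ≤ L)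
    {θ : S → W} (hθ : ∀ x y, θ (x * y) = θ x + θ y) (hθE : ∀ e ∈ E, θ e = 0)
    {T : W →+ V} (hs : Sec E s) {z0 g g' r : S} {e : E} (hTr : ‖T (θ r)‖ ≤ K)
    (hr : l r ≤ κ) (hg : g = e * s z0 * g' * r) {Bx : Set E} {ε1 ε2 : ENNReal} {err : ℝ}
    (h1 : ν {u | u ∈ Bx ∧ err < ‖f (Phi s u g' z0) - f z0 - T (θ g')‖} ≤ ε1)
    (h2 : ν {v | v ∈ Bx ∧ (⟨z0 * (s z0)⁻¹, hs.mem z0⟩ : E)⁻¹ * v * e ∉ Bx} ≤ ε2) :
    ν {v | v ∈ Bx ∧ err + L * κ + K < ‖f ((v : S) * g) - (f z0 - T (θ (s z0))) - T (θ g)‖} ≤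
      ε1 + ε2 := by
  set n : E := ⟨z0 * (s z0)⁻¹, hs.mem z0⟩ with hn
  have hsub : {v | v ∈ Bx ∧ err + L * κ + K < ‖f ((v : S) * g) - (f z0 - T (θ (s z0))) - T (θ g)‖} ⊆
      {v | n⁻¹ * v * e ∈ {u | u ∈ Bx ∧ err < ‖f (Phi s u g' z0) - f z0 - T (θ g')‖}} ∪
        {v | v ∈ Bx ∧ n⁻¹ * v * e ∉ Bx} := by
    rintro v ⟨hv, hv2⟩
    by_cases h3 : n⁻¹ * v * e ∈ Bx
    · refine Or.inl ⟨h3, ?_⟩
      by_contra h4
      rw [not_lt] at h4
      have e1 : Phi s ((n⁻¹ * v * e : E) : S) g' z0 = v * e * s z0 * g' := by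
        unfold Phi
        rw [hn]
        push_cast
        group
      rw [e1] at h4
      have e2 : (v : S) * g = v * e * s z0 * g' * r := by rw [hg]; group
      have h5 := hf ((v : S) * e * s z0 * g') r
      rw [← e2] at h5
      have h6 : θ g = θ (s z0) + θ g' + θ r := by
        rw [hg, hθ, hθ, hθ, hθE _ e.2, zero_add]
      refine absurd hv2 (not_lt.2 ?_)
      have h7 : f ((v : S) * g) - (f z0 - T (θ (s z0))) - T (θ g) =
          (f ((v : S) * g) - f (v * e * s z0 * g')) +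
            ((f (v * e * s z0 * g') - f z0 - T (θ g')) - T (θ r)) := by
        rw [h6, map_add, map_add]; abel
      rw [h7]
      calc _ ≤ ‖f ((v : S) * g) - f (v * e * s z0 * g')‖ +
            ‖(f (v * e * s z0 * g') - f z0 - T (θ g')) - T (θ r)‖ := norm_add_le _ _
        _ ≤ L * κ + (err + K) := by
            refine add_le_add (h5.trans (mul_le_mul_of_nonneg_left hr hL)) ?_
            exact (norm_sub_le _ _).trans (add_le_add h4 hTr)
        _ = _ := by ring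
    · exact Or.inr ⟨hv, h3⟩
  refine (measure_mono hsub).trans ((measure_union_le _ _).trans (add_le_add ?_ h2))
  exact (hinv n⁻¹ e _).trans h1

end Vale.Agent.P188.H616
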