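import Vale.Agent.P188.H616.Flat2

/-!
# P188, block FLATNESS, part 4: the complete abstract statement

Every `u` in the natural box is a product of boundedly many letters; every letter is applied at the
facet of the window where it merges.
-/

set_option linter.all false

namespace Vale.Agent.P188.H616

open MeasureTheory Set

variable {S : Type*} [Group S] {E : Subgroup S} {s : S → S}
  {Λ V W : Type*} [NormedAddCommGroup V] [AddCommGroup W]

section steps

variable [MeasurableSpace S] (μ : Measure S) (σ : S → Λ) (f : S → V) (T : Λ → W →+ V)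

theorem badStep_trans (D : Set S) (p q r : S → S) (a b : W) (e1 e2 : ℝ) :
    μ (badStep σ f T D p r (a + b) (e1 + e2)) ≤
      μ (badStep σ f T D p q a e1) + μ (badStep σ f T D q r b e2) := by
  refine le_trans (measure_mono ?_) (measure_union_le _ _)
  rintro z ⟨hz, hz2⟩
  by_contra hcon
  simp only [badStep, mem_union, mem_setOf_eq, not_or, not_and, not_not, not_lt] at hcon
  obtain ⟨h1, h2⟩ := hcon
  obtain ⟨h3, h4⟩ := h1 hz
  obtain ⟨h5, h6⟩ := h2 hz
  rcases hz2 with h7 | h7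
  · exact h7 (h5.trans h3)
  · rw [h3] at h6
    refine absurd h7 (not_lt.2 ?_)
    have e : f (r z) - f (p z) - T (σ (p z)) (a + b) =
        (f (r z) - f (q z) - T (σ (p z)) b) + (f (q z) - f (p z) - T (σ (p z)) a) := by
      rw [map_add]; abel
    rw [e]
    exact (norm_add_le _ _).trans (by linarith)

/-- the bad set of the right multiplication by `h` -/
def badR (θ : S → W) (h : S) (err : ℝ) : Set S :=
  {w | σ (w * h) ≠ σ w ∨ err < ‖f (w * h) - f w - T (σ w) (θ h)‖}

/-- the bad set of the slide `sl` -/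
def badL (sl : S → S) (err : ℝ) : Set S := {w | σ (sl w) ≠ σ w ∨ err < ‖f (sl w) - f w‖}

end steps

/-- Data of a script: frames `g b`, sets of positions. -/
structure Script [MeasurableSpace S] (μ : Measure S) (E : Subgroup S) (s : S → S) (σ : S → Λ)
    (f : S → V) (T : Λ → W →+ V) (θ : S → W) {B : Type*} (g : B → S) (Lt : B → Set S)
    (D0 Dm : Set S) (Ds : B → Set S) (PE : Set S) (err : ℝ) (e : ENNReal) : Prop where
  sec : Sec E s
  mp : ∀ u ∈ E, ∀ g (A : Set S), μ ((Phi s u g) ⁻¹' A) ≤ μ A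
  θ_mul : ∀ x y, θ (x * y) = θ x + θ y
  LtE : ∀ b, Lt b ⊆ E
  PEE : PE ⊆ E
  inDm : ∀ z ∈ D0, ∀ U ∈ PE, Phi s U 1 z ∈ Dm
  inDs : ∀ z ∈ D0, ∀ U ∈ PE, ∀ b, Phi s U (g b) z ∈ Ds b
  go : ∀ b, μ (Dm ∩ badR σ f T θ (g b) err) ≤ e
  back : ∀ b, μ (Ds b ∩ badR σ f T θ (g b)⁻¹ err) ≤ e
  nofold : ∀ b, ∀ u ∈ Lt b, μ (Ds b ∩ badL σ f (slide s u (g b)) err) ≤ e

namespace Script

variable [MeasurableSpace S] {μ : Measure S} {σ : S → Λ} {f : S → V} {T : Λ → W →+ V} {θ : S → W}
  {B : Type*} {g : B → S} {Lt : B → Set S} {D0 Dm : Set S} {Ds : B → Set S} {PE : Set S} {err : ℝ}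
  {e : ENNReal}

theorem right_le (Sc : Script μ E s σ f T θ g Lt D0 Dm Ds PE err e) {U g0 h : S} (hU : U ∈ E)
    {Dx : Set S} (hD : ∀ z ∈ D0, Phi s U g0 z ∈ Dx) (hb : μ (Dx ∩ badR σ f T θ h err) ≤ e) :
    μ (badStep σ f T D0 (Phi s U g0) (Phi s U (g0 * h)) (θ h) err) ≤ e := by
  refine le_trans (measure_mono ?_) ((Sc.mp U hU g0 _).trans hb)
  rintro z ⟨hz, hz2⟩
  refine ⟨hD z hz, ?_⟩
  rw [Phi_mul] at hz2
  exact hz2

theorem slide_le (Sc : Script μ E s σ f T θ g Lt D0 Dm Ds PE err e) {U u : S} {b : B}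
    (hU : U ∈ PE) (hu : u ∈ Lt b) :
    μ (badStep σ f T D0 (Phi s U (g b)) (Phi s (U * u) (g b)) 0 err) ≤ e := by
  refine le_trans (measure_mono ?_) ((Sc.mp U (Sc.PEE hU) (g b) _).trans (Sc.nofold b u hu))
  rintro z ⟨hz, hz2⟩
  refine ⟨Sc.inDs z hz U hU b, ?_⟩
  rw [map_zero, sub_zero, ← Sc.sec.slide_Phi (Sc.PEE hU)] at hz2
  exact hz2

theorem letter_le (Sc : Script μ E s σ f T θ g Lt D0 Dm Ds PE err e) {U u : S} {b : B}
    (hU : U ∈ PE) (hu : u ∈ Lt b) (hUu : U * u ∈ PE) :
    μ (badStep σ f T D0 (Phi s U 1) (Phi s (U * u) 1) 0 (3 * err)) ≤ 3 * e := by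
  have h1 := Sc.right_le (U := U) (g0 := 1) (h := g b) (Sc.PEE hU)
    (fun z hz => Sc.inDm z hz U hU) (Sc.go b)
  have h2 := Sc.slide_le hU hu
  have h3 := Sc.right_le (U := U * u) (g0 := g b) (h := (g b)⁻¹) (Sc.PEE hUu)
    (fun z hz => Sc.inDs z hz _ hUu b) (Sc.back b)
  rw [one_mul] at h1
  rw [mul_inv_cancel] at h3
  have h4 := badStep_trans μ σ f T D0 (Phi s U 1) (Phi s U (g b)) (Phi s (U * u) (g b)) (θ (g b)) 0
    err err
  have h5 := badStep_trans μ σ f T D0 (Phi s U 1) (Phi s (U * u) (g b)) (Phi s (U * u) 1)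
    (θ (g b) + 0) (θ (g b)⁻¹) (err + err) err
  have h6 : θ (g b) + 0 + θ (g b)⁻¹ = 0 := by
    have h7 := Sc.θ_mul (g b) (g b)⁻¹
    have h8 := Sc.θ_mul 1 1
    rw [mul_one] at h8
    have h9 : θ 1 = 0 := by
      have := h8
      exact left_eq_add.1 this
    rw [mul_inv_cancel, h9] at h7
    rw [add_zero]; exact h7.symm
  rw [h6] at h5
  calc _ = μ (badStep σ f T D0 (Phi s U 1) (Phi s (U * u) 1) 0 (err + err + err)) := by
        congr 2; ring
    _ ≤ (e + e) + e := h5.trans (add_le_add (h4.trans (add_le_add h1 h2)) h3)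
    _ = 3 * e := by ring

/-- all prefixes of `us`, started at `U`, are in `PE` -/
def Pre (PE : Set S) : S → List (B × S) → Prop
  | U, [] => U ∈ PE
  | U, q :: us => U ∈ PE ∧ Pre PE (U * q.2) us

theorem Pre.start {PE : Set S} {U : S} {us : List (B × S)} (h : Pre PE U us) : U ∈ PE := by
  cases us with
  | nil => exact h
  | cons q us => exact h.1

theorem Pre.end {PE : Set S} {U : S} {us : List (B × S)} (h : Pre PE U us) :
    U * (us.map Prod.snd).prod ∈ PE := by
  induction us generalizing U with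
  | nil =>
    have h' : U ∈ PE := h
    simpa using h'
  | cons q us ih =>
    have := ih h.2
    rwa [List.map_cons, List.prod_cons, ← mul_assoc]

theorem list_le (Sc : Script μ E s σ f T θ g Lt D0 Dm Ds PE err e) (us : List (B × S))
    (hus : ∀ q ∈ us, q.2 ∈ Lt q.1) {U : S} (hp : Pre PE U us) :
    μ (badStep σ f T D0 (Phi s U 1) (Phi s (U * (us.map Prod.snd).prod) 1) 0
      (us.length * (3 * err))) ≤ us.length * (3 * e) := by
  induction us generalizing U with
  | nil =>
    simp only [List.map_nil, List.prod_nil, mul_one, List.length_nil, Nat.cast_zero, zero_mul]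
    refine le_of_eq ?_
    convert measure_empty (μ := μ)
    rw [eq_empty_iff_forall_notMem]
    rintro z ⟨_, h | h⟩
    · exact h rfl
    · simp at h
  | cons q us ih =>
    have h1 := Sc.letter_le hp.1 (hus q (by simp)) hp.2.start
    have h2 := ih (fun q' hq' => hus q' (by simp [hq'])) hp.2
    have h3 := badStep_trans μ σ f T D0 (Phi s U 1) (Phi s (U * q.2) 1)
      (Phi s (U * q.2 * (us.map Prod.snd).prod) 1) 0 0 (3 * err) (us.length * (3 * err))
    rw [add_zero] at h3
    rw [List.map_cons, List.prod_cons, ← mul_assoc, List.length_cons]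
    calc _ = μ (badStep σ f T D0 (Phi s U 1) (Phi s (U * q.2 * (us.map Prod.snd).prod) 1) 0
          (3 * err + us.length * (3 * err))) := by
          congr 2; push_cast; ring
      _ ≤ 3 * e + us.length * (3 * e) := h3.trans (add_le_add h1 h2)
      _ = _ := by push_cast; ring

/-- **the script bound** -/
theorem final_le (Sc : Script μ E s σ f T θ g Lt D0 Dm Ds PE err e) (he : 0 ≤ err) {M : ℕ}
    (us : List (B × S)) (hM : us.length ≤ M)
    (hus : ∀ q ∈ us, q.2 ∈ Lt q.1) (hp : Pre PE 1 us) {h : S} (hgo : μ (Dm ∩ badR σ f T θ h err) ≤ e) :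
    μ {z | z ∈ D0 ∧ (σ (Phi s (us.map Prod.snd).prod h z) ≠ σ z ∨
      (3 * M + 1 : ℕ) * err < ‖f (Phi s (us.map Prod.snd).prod h z) - f z - T (σ z) (θ h)‖)} ≤
      (3 * M + 1 : ℕ) * e := by
  have h1 := Sc.list_le us hus hp
  have h2 := hp.end
  rw [one_mul] at h1 h2
  have h3 := Sc.right_le (U := (us.map Prod.snd).prod) (g0 := 1) (h := h) (Sc.PEE h2)
    (fun z hz => Sc.inDm z hz _ h2) hgo
  rw [one_mul] at h3
  have h4 := badStep_trans μ σ f T D0 (Phi s 1 1) (Phi s (us.map Prod.snd).prod 1)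
      (Phi s (us.map Prod.snd).prod h) 0 (θ h) (us.length * (3 * err)) err
  rw [zero_add] at h4
  have hle : (us.length : ℝ) ≤ M := by exact_mod_cast hM
  calc _ ≤ μ (badStep σ f T D0 (Phi s 1 1) (Phi s (us.map Prod.snd).prod h) (θ h)
        (us.length * (3 * err) + err)) := by
        refine measure_mono ?_
        rintro z ⟨hz, hz2⟩
        refine ⟨hz, ?_⟩
        rw [Phi_one]
        rcases hz2 with h5 | h5
        · exact Or.inl h5
        · refine Or.inr (lt_of_le_of_lt ?_ h5)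
          push_cast
          nlinarith
    _ ≤ us.length * (3 * e) + e := h4.trans (add_le_add h1 h3)
    _ ≤ M * (3 * e) + e := by gcongr
    _ = _ := by push_cast; ring

end Script

end Vale.Agent.P188.H616
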