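import Vale.Agent.P188.H616.Flat3
import Mathlib.MeasureTheory.Constructions.BorelSpace.Metric

/-!
# P188, block FLATNESS, part 5: all slices of the window are flat
-/

set_option linter.all false

namespace Vale.Agent.P188.H616

open MeasureTheory Set

variable {S : Type*} [Group S] {E : Subgroup S} {s : S → S}
  {Λ V W : Type*} [NormedAddCommGroup V] [AddCommGroup W]
  [MeasurableSpace S] {μ : Measure S} {σ : S → Λ} {f : S → V} {T : Λ → W →+ V} {θ : S → W}
  {B : Type*} {g : B → S} {Lt : B → Set S} {D0 Dm : Set S} {Ds : B → Set S} {PE : Set S} {err : ℝ}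
  {e : ENNReal}

/-- **Selection of a base point** which is good for finitely many end frames `h i`. -/
theorem Script.exists_base [MeasurableMul₂ S] [MeasurableInv S] [MeasurableSpace V] [BorelSpace V]
    [SecondCountableTopology V] [MeasurableSpace Λ] [Countable Λ] [MeasurableSingletonClass Λ]
    [SFinite μ] (Sc : Script μ E s σ f T θ g Lt D0 Dm Ds PE err e) (he : 0 ≤ err) {M : ℕ}
    (hsm : Measurable s) (hσ : Measurable σ) (hf : Measurable f)
    {I : Type*} [Fintype I] {h : I → S} (hgo : ∀ i, μ (Dm ∩ badR σ f T θ (h i) err) ≤ e)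
    (ν : Measure E) [SFinite ν] {Bx : Set E} (hBx : MeasurableSet Bx)
    (hus : ∀ u ∈ Bx, ∃ us : List (B × S), us.length ≤ M ∧ (∀ q ∈ us, q.2 ∈ Lt q.1) ∧
      Script.Pre PE 1 us ∧ (us.map Prod.snd).prod = (u : S))
    (hD0 : MeasurableSet D0) (h0 : μ D0 ≠ 0) (h1 : μ D0 ≠ ⊤) {ε : ENNReal}
    (hε : (3 * M + 1 : ℕ) * e ≤ ε * μ D0) :
    ∃ z ∈ D0, ∀ i, ν {u | u ∈ Bx ∧ (σ (Phi s (u : S) (h i) z) ≠ σ z ∨
      (3 * M + 1 : ℕ) * err < ‖f (Phi s (u : S) (h i) z) - f z - T (σ z) (θ (h i))‖)} ≤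
      Fintype.card I * ε * ν Bx := by
  classical
  set bad : I → Set (S × E) := fun i => {q | σ (Phi s (q.2 : S) (h i) q.1) ≠ σ q.1 ∨
      (3 * M + 1 : ℕ) * err < ‖f (Phi s (q.2 : S) (h i) q.1) - f q.1 - T (σ q.1) (θ (h i))‖}
    with hbad
  have hP : ∀ i, Measurable fun q : S × E => Phi s (q.2 : S) (h i) q.1 := by
    intro i
    unfold Phi
    have a1 : Measurable fun q : S × E => s q.1 := hsm.comp measurable_fst
    exact (((measurable_fst.mul a1.inv).mul (measurable_subtype_coe.comp measurable_snd)).mul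
      a1).mul measurable_const
  have hbm : ∀ i, MeasurableSet (bad i) := by
    intro i
    have hT : Measurable fun q : S × E => T (σ q.1) (θ (h i)) := by
      have : Measurable fun a : Λ => T a (θ (h i)) := measurable_of_countable _
      exact this.comp (hσ.comp measurable_fst)
    refine MeasurableSet.union ?_ ?_
    · have : {q : S × E | σ (Phi s (q.2 : S) (h i) q.1) = σ q.1} = ⋃ a : Λ,
          ((fun q : S × E => σ (Phi s (q.2 : S) (h i) q.1)) ⁻¹' {a} ∩
            (fun q : S × E => σ q.1) ⁻¹' {a}) := by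
        ext q
        simp only [mem_setOf_eq, mem_iUnion, mem_inter_iff, mem_preimage, mem_singleton_iff]
        constructor
        · intro h5
          exact ⟨σ q.1, h5, rfl⟩
        · rintro ⟨a, h5, h6⟩
          exact h5.trans h6.symm
      have hm : MeasurableSet {q : S × E | σ (Phi s (q.2 : S) (h i) q.1) = σ q.1} := by
        rw [this]
        exact MeasurableSet.iUnion fun a => ((hσ.comp (hP i)) (measurableSet_singleton a)).inter
          ((hσ.comp measurable_fst) (measurableSet_singleton a))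
      exact hm.compl
    · exact measurableSet_lt measurable_const
        ((((hf.comp (hP i)).sub (hf.comp measurable_fst)).sub hT).norm)
  have hbU : MeasurableSet (⋃ i, bad i) := MeasurableSet.iUnion hbm
  obtain ⟨z, hz, hz2⟩ := exists_good μ ν hD0 h0 h1 hBx hbU (ε := Fintype.card I * ε) (by
    intro u hu
    obtain ⟨us, k1, k2, k3, k4⟩ := hus u hu
    have k5 : ∀ i, μ {z | z ∈ D0 ∧ (z, u) ∈ bad i} ≤ ε * μ D0 := by
      intro i
      have := Sc.final_le he us k1 k2 k3 (hgo i)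
      rw [k4] at this
      exact this.trans hε
    calc μ {z | z ∈ D0 ∧ (z, u) ∈ ⋃ i, bad i} ≤ μ (⋃ i, {z | z ∈ D0 ∧ (z, u) ∈ bad i}) := by
          refine measure_mono ?_
          rintro z ⟨h3, h4⟩
          rw [mem_iUnion] at h4 ⊢
          obtain ⟨i, hi⟩ := h4
          exact ⟨i, h3, hi⟩
      _ ≤ ∑ i, μ {z | z ∈ D0 ∧ (z, u) ∈ bad i} := by
          have := measure_iUnion_fintype_le μ fun i => {z | z ∈ D0 ∧ (z, u) ∈ bad i}
          exact this
      _ ≤ ∑ i : I, ε * μ D0 := Finset.sum_le_sum fun i _ => k5 i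
      _ = Fintype.card I * ε * μ D0 := by
          rw [Finset.sum_const, Finset.card_univ, nsmul_eq_mul, mul_assoc])
  refine ⟨z, hz, fun i => le_trans (measure_mono ?_) hz2⟩
  rintro u ⟨hu, hu2⟩
  exact ⟨hu, mem_iUnion.2 ⟨i, hu2⟩⟩

/-- **FLATNESS**: all slices `Bx * x` with `x = e * s z * h i * r` are flat, with the same label and
the same constant. -/
theorem Script.flat [MeasurableMul₂ S] [MeasurableInv S] [MeasurableSpace V] [BorelSpace V]
    [SecondCountableTopology V] [MeasurableSpace Λ] [Countable Λ] [MeasurableSingletonClass Λ]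
    [SFinite μ] (Sc : Script μ E s σ f T θ g Lt D0 Dm Ds PE err e) (he : 0 ≤ err) {M : ℕ}
    (hsm : Measurable s) (hσ : Measurable σ) (hf : Measurable f)
    {I : Type*} [Fintype I] {h : I → S} (hgo : ∀ i, μ (Dm ∩ badR σ f T θ (h i) err) ≤ e)
    (ν : Measure E) [SFinite ν] {Bx : Set E} (hBx : MeasurableSet Bx)
    (hus : ∀ u ∈ Bx, ∃ us : List (B × S), us.length ≤ M ∧ (∀ q ∈ us, q.2 ∈ Lt q.1) ∧
      Script.Pre PE 1 us ∧ (us.map Prod.snd).prod = (u : S))
    (hD0 : MeasurableSet D0) (h0 : μ D0 ≠ 0) (h1 : μ D0 ≠ ⊤) {ε : ENNReal}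
    (hε : (3 * M + 1 : ℕ) * e ≤ ε * μ D0)
    (hinv : ∀ (n e : E) (A : Set E), ν {v | n * v * e ∈ A} ≤ ν A)
    {l : S → ℝ} {L K κ : ℝ} (hlip : ∀ z g, ‖f (z * g) - f z‖ ≤ L * l g) (hL : 0 ≤ L)
    (hθE : ∀ e ∈ E, θ e = 0) (hK : ∀ (a : Λ) (r : S), l r ≤ κ → ‖T a (θ r)‖ ≤ K)
    {G : Set S} {ε2 : ENNReal}
    (hG : ∀ z ∈ D0, ∀ x ∈ G, ∃ i, ∃ e' : E, ∃ r, l r ≤ κ ∧ x = e' * s z * h i * r ∧
      ν {v | v ∈ Bx ∧ (⟨z * (s z)⁻¹, Sc.sec.mem z⟩ : E)⁻¹ * v * e' ∉ Bx} ≤ ε2) :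
    ∃ a : Λ, ∃ c : V, ∀ x ∈ G, ν {v | v ∈ Bx ∧
      (3 * M + 1 : ℕ) * err + L * κ + K < ‖f ((v : S) * x) - c - T a (θ x)‖} ≤
        Fintype.card I * ε * ν Bx + ε2 := by
  obtain ⟨z, hz, hz2⟩ := Sc.exists_base he hsm hσ hf hgo ν hBx hus hD0 h0 h1 hε
  refine ⟨σ z, f z - T (σ z) (θ (s z)), fun x hx => ?_⟩
  obtain ⟨i, e', r, hr, hxe, hν⟩ := hG z hz x hx
  refine exact_base ν hinv hlip hL Sc.θ_mul hθE Sc.sec (hK _ _ hr) hr hxe ?_ hν
  refine le_trans (measure_mono ?_) (hz2 i)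
  rintro u ⟨hu, hu2⟩
  exact ⟨hu, Or.inr hu2⟩

end Vale.Agent.P188.H616
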