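import Vale.Agent.P188.H616.M9

/-!
# P188, FLAT in the model, part 10: numerics
-/

set_option linter.all false

open MeasureTheory Set Filter

namespace Vale.Agent.P188.Z1.RModel.F6

theorem num_big {κq C d' e' lt : ℝ} {n : ℕ} (A : ℝ) (hκq : 0 < κq) (hC : 1 ≤ C) (hd : 0 ≤ d')
    (he : 0 ≤ e') (hlt : 0 ≤ lt)
    (hco : (n + 1) * (C * d' + 2 * e') + 3 * e' + 2 * C * d' ≤ κq / 8) :
    ∀ᶠ s : ℝ in atTop, ∀ m : ℕ, (m : ℝ) ≤ A * s →
      2 * ((n + 1) * ((2 * m + 1) * (C * (1 + d' * s + lt) *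
        Real.exp (0 + (n + 1) * (C * (d' * s) + 2 * (e' * s)) + 3 * (e' * s) +
          2 * C * (d' * s + lt))))) ≤ Real.exp ((⌊κq * s / 2⌋₊ : ℝ) - C) := by
  have h8 : 0 < κq / 8 := by positivity
  filter_upwards [ev_polyB (2 * (n + 1) * (C * (1 + lt) * Real.exp (2 * C * lt))) (2 * A + d') 2 h8
    one_pos, ev_linB (1 + C) (show 0 < κq / 4 by positivity), eventually_ge_atTop (0 : ℝ)]
    with s h1 h2 hs m hm
  have hm0 : (0 : ℝ) ≤ m := Nat.cast_nonneg m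
  have hA : 0 ≤ A * s := hm0.trans hm
  have hds : 0 ≤ d' * s := mul_nonneg hd hs
  have e1 : (2 * (m : ℝ) + 1) * (1 + d' * s + lt) ≤ (1 + lt) * (1 + (2 * A + d') * s) ^ 2 := by
    have a1 : 2 * (m : ℝ) + 1 ≤ 1 + (2 * A + d') * s := by nlinarith
    have a2 : 1 + d' * s + lt ≤ (1 + lt) * (1 + (2 * A + d') * s) := by
      nlinarith [mul_nonneg hlt hds, mul_nonneg hlt hA]
    calc (2 * (m : ℝ) + 1) * (1 + d' * s + lt)
        ≤ (1 + (2 * A + d') * s) * ((1 + lt) * (1 + (2 * A + d') * s)) := by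
          refine mul_le_mul a1 a2 (by positivity) ?_
          nlinarith
      _ = _ := by ring
  have e2 : (0 : ℝ) + (n + 1) * (C * (d' * s) + 2 * (e' * s)) + 3 * (e' * s) +
      2 * C * (d' * s + lt) = ((n + 1) * (C * d' + 2 * e') + 3 * e' + 2 * C * d') * s +
        2 * C * lt := by ring
  have e3 : Real.exp ((0 : ℝ) + (n + 1) * (C * (d' * s) + 2 * (e' * s)) + 3 * (e' * s) +
      2 * C * (d' * s + lt)) ≤ Real.exp (κq / 8 * s) * Real.exp (2 * C * lt) := by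
    rw [e2, ← Real.exp_add, Real.exp_le_exp]
    have := mul_le_mul_of_nonneg_right hco hs
    linarith
  have hn0 : (0 : ℝ) ≤ n := Nat.cast_nonneg n
  calc 2 * ((n + 1) * ((2 * m + 1) * (C * (1 + d' * s + lt) *
        Real.exp (0 + (n + 1) * (C * (d' * s) + 2 * (e' * s)) + 3 * (e' * s) +
          2 * C * (d' * s + lt)))))
      = 2 * (n + 1) * C * ((2 * m + 1) * (1 + d' * s + lt)) *
        Real.exp (0 + (n + 1) * (C * (d' * s) + 2 * (e' * s)) + 3 * (e' * s) +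
          2 * C * (d' * s + lt)) := by ring
    _ ≤ 2 * (n + 1) * C * ((1 + lt) * (1 + (2 * A + d') * s) ^ 2) *
        (Real.exp (κq / 8 * s) * Real.exp (2 * C * lt)) := by
        have hC0 : 0 ≤ C := by linarith
        gcongr
    _ = (2 * (n + 1) * (C * (1 + lt) * Real.exp (2 * C * lt)) * (1 + (2 * A + d') * s) ^ 2) *
        Real.exp (κq / 8 * s) := by ring
    _ ≤ (1 * Real.exp (κq / 8 * s)) * Real.exp (κq / 8 * s) := by gcongr
    _ = Real.exp (κq / 4 * s) := by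
        rw [one_mul, ← Real.exp_add]; congr 1; ring
    _ ≤ _ := by
        rw [Real.exp_le_exp]
        have := Nat.lt_floor_add_one (κq * s / 2)
        linarith

theorem two_pow_ge {a : ℝ} (n : ℕ) (h : a ≤ n) : Real.exp (a / 2) ≤ 2 ^ n := by
  have h1 : Real.exp (a / 2) ≤ Real.exp (n / 2) := Real.exp_le_exp.2 (by linarith)
  refine h1.trans ?_
  have h2 : Real.exp ((n : ℝ) / 2) = Real.exp (1 / 2) ^ n := by
    rw [← Real.exp_nat_mul]; congr 1; ring
  rw [h2]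
  refine pow_le_pow_left₀ (Real.exp_pos _).le ?_ n
  have h3 : Real.exp (1 / 2) ^ 2 ≤ 2 ^ 2 := by
    rw [← Real.exp_nat_mul]
    have := Real.exp_one_lt_d9
    norm_num
    linarith
  exact le_of_sq_le_sq h3 (by norm_num)
where
  le_of_sq_le_sq {a b : ℝ} (h : a ^ 2 ≤ b ^ 2) (hb : 0 ≤ b) : a ≤ b := by
    nlinarith [sq_nonneg (a - b)]

theorem num_spread {κq C a₁ a₂ κ'' C₃ C' θ θ' : ℝ} {k K : ℕ} (hκq : 0 < κq) (hC : 1 ≤ C)
    (ha₁ : 0 ≤ a₁) (ha₂ : 0 ≤ a₂) (hκ'' : 0 ≤ κ'') (hC₃ : 0 ≤ C₃) (hC' : 0 ≤ C') (hθ : 0 < θ)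
    (hθ' : 0 < θ') (hK : 2 * κ'' * K ≤ κq / 8) :
    ∀ᶠ s : ℝ in atTop, ∀ N m' : ℕ, (N : ℝ) ≤ (2 * |a₁ * s| + 1) ^ k *
        (K * (1 + C₃ * Real.exp (2 * κ'' * s)) / θ') ^ K →
      (m' : ℝ) ≤ C' * (2 * |a₂ * s| + 1) ^ k + 1 →
      ((N * 2 ^ ⌊κq * s / 2⌋₊ : ℕ) : ENNReal) * (ENNReal.ofReal C * m') <
        2 ^ ⌊κq * s⌋₊ * ENNReal.ofReal θ := by
  have h8 : 0 < κq / 8 := by positivity
  filter_upwards [ev_polyB ((K * (1 + C₃) / θ') ^ K * (C * (C' + 1))) (2 * a₁ + 2 * a₂) (2 * k) h8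
    (show 0 < θ / 8 by positivity), eventually_ge_atTop (0 : ℝ)] with s h1 hs N m' hN hm'
  have hE : 1 ≤ Real.exp (2 * κ'' * s) := Real.one_le_exp (by positivity)
  set P : ℝ := 1 + (2 * a₁ + 2 * a₂) * s with hP
  have hP1 : 1 ≤ P := by
    rw [hP]
    have : 0 ≤ (2 * a₁ + 2 * a₂) * s := by positivity
    linarith
  have e1 : (2 * |a₁ * s| + 1) ^ k ≤ P ^ k := by
    refine pow_le_pow_left₀ (by positivity) ?_ k
    rw [abs_of_nonneg (by positivity), hP]
    have : 0 ≤ 2 * a₂ * s := by positivity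
    linarith
  have e2 : (2 * |a₂ * s| + 1) ^ k ≤ P ^ k := by
    refine pow_le_pow_left₀ (by positivity) ?_ k
    rw [abs_of_nonneg (by positivity), hP]
    have : 0 ≤ 2 * a₁ * s := by positivity
    linarith
  have e3 : (K * (1 + C₃ * Real.exp (2 * κ'' * s)) / θ') ^ K ≤
      (K * (1 + C₃) / θ') ^ K * Real.exp (κq / 8 * s) := by
    have a1 : K * (1 + C₃ * Real.exp (2 * κ'' * s)) / θ' ≤
        K * (1 + C₃) / θ' * Real.exp (2 * κ'' * s) := by
      rw [div_mul_eq_mul_div]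
      have : (1 + C₃ * Real.exp (2 * κ'' * s)) ≤ (1 + C₃) * Real.exp (2 * κ'' * s) := by nlinarith
      have h5 := mul_le_mul_of_nonneg_left this (Nat.cast_nonneg (α := ℝ) K)
      rw [← mul_assoc] at h5
      gcongr
    refine (pow_le_pow_left₀ (by positivity) a1 K).trans ?_
    rw [mul_pow, ← Real.exp_nat_mul]
    refine mul_le_mul_of_nonneg_left (Real.exp_le_exp.2 ?_) (by positivity)
    have := mul_le_mul_of_nonneg_right hK hs
    linarith
  have e4 : (N : ℝ) ≤ P ^ k * ((K * (1 + C₃) / θ') ^ K * Real.exp (κq / 8 * s)) :=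
    hN.trans (mul_le_mul e1 e3 (by positivity) (by positivity))
  have e5 : (m' : ℝ) ≤ (C' + 1) * P ^ k := by
    refine hm'.trans ?_
    have h6 : 1 ≤ P ^ k := one_le_pow₀ hP1
    have h7 := mul_le_mul_of_nonneg_left e2 hC'
    linarith
  have e6 : (N : ℝ) * (C * m') ≤ θ / 8 * Real.exp (κq * s / 4) := by
    calc (N : ℝ) * (C * m') ≤ (P ^ k * ((K * (1 + C₃) / θ') ^ K * Real.exp (κq / 8 * s))) *
          (C * ((C' + 1) * P ^ k)) := by gcongr
      _ = ((K * (1 + C₃) / θ') ^ K * (C * (C' + 1)) * P ^ (2 * k)) * Real.exp (κq / 8 * s) := by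
          rw [two_mul, pow_add]; ring
      _ ≤ (θ / 8 * Real.exp (κq / 8 * s)) * Real.exp (κq / 8 * s) := by gcongr
      _ = _ := by
          rw [mul_assoc, ← Real.exp_add]; congr 2; ring
  set q := ⌊κq * s⌋₊ with hq
  set j := ⌊κq * s / 2⌋₊ with hj
  have hκs : 0 ≤ κq * s := by positivity
  have hjq : j ≤ q := Nat.floor_mono (by linarith)
  have e7 : Real.exp (κq * s / 4) ≤ 2 * 2 ^ (q - j) := by
    have h5 : κq * s / 2 ≤ ((q - j + 1 : ℕ) : ℝ) := by
      push_cast [Nat.cast_sub hjq]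
      have h6 := Nat.lt_floor_add_one (κq * s)
      have h7 := Nat.floor_le (show 0 ≤ κq * s / 2 by positivity)
      linarith
    have h8 := two_pow_ge _ h5
    rw [pow_succ] at h8
    have h9 : κq * s / 2 / 2 = κq * s / 4 := by ring
    rw [h9] at h8
    linarith
  have e8 : (N : ℝ) * 2 ^ j * (C * m') < 2 ^ q * θ := by
    have h5 : (2 : ℝ) ^ q = 2 ^ j * 2 ^ (q - j) := by rw [← pow_add]; congr 1; omega
    rw [h5]
    calc (N : ℝ) * 2 ^ j * (C * m') = 2 ^ j * (N * (C * m')) := by ring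
      _ ≤ 2 ^ j * (θ / 8 * (2 * 2 ^ (q - j))) := by
          refine mul_le_mul_of_nonneg_left (e6.trans ?_) (by positivity)
          exact mul_le_mul_of_nonneg_left e7 (by positivity)
      _ = 2 ^ j * 2 ^ (q - j) * (θ / 4) := by ring
      _ < 2 ^ j * 2 ^ (q - j) * θ := by
          refine mul_lt_mul_of_pos_left (by linarith) (by positivity)
  have hC0 : 0 ≤ C := by linarith
  have e9 : ((N * 2 ^ j : ℕ) : ENNReal) * (ENNReal.ofReal C * m') =
      ENNReal.ofReal ((N : ℝ) * 2 ^ j * (C * m')) := by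
    rw [ENNReal.ofReal_mul (by positivity), ENNReal.ofReal_mul hC0,
      ENNReal.ofReal_mul (Nat.cast_nonneg _), ENNReal.ofReal_pow (by norm_num)]
    simp
  have e10 : (2 : ENNReal) ^ q * ENNReal.ofReal θ = ENNReal.ofReal (2 ^ q * θ) := by
    rw [ENNReal.ofReal_mul (by positivity), ENNReal.ofReal_pow (by norm_num)]
    simp
  rw [e9, e10]
  exact (ENNReal.ofReal_lt_ofReal_iff (by positivity)).2 e8

end Vale.Agent.P188.Z1.RModel.F6
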