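import Vale.Agent.P188.H616.M11
import Vale.Agent.P188.H329.PackQ

/-!
# P188, FLAT in the model, part 12: NOFOLD for one pair of labels
-/

set_option linter.all false

open MeasureTheory Set Filter
open Vale.Agent.P188.H530 (hgt)
open Vale.Agent.P188.H616 (Coord Sec Phi slide StrAt nofold_fill Up3)
open Vale.Agent.P188.H329 (InP prS Rel win Reach)

namespace Vale.Agent.P188.Z1.RModel.F6

variable {S : Type} [Group S] [MeasurableSpace S] {Γ : Type} [Group Γ]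
  {V : Type} [AddCommGroup V] [Module ℝ V] {k : ℕ} {M : RModel S Γ V k}

/-- the conclusion of FILL for the letters of sizes `R` -/
def FillC (M : RModel S Γ V k) (R : M.ι → ℝ) (n : ℕ) (θ' : ENNReal) (c : ℕ) (CI : ℝ) (N0 : ℕ) : Prop :=
  ∀ G : Set S, MeasurableSet G →
    (∀ z ∈ G, ∀ i, θ' ≤ win (fun j x => M.ex ((R j * x) • M.X j)) i G z) → ∀ z0 : S,
    ∃ T : Finset S, T.card ≤ N0 ∧ ∀ z ∈ G, InP (fun j x => M.ex ((R j * x) • M.X j)) c CI z0 z →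
      ∃ t ∈ T, Reach (fun j x => M.ex ((R j * x) • M.X j)) G n z t

/-- the conclusion of SPREAD for the coordinate `X` -/
def SprC (M : RModel S Γ V k) (h : S → ℝ) (X : S → ℂ) (C : ℝ) : Prop :=
  ∀ (q j N m' : ℕ) (θ : ENNReal) (DD Dp : Set S), M.μ DD ≠ ⊤ → M.μ Dp ≤ m' * M.μ DD →
  (∀ z ∈ DD, ∀ g, (M.l g : ℝ) ≤ C * (q + 1) → z * g ∈ Dp) →
  (N * 2 ^ j : ℕ) * (ENNReal.ofReal C * m') < 2 ^ q * θ →
  ∀ Γ₀ : Set S, MeasurableSet Γ₀ → Γ₀ ⊆ DD → θ * M.μ DD ≤ M.μ Γ₀ → M.μ Γ₀ ≠ 0 → ∃ z0 : S,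
  ∀ (Y : Finset S) (φ : S → S), Y.card ≤ N →
    (∀ z ∈ Γ₀ ∩ {z | (M.l (z0⁻¹ * z) : ℝ) ≤ C * (q + 1)}, φ z ∈ Y) →
    ∃ z ∈ Γ₀ ∩ {z | (M.l (z0⁻¹ * z) : ℝ) ≤ C * (q + 1)},
    ∃ z' ∈ Γ₀ ∩ {z | (M.l (z0⁻¹ * z) : ℝ) ≤ C * (q + 1)},
      φ z = φ z' ∧ |h z - h z'| ≤ 0 ∧ Real.exp (h z + (j - C)) < ‖X z - X z'‖

theorem pair_core {Λ : Type*} [Countable Λ] [MeasurableSpace Λ] [MeasurableSingletonClass Λ]
    {F : Γ → Γ} {b : Ht k →L[ℝ] ℝ} (hb : b ∈ M.Φ) {X : S → ℂ} {CS : ℝ} (hCS : 1 ≤ CS)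
    (hX : Coord (fun z => (M.l z : ℝ)) (fun z => b (M.f F z)) X CS CS)
    (hSp : SprC M (fun z => b (M.f F z)) X CS)
    {v : Fin k → ℤ} {m n N0 N p cI q j m' : ℕ} {d lt CI e₁ θr θr' : ℝ} {u g : S}
    (hu : M.η u = 1)
    (hlt : (M.l (M.τ v) : ℝ) ≤ lt) (hd0 : 0 ≤ d) (he₁ : 0 ≤ e₁)
    (hmerge : ∀ (j : M.ι) (x : ℝ), |x| ≤ 1 →
      (M.l ((M.τ v ^ m)⁻¹ * M.ex ((Rm M v m j * x) • M.X j) * M.τ v ^ m) : ℝ) ≤ d ∨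
      (M.l (((M.τ v)⁻¹ ^ m)⁻¹ * M.ex ((Rm M v m j * x) • M.X j) * (M.τ v)⁻¹ ^ m) : ℝ) ≤ d ∨
      (M.l (M.ex ((Rm M v m j * x) • M.X j)) : ℝ) ≤ d)
    {DD Dq Dp : Set S} (hDDm : MeasurableSet DD) (hDqm : MeasurableSet Dq) (hDD : M.μ DD ≠ ⊤)
    (hDp : M.μ Dp ≤ m' * M.μ DD) (hDp2 : ∀ z ∈ DD, ∀ g, (M.l g : ℝ) ≤ CS * (q + 1) → z * g ∈ Dp)
    (hq : ∀ z ∈ DD, ∀ j x, |x| ≤ 1 → z * M.ex ((Rm M v m j * x) • M.X j) ∈ Dq)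
    (htop : ∀ z ∈ DD, (M.l ((z * M.τ v ^ m)⁻¹ * (slide M.sec u g z * M.τ v ^ m)) : ℝ) ≤ d)
    (hfill : FillC M (Rm M v m) n (ENNReal.ofReal θr') cI CI N0)
    (hcov : ∀ z0 : S, ∃ F : Finset S, F.card ≤ p ∧
      ∀ z ∈ DD, (M.l (z0⁻¹ * z) : ℝ) ≤ CS * (q + 1) →
        ∃ z1 ∈ F, InP (fun j x => M.ex ((Rm M v m j * x) • M.X j)) cI CI z1 (slide M.sec u g z))
    (hN : p * N0 ≤ N)
    (hnum : ((N * 2 ^ j : ℕ) : ENNReal) * (ENNReal.ofReal CS * m') < 2 ^ q * ENNReal.ofReal θr)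
    (hbig : 2 * ((n + 1) * ((2 * m + 1) * (CS * (1 + d + lt) *
      Real.exp (0 + (n + 1) * (CS * d + 2 * (2 * (bΦ M * e₁))) + 3 * (2 * (bΦ M * e₁)) +
        2 * CS * (d + lt))))) ≤ Real.exp (j - CS))
    {σ : S → Λ} (hσ : Measurable σ) {T : Λ → Ht k →L[ℝ] Ht k} {s1 s2 : Λ}
    (h1 : 0 ≤ b (T s1 (ht v))) (h2 : b (T s2 (ht v)) ≤ 0) :
    M.μ {z | (z ∈ DD ∧ σ z = s2 ∧ StrAt (M.f F) σ (Tl T) (M.τ v) (ht v) m e₁ z) ∧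
      (slide M.sec u g z ∈ DD ∧ σ (slide M.sec u g z) = s1 ∧
        StrAt (M.f F) σ (Tl T) (M.τ v) (ht v) m e₁ (slide M.sec u g z))} ≤
      ENNReal.ofReal θr * M.μ DD + Nat.card M.ι * (ENNReal.ofReal θr' * M.μ Dq) := by
  haveI := M.mm
  have hb1 := one_le_bΦ M
  have hStrm : MeasurableSet {z | StrAt (M.f F) σ (Tl T) (M.τ v) (ht v) m e₁ z} :=
    StrAt.measurable (Tl T) (M.τ v) (ht v) m e₁ (M.measurable_f F) hσ fun g => (M.mp g).measurable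
  have hm : ∀ i, Measurable fun q : S × ℝ => q.1 * M.ex ((Rm M v m i * q.2) • M.X i) := by
    intro i
    have h3 := M.ex_meas (Rm M v m i • M.X i)
    have e : (fun q : S × ℝ => q.1 * M.ex ((Rm M v m i * q.2) • M.X i)) =
        fun q : S × ℝ => q.1 * M.ex (q.2 • Rm M v m i • M.X i) := by
      funext q
      rw [smul_smul, mul_comm q.2]
    rw [e]; exact h3
  have habs : ∀ x : Ht k, |(b : Ht k →ₗ[ℝ] ℝ) x| ≤ bΦ M * ‖x‖ := fun x => abs_le_bΦ M hb x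
  refine nofold_fill (ι := M.ι) (S := S) M.μ hX (s := fun j x => M.ex ((Rm M v m j * x) • M.X j))
    (t := M.τ v) (m := m) (n := n) (N0 := N0) (N := N) (p := p) (cI := cI)
    (err := 2 * (bΦ M * e₁)) (s0 := m * b (T s1 (ht v))) (s1 := 2 * (m * b (T s1 (ht v)))) (d := d)
    (lt := lt) (C0 := 0) (CI := CI) (κ0 := j - CS) hlt ?_ hd0 (by positivity) le_rfl hmerge ?_ ?_ hm
    (fun i x => M.mp _) (D := DD) (Dq := Dq)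
    (Γ1 := {z | z ∈ DD ∧ σ z = s1 ∧ StrAt (M.f F) σ (Tl T) (M.τ v) (ht v) m e₁ z})
    (Γ2 := {z | z ∈ DD ∧ σ z = s2 ∧ StrAt (M.f F) σ (Tl T) (M.τ v) (ht v) m e₁ z})
    (τ := slide M.sec u g) (θ := ENNReal.ofReal θr) (θ' := ENNReal.ofReal θr')
    (B := fun z0 => {z | (M.l (z0⁻¹ * z) : ℝ) ≤ CS * (q + 1)}) ?_ ?_ (slide_mp M hu g) hDqm ?_ ?_ ?_ ?_
    ?_ hfill ?_ hN ?_ hbig
  · rw [M.len.inv]; exact hlt
  · intro i x y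
    rw [mul_add, M.ex_add]
  · intro i
    rw [mul_zero, zero_smul, M.ex_zero]
  · exact hDDm.inter ((hσ (measurableSet_singleton s2)).inter hStrm)
  · exact hDDm.inter ((hσ (measurableSet_singleton s1)).inter hStrm)
  · exact fun z hz => hq z hz.1
  · exact fun z hz => hz.1
  · rintro z ⟨hz1, hz2, hz3⟩
    have h3 := hz3.up3 (b := (b : Ht k →ₗ[ℝ] ℝ)) habs (by linarith)
      (by rw [hz2]; exact h1)
    rw [hz2] at h3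
    exact h3
  · rintro z ⟨hz1, hz2, hz3⟩
    exact hz3.down (b := (b : Ht k →ₗ[ℝ] ℝ)) habs (by linarith) (by rw [hz2]; exact h2)
  · exact fun z hz => htop z hz.1
  · intro z0
    obtain ⟨F, hF, hF2⟩ := hcov z0
    exact ⟨F, hF, fun z hz => hF2 z hz.1.1 hz.2⟩
  · intro Γ₀ hΓm hΓ1 hΓ2 hΓ3
    exact hSp q j N m' _ DD Dp hDD hDp hDp2 hnum Γ₀ hΓm hΓ1 hΓ2 hΓ3

end Vale.Agent.P188.Z1.RModel.F6
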