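import Vale.Agent.P188.H616.M12

/-!
# P188, FLAT in the model, part 13: NOFOLD for one pair of labels, at every large scale
-/

set_option linter.all false

open MeasureTheory Set Filter
open Vale.Agent.P188.H530 (hgt)
open Vale.Agent.P188.H616 (Coord Sec Phi slide StrAt nofold_fill Up3)
open Vale.Agent.P188.H329 (InP prS Rel win Reach fillQ)

namespace Vale.Agent.P188.Z1.RModel.F6

variable {S : Type} [Group S] [MeasurableSpace S] {Γ : Type} [Group Γ]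
  {V : Type} [AddCommGroup V] [Module ℝ V] {k : ℕ} {M : RModel S Γ V k}

/-- the data of a frame and a direction -/
structure Frm (M : RModel S Γ V k) (h : (Ht k →L[ℝ] ℝ) → ℝ) (c₂ κ' κp κm Y A Vb s : ℝ) (nv : ℕ)
    (i : M.ι) (u : Ht k) (v : Fin k → ℤ) (m : ℕ) (g : S) : Prop where
  wt_ne : M.wt i ≠ 0
  fct : Fct M h c₂ (M.wt i) u
  τ_mem : M.τ v ∈ M.CB nv
  pos : 0 < M.wt i (ht v)
  m_lo : (κ' - 2 * κp) * s * h (M.wt i) - Vb ≤ m * M.wt i (ht v)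
  m_hi : m * M.wt i (ht v) ≤ (κ' - 2 * κp) * s * h (M.wt i)
  m_Y : m * ‖(ht v : Ht k)‖ ≤ κ' * Y * s
  m_A : ((m * nv : ℕ) : ℝ) ≤ A * s
  m_j : ∀ j, M.wt j ≠ 0 → κm * s ≤ m * |M.wt j (ht v)|
  g_mem : ∃ n : ℕ, (n : ℝ) ≤ A * s ∧ g ∈ M.CB n
  g_θ : ‖M.θ g - ((1 - κ') * s) • u‖ ≤ 1 / 2

theorem Frm.mem_Φ {h : (Ht k →L[ℝ] ℝ) → ℝ} {c₂ κ' κp κm Y A Vb s : ℝ} {nv : ℕ}
    {i : M.ι} {u : Ht k} {v : Fin k → ℤ} {m : ℕ} {g : S}
    (hF : Frm M h c₂ κ' κp κm Y A Vb s nv i u v m g) : M.wt i ∈ M.Φ := by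
  rcases wt_cases M i with h0 | h0
  · exact absurd h0 hF.wt_ne
  · exact h0.1

/-- positions at a frame -/
theorem ev_frm {c₂ κ' κp κm κ4 Y A Vb : ℝ} (nv : ℕ) (hc : 0 < c₂) (hκ0 : 0 < κ') (hκ' : κ' ≤ 1 / 2)
    (hκp : 0 < κp) (hκp' : 2 * κp ≤ κ') (h4 : 0 < κ4) (h6 : bΦ M * (2 * κ4) ≤ κp * c₂)
    (hY : bΦ M * (2 * κ4 + κ' * Y) ≤ c₂ / 2) (hA : κ4 ≤ A) :
    ∀ᶠ s : ℝ in atTop, ∀ h : (Ht k →L[ℝ] ℝ) → ℝ, M.HGood c₂ h → ∀ i u v m g,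
      Frm M h c₂ κ' κp κm Y A Vb s nv i u v m g → ∀ z : S, ‖M.θ (z * g⁻¹)‖ ≤ κ4 * s →
      ‖M.θ z - ((1 - κ') * s) • u‖ ≤ 2 * κ4 * s ∧
      ‖M.θ z‖ ≤ (M.C0 * (2 + A) + 2 * A) * s ∧
      WinH M h (κ' / 2) s (M.θ z) ∧
      (∀ y : Ht k, ‖y‖ ≤ κ' * Y * s → M.wt i y ≤ (κ' - 2 * κp) * s * h (M.wt i) →
        WinH M h κp s (M.θ z + y)) ∧
      ∃ n : ℕ, (n : ℝ) ≤ (M.C0 * (2 + A) + 2 * A) * s ∧ M.sec (z * g⁻¹) * g ∈ M.CB n ∧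
        M.sec (z * g⁻¹) * g * M.τ v ^ m ∈ M.CB n := by
  have hC0 := M.C0_pos
  have hC1 := M.one_le_C0
  filter_upwards [ev_linB (1 / 2) h4, eventually_ge_atTop (1 : ℝ)] with s h1 hs h hg i u v m g hF z hz
  have hs0 : 0 ≤ s := by linarith
  have hA0 : 0 ≤ A := by linarith
  obtain ⟨ng, hng, hgm⟩ := hF.g_mem
  have e0 : M.θ z = M.θ (z * g⁻¹) + M.θ g := by
    rw [← M.θ_mul, inv_mul_cancel_right]
  have e1 : ‖M.θ z - ((1 - κ') * s) • u‖ ≤ 2 * κ4 * s := by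
    have : M.θ z - ((1 - κ') * s) • u = M.θ (z * g⁻¹) + (M.θ g - ((1 - κ') * s) • u) := by
      rw [e0]; abel
    rw [this]
    refine (norm_add_le _ _).trans ?_
    have := hF.g_θ
    linarith
  have hm0 : (0 : ℝ) ≤ m := Nat.cast_nonneg m
  have hCA : 0 ≤ M.C0 * (2 + A) * s := by positivity
  refine ⟨e1, ?_, ?_, ?_, ?_⟩
  · rw [e0]
    refine (norm_add_le _ _).trans ?_
    have h2 := (θ_CB M hgm).trans hng
    have h3 : κ4 * s ≤ A * s := mul_le_mul_of_nonneg_right hA hs0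
    nlinarith
  · refine hF.fct.way hg hc hF.mem_Φ (κ' := κ') (κ6 := 2 * κ4) hs0 (by linarith) hκ0 zero_le_one
      le_rfl ?_ ?_
    · refine h6.trans ?_
      exact mul_le_mul_of_nonneg_right (by linarith) hc.le
    · rw [one_mul]; exact e1
  · intro y hy1 hy2
    exact hF.fct.win hg hc hF.mem_Φ hs0 hκ' hκp (by linarith) h6 hY e1 hy1 hy2
  · have h2 : M.sec (z * g⁻¹) ∈ M.CB ⌈M.C0 * (1 + κ4 * s)⌉₊ := by
      refine sec_mem_CB M _ (le_trans ?_ (Nat.le_ceil _))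
      exact mul_le_mul_of_nonneg_left (by linarith) hC0.le
    have h3 : (⌈M.C0 * (1 + κ4 * s)⌉₊ : ℝ) ≤ M.C0 * (2 + A) * s := by
      refine (Nat.ceil_lt_add_one (by positivity)).le.trans ?_
      have e2 : M.C0 * (κ4 * s) ≤ M.C0 * (A * s) :=
        mul_le_mul_of_nonneg_left (mul_le_mul_of_nonneg_right hA hs0) hC0.le
      have e3 : M.C0 * 1 ≤ M.C0 * s := mul_le_mul_of_nonneg_left hs hC0.le
      nlinarith
    have h5 := M.CB_mul h2 hgm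
    have h7 := M.CB_mul h5 (M.CB_pow hF.τ_mem m)
    have hmA := hF.m_A
    push_cast at hmA
    refine ⟨⌈M.C0 * (1 + κ4 * s)⌉₊ + ng + m * nv, ?_, M.CB_mono (by omega) h5, h7⟩
    push_cast
    linarith

end Vale.Agent.P188.Z1.RModel.F6
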