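import Vale.Agent.P188.H616.M13

/-!
# P188, FLAT in the model, part 14: NOFOLD for one pair of labels, at every large scale (2)
-/

set_option linter.all false

open MeasureTheory Set Filter
open Vale.Agent.P188.H530 (hgt)
open Vale.Agent.P188.H616 (Coord Sec Phi slide StrAt nofold_fill Up3)
open Vale.Agent.P188.H329 (InP prS Rel win Reach fillQ)

namespace Vale.Agent.P188.Z1.RModel.F6

variable {S : Type} [Group S] [MeasurableSpace S] {Γ : Type} [Group Γ]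
  {V : Type} [AddCommGroup V] [Module ℝ V] {k : ℕ} {M : RModel S Γ V k}

/-- positions for the fill letters and for the enlarged set -/
theorem ev_frm2 (B : M.NatBox) : ∃ C : ℝ, 1 ≤ C ∧
    ∀ {c₂ κ' κp κm κ4 κc Y A Vb d₁ Λ2 : ℝ} (nv : ℕ), 0 < c₂ → 0 < κ' → κ' ≤ 1 / 2 →
    0 < κp → 2 * κp ≤ κ' → 0 < κ4 → bΦ M * (2 * κ4) ≤ κp * c₂ →
    bΦ M * (2 * κ4 + κ' * Y) ≤ c₂ / 2 → κ4 ≤ A → 0 < d₁ → 1 ≤ Λ2 → 0 ≤ κc →
    C * κc < κ' / 2 * c₂ →
    ∀ᶠ s : ℝ in atTop, ∀ h : (Ht k →L[ℝ] ℝ) → ℝ, M.HGood c₂ h → ∀ i u v m g,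
      Frm M h c₂ κ' κp κm Y A Vb s nv i u v m g → ∀ z ∈ DF B h Λ2 d₁ κ4 s g,
      (∀ (j : M.ι) (x : ℝ), |x| ≤ 1 → z * M.ex ((Rm M v m j * x) • M.X j) ∈
        DA B h (B.C * (B.C * Λ2)) d₁ s (M.θ g) (κ4 * s)) ∧
      (∀ g' : S, (M.l g' : ℝ) ≤ κc * s → z * g' ∈
        DA B h (B.C * (B.C * Λ2)) d₁ s (M.θ g) ((κ4 + M.C0 * κc) * s)) := by
  obtain ⟨C₁, hC₁, hco⟩ := exists_cocycle M B
  have hC0 := M.C0_pos
  have hBC := B.one_le
  refine ⟨C₁, hC₁, ?_⟩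
  intro c₂ κ' κp κm κ4 κc Y A Vb d₁ Λ2 nv hc hκ0 hκ' hκp hκp' h4 h6 hY hA hd hΛ hκc hCκc
  filter_upwards [ev_frm (Vb := Vb) (κm := κm) nv hc hκ0 hκ' hκp hκp' h4 h6 hY hA,
    ev_DF B hc hd hA hΛ,
    ev_q B hc (A := M.C0 * (2 + A) + 2 * A) hd hκp one_pos,
    hco c₂ d₁ (κ' / 2) κc (M.C0 * (2 + A) + 2 * A) 1 hc hd (by positivity) hκc hCκc one_pos,
    eventually_ge_atTop (0 : ℝ)] with s f1 f2 f3 f4 hs h hg i u v m g hF z hz
  obtain ⟨a1, a2, a3, a4, -⟩ := f1 h hg i u v m g hF z hz.2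
  obtain ⟨ng, hng, hgm⟩ := hF.g_mem
  have b1 := f2 h hg.bd ng hng g hgm z hz
  have e0 : M.θ z - M.θ g = M.θ (z * g⁻¹) := by
    rw [M.θ_mul, M.θ_inv]; abel
  have hm0 : (0 : ℝ) ≤ m := Nat.cast_nonneg m
  have hszp : ∀ i, 0 < M.szh h d₁ s i := szh_pos
  have hR : ∀ i, 0 ≤ B.C * Λ2 * M.szh h d₁ s i := fun i => by
    have := hszp i
    positivity
  have eR : (fun i => B.C * (B.C * Λ2) * M.szh h d₁ s i) =
      fun i => B.C * (B.C * Λ2 * M.szh h d₁ s i) := by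
    funext i; ring
  have hle : ∀ i, 1 * M.szh h d₁ s i ≤ B.C * Λ2 * M.szh h d₁ s i := fun i =>
    mul_le_mul_of_nonneg_right (one_le_mul_of_one_le_of_one_le hBC hΛ) (hszp i).le
  constructor
  · intro j x hx
    have hw1 : WinH M h κp s (M.θ z + (m : ℝ) • ht v) := by
      refine a4 _ ?_ ?_
      · rw [norm_smul, Real.norm_eq_abs, abs_of_nonneg hm0]
        exact hF.m_Y
      · rw [map_smul, smul_eq_mul]
        exact hF.m_hi
    have hw2 : WinH M h κp s (M.θ z - (m : ℝ) • ht v) := by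
      rw [sub_eq_add_neg]
      refine a4 _ ?_ ?_
      · rw [norm_neg, norm_smul, Real.norm_eq_abs, abs_of_nonneg hm0]
        exact hF.m_Y
      · rw [map_neg, map_smul, smul_eq_mul]
        have h1 : 0 ≤ (m : ℝ) * M.wt i (ht v) := mul_nonneg hm0 hF.pos.le
        have h2 := (hg.bd _ hF.mem_Φ).1
        have h3 : 0 ≤ (κ' - 2 * κp) * s * h (M.wt i) :=
          mul_nonneg (mul_nonneg (by linarith) hs) (by linarith)
        linarith
    have c1 := f3 h hg.bd v m z hw1 hw2 a2 j x hx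
    have hη : M.η (z * M.ex ((Rm M v m j * x) • M.X j)) = M.η z := by
      rw [map_mul, M.η_ex, mul_one]
    refine ⟨?_, ?_⟩
    · have e1 : np M (z * M.ex ((Rm M v m j * x) • M.X j)) =
          np M z * (M.sec z * M.ex ((Rm M v m j * x) • M.X j) * (M.sec z)⁻¹) := by
        unfold np
        rw [sec_congr M hη]
        group
      rw [e1, eR]
      exact Bx_mul B hR (fun i => by have := hszp i; positivity) (fun i => le_rfl) hle b1 c1
    · rw [M.θ_of_η hη, e0]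
      exact hz.2
  · intro g' hg'
    have c1 := f4 h hg.bd z a3 a2 g' hg'
    refine ⟨?_, ?_⟩
    · rw [np_mul, eR]
      exact Bx_mul B hR (fun i => by have := hszp i; positivity) (fun i => le_rfl) hle b1 c1
    · have e1 : M.θ (z * g') - M.θ g = M.θ (z * g⁻¹) + M.θ g' := by
        rw [← e0, M.θ_mul]; abel
      rw [e1]
      refine (norm_add_le _ _).trans ?_
      have h1 := (M.θ_le g').trans (mul_le_mul_of_nonneg_left hg' hC0.le)
      have h2 := hz.2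
      linarith

/-- the measure of the enlarged set -/
theorem DA_le' (B : M.NatBox) {Λ2 : ℝ} (hΛ : 1 ≤ Λ2) : ∃ C' : ℝ, 0 ≤ C' ∧
    ∀ (h : (Ht k →L[ℝ] ℝ) → ℝ) (d₁ s κ4 : ℝ) (g : S) (a : Ht k) (R : ℝ), 0 ≤ κ4 * s →
      M.μ (DA B h (B.C * (B.C * Λ2)) d₁ s a R) ≤
        ((⌈C' * (2 * |R| + 1) ^ k⌉₊ : ℕ) : ENNReal) * M.μ (DF B h Λ2 d₁ κ4 s g) := by
  obtain ⟨C', hC'⟩ := B.dbl (B.C * B.C) (one_le_mul_of_one_le_of_one_le B.one_le B.one_le)
  refine ⟨|C'|, abs_nonneg _, fun h d₁ s κ4 g a R hs => ?_⟩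
  have h1 : M.μ (B.Bx (fun i => B.C * (B.C * Λ2) * M.szh h d₁ s i)) ≤
      ENNReal.ofReal |C'| * M.μ (B.Bx (fun i => Λ2 * M.szh h d₁ s i)) := by
    have h2 := hC' (fun i => Λ2 * M.szh h d₁ s i) fun i => by
      have := szh_pos (M := M) (h := h) (d₁ := d₁) (s := s) i
      positivity
    have e : (fun i => B.C * (B.C * Λ2) * M.szh h d₁ s i) =
        fun i => B.C * B.C * (Λ2 * M.szh h d₁ s i) := by
      funext i; ring
    rw [e]
    refine h2.trans ?_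
    gcongr
    exact le_abs_self _
  exact (DA_le B h1 (abs_nonneg _) a R).trans (mul_le_mul_right (DF_ge B hs) _)

end Vale.Agent.P188.Z1.RModel.F6
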