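import Vale.Agent.P188.H616.M14

/-!
# P188, FLAT in the model, part 15: NOFOLD for one pair of labels, at every large scale (3)
-/

set_option linter.all false

open MeasureTheory Set Filter
open Vale.Agent.P188.H530 (hgt)
open Vale.Agent.P188.H616 (Coord Sec Phi slide StrAt nofold_fill Up3)
open Vale.Agent.P188.H329 (InP prS Rel win Reach fillQ)

namespace Vale.Agent.P188.Z1.RModel.F6

variable {S : Type} [Group S] [MeasurableSpace S] {Γ : Type} [Group Γ]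
  {V : Type} [AddCommGroup V] [Module ℝ V] {k : ℕ} {M : RModel S Γ V k}

/-- FILL for the merging letters -/
theorem exists_fillC (M : RModel S Γ V k) (c : ℕ) : ∃ (n K : ℕ), 1 ≤ K ∧
    ∀ θ' : ℝ, 0 < θ' → θ' ≤ 1 → ∀ (R : M.ι → ℝ) (CI : ℝ), 0 ≤ CI →
      FillC M R n (ENNReal.ofReal θ') c CI ⌊((K : ℝ) * (1 + CI) / θ') ^ K⌋₊ := by
  obtain ⟨n, hn⟩ := fillQ M.ι M.cls
  obtain ⟨K, hK, hK2⟩ := hn c
  refine ⟨n + n, K, hK, fun θ' h1 h2 R CI hCI G hG hwin z0 => ?_⟩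
  have hm : ∀ i, Measurable fun q : S × ℝ => q.1 * M.ex ((R i * q.2) • M.X i) := by
    intro i
    have h3 := M.ex_meas (R i • M.X i)
    have e : (fun q : S × ℝ => q.1 * M.ex ((R i * q.2) • M.X i)) =
        fun q : S × ℝ => q.1 * M.ex (q.2 • R i • M.X i) := by
      funext q
      rw [smul_smul, mul_comm q.2]
    rw [e]; exact h3
  obtain ⟨T, hT1, hT2, hT3⟩ := hK2 θ' h1 h2 CI hCI S _ (M.rel R) hm G hG hwin z0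
  exact ⟨T, Nat.le_floor hT1, hT3⟩

/-- merging at the top for the slides -/
theorem ev_slide_top {c₂ κ' κp κm κ4 Y A Vb Λ : ℝ} (nv : ℕ) (hc : 0 < c₂) (hκ0 : 0 < κ')
    (hκ' : κ' ≤ 1 / 2)
    (hκp : 0 < κp) (hκp' : 2 * κp ≤ κ') (h4 : 0 < κ4) (h6 : bΦ M * (2 * κ4) ≤ κp * c₂)
    (hY : bΦ M * (2 * κ4 + κ' * Y) ≤ c₂ / 2) (hA : κ4 ≤ A) (hΛ : 0 < Λ) :
    ∀ᶠ s : ℝ in atTop, ∀ h : (Ht k →L[ℝ] ℝ) → ℝ, M.HGood c₂ h → ∀ i u v m g,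
      Frm M h c₂ κ' κp κm Y A Vb s nv i u v m g → ∀ x : ℝ, |x| ≤ Λ * Real.exp (s * h (M.wt i)) →
      ∀ z : S, ‖M.θ (z * g⁻¹)‖ ≤ κ4 * s →
      (M.l ((z * M.τ v ^ m)⁻¹ * (slide M.sec (M.ex (x • M.X i)) g z * M.τ v ^ m)) : ℝ) ≤
        10 * M.C0 * (κp * (c₂ + c₂⁻¹)) * s := by
  filter_upwards [ev_frm (Vb := Vb) (κm := κm) nv hc hκ0 hκ' hκp hκp' h4 h6 hY hA,
    ev_top (M := M) (c₂ := c₂) (κ' := κ') (κp := κp) (κ6 := 2 * κ4)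
      (A := M.C0 * (2 + A) + 2 * A) (Vb := Vb) hc hκp h6 hΛ] with s f1 f2 h hg i u v m g hF x hx z hz
  obtain ⟨a1, a2, a3, a4, n, hn, hc1, hc2⟩ := f1 h hg i u v m g hF z hz
  have e1 : (z * M.τ v ^ m)⁻¹ * (slide M.sec (M.ex (x • M.X i)) g z * M.τ v ^ m) =
      (M.τ v ^ m)⁻¹ * ((M.sec (z * g⁻¹) * g)⁻¹ * M.ex (x • M.X i) * (M.sec (z * g⁻¹) * g)) *
        M.τ v ^ m := by
    unfold slide
    group
  rw [e1]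
  refine f2 h hg i hF.wt_ne u hF.fct v m hF.m_lo n hn _ hc2 ?_ x hx
  have e2 : M.θ (M.sec (z * g⁻¹) * g) = M.θ z := by
    rw [M.θ_mul, θ_sec, ← M.θ_mul, inv_mul_cancel_right]
  rw [e2]
  exact a1

/-- the cover for the slides -/
theorem ev_slide_cov (B : M.NatBox) : ∃ C : ℝ, 1 ≤ C ∧
    ∀ {c₂ κ' κp κm κ4 κc κ'' Y A Vb Λ : ℝ} (nv : ℕ), 0 < c₂ → 0 < κ' → κ' ≤ 1 / 2 →
    0 < κp → 2 * κp ≤ κ' → 0 < κ4 → bΦ M * (2 * κ4) ≤ κp * c₂ →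
    bΦ M * (2 * κ4 + κ' * Y) ≤ c₂ / 2 → κ4 ≤ A → 0 < Λ → 0 < κ'' →
    2 * κp * c₂⁻¹ + bΦ M * (2 * κ4) < κ'' → 0 ≤ κc → C * κc < κm →
    ∀ᶠ s : ℝ in atTop, ∀ h : (Ht k →L[ℝ] ℝ) → ℝ, M.HGood c₂ h → ∀ i u v m g,
      Frm M h c₂ κ' κp κm Y A Vb s nv i u v m g → ∀ x : ℝ, |x| ≤ Λ * Real.exp (s * h (M.wt i)) →
      ∀ z0 : S, ∃ F : Finset S, (F.card : ℝ) ≤ (2 * |M.C0 * (κc * s)| + 1) ^ k ∧
      ∀ z : S, ‖M.θ (z * g⁻¹)‖ ≤ κ4 * s → (M.l (z0⁻¹ * z) : ℝ) ≤ κc * s →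
      ∃ z1 ∈ F, InP (fun j x => M.ex ((Rm M v m j * x) • M.X j)) B.m
        (B.C ^ 3 * Real.exp (2 * κ'' * s)) z1 (slide M.sec (M.ex (x • M.X i)) g z) := by
  obtain ⟨C, hC, hcov⟩ := ev_cov M B
  refine ⟨C, hC, ?_⟩
  intro c₂ κ' κp κm κ4 κc κ'' Y A Vb Λ nv hc hκ0 hκ' hκp hκp' h4 h6 hY hA hΛ hκ'' hκ''1 hκc hCκ
  filter_upwards [ev_frm (Vb := Vb) (κm := κm) nv hc hκ0 hκ' hκp hκp' h4 h6 hY hA,
    hcov (κ' := κ') (κ6 := 2 * κ4) (A := M.C0 * (2 + A) + 2 * A) (Vb := Vb) hc hκp hκ'' hκ''1 hκc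
      hCκ hΛ] with s f1 f2 h hg i u v m g hF x hx z0
  obtain ⟨F, hF1, hF2⟩ := f2 h hg i hF.wt_ne u hF.fct v m hF.m_lo hF.m_j z0
  refine ⟨F, hF1, fun z hz hl => ?_⟩
  obtain ⟨a1, a2, a3, a4, n, hn, hc1, hc2⟩ := f1 h hg i u v m g hF z hz
  have e2 : M.θ (M.sec (z * g⁻¹) * g) = M.θ z := by
    rw [M.θ_mul, θ_sec, ← M.θ_mul, inv_mul_cancel_right]
  exact hF2 z hl n hn _ hc1 (by rw [e2]; exact a1) x hx

end Vale.Agent.P188.Z1.RModel.F6
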