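import Vale.Agent.P188.H616.M15

/-!
# P188, FLAT in the model, part 16: NOFOLD for one pair of labels, at every large scale (4)
-/

set_option linter.all false

open MeasureTheory Set Filter
open Vale.Agent.P188.H530 (hgt)
open Vale.Agent.P188.H616 (Coord Sec Phi slide StrAt nofold_fill Up3)
open Vale.Agent.P188.H329 (InP prS Rel win Reach fillQ)

namespace Vale.Agent.P188.Z1.RModel.F6

variable {S : Type} [Group S] [MeasurableSpace S] {Γ : Type} [Group Γ]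
  {V : Type} [AddCommGroup V] [Module ℝ V] {k : ℕ} {M : RModel S Γ V k}

/-- the constants of NOFOLD: `C` is a large constant -/
structure NC (M : RModel S Γ V k) (C c₂ κ' κc κm κ'' κp κ4 ε Y A Λ Λ2 : ℝ) : Prop where
  hc : 0 < c₂
  hκ0 : 0 < κ'
  hκ' : κ' ≤ 1 / 2
  hκc0 : 0 < κc
  hκc : C * κc < κ' * c₂
  hκm : C * κc < κm
  hκ''0 : 0 < κ''
  hκ'' : C * κ'' ≤ κc
  hκp0 : 0 < κp
  hκp' : 2 * κp ≤ κ'
  hκp : C * (κp * (c₂ + c₂⁻¹)) ≤ κ''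
  hκ40 : 0 < κ4
  hκ4 : C * κ4 ≤ κp * c₂
  hY : bΦ M * (2 * κ4 + κ' * Y) ≤ c₂ / 2
  hA : κ4 ≤ A
  hε0 : 0 < ε
  hε : C * ε ≤ κc
  hΛ : 0 < Λ
  hΛ2 : 1 ≤ Λ2

theorem NC.aux {C c₂ κ' κc κm κ'' κp κ4 ε Y A Λ Λ2 : ℝ}
    (H : NC M C c₂ κ' κc κm κ'' κp κ4 ε Y A Λ Λ2) {C₁ C₂ : ℝ} (hC₁ : 2 * C₁ ≤ C) (hC₂ : C₂ ≤ C)
    (hb : 2 * bΦ M ≤ C) (h4 : 4 ≤ C) :
    bΦ M * (2 * κ4) ≤ κp * c₂ ∧ C₁ * κc < κ' / 2 * c₂ ∧ C₂ * κc < κm ∧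
      2 * κp * c₂⁻¹ + bΦ M * (2 * κ4) < κ'' := by
  have hci : 0 < c₂⁻¹ := inv_pos.2 H.hc
  have e0 := H.hκc0
  have e00 := H.hκp0
  have a1 : 2 * bΦ M * κ4 ≤ C * κ4 := mul_le_mul_of_nonneg_right hb H.hκ40.le
  have a2 : 2 * C₁ * κc ≤ C * κc := mul_le_mul_of_nonneg_right hC₁ H.hκc0.le
  have a3 : C₂ * κc ≤ C * κc := mul_le_mul_of_nonneg_right hC₂ H.hκc0.le
  have q1 : bΦ M * (2 * κ4) ≤ κp * c₂ := by
    have := H.hκ4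
    linarith
  refine ⟨q1, ?_, ?_, ?_⟩
  · have := H.hκc
    linarith
  · have := H.hκm
    linarith
  · have hP : 0 < κp * (c₂ + c₂⁻¹) := mul_pos H.hκp0 (by linarith [H.hc])
    have a4 : 4 * (κp * (c₂ + c₂⁻¹)) ≤ C * (κp * (c₂ + c₂⁻¹)) := mul_le_mul_of_nonneg_right h4 hP.le
    have a5 : 0 < κp * c₂ := mul_pos H.hκp0 H.hc
    have a6 : 0 < κp * c₂⁻¹ := mul_pos H.hκp0 hci
    have := H.hκp
    linarith

theorem NC.aux2 {C c₂ κ' κc κm κ'' κp κ4 ε Y A Λ Λ2 : ℝ}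
    (H : NC M C c₂ κ' κc κm κ'' κp κ4 ε Y A Λ Λ2) {CS n Kf : ℝ} (hCS : 0 < CS) (hn : 0 ≤ n)
    (hKf : 0 ≤ Kf) (h1 : 32 * CS * ((n + 3) * (CS * (10 * M.C0))) ≤ C)
    (h2 : 32 * CS * ((2 * n + 5) * (2 * bΦ M)) ≤ C) (h3 : 32 * CS * Kf ≤ C) (h4 : 4 ≤ C) :
    (n + 1) * (CS * (10 * M.C0 * (κp * (c₂ + c₂⁻¹))) + 2 * (2 * (bΦ M * ε))) +
      3 * (2 * (bΦ M * ε)) + 2 * CS * (10 * M.C0 * (κp * (c₂ + c₂⁻¹))) ≤ κc / (2 * CS) / 8 ∧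
    2 * κ'' * Kf ≤ κc / (2 * CS) / 8 := by
  have hci : 0 < c₂⁻¹ := inv_pos.2 H.hc
  have hκc0 := H.hκc0
  set P : ℝ := κp * (c₂ + c₂⁻¹) with hP
  have hP0 : 0 < P := mul_pos H.hκp0 (by linarith [H.hc])
  have b1 : 4 * κ'' ≤ C * κ'' := mul_le_mul_of_nonneg_right h4 H.hκ''0.le
  have b2 := H.hκ''
  have b3 := H.hκp
  constructor
  · have e1 : 32 * CS * ((n + 3) * (CS * (10 * M.C0))) * P ≤ κc / 4 :=
      (mul_le_mul_of_nonneg_right h1 hP0.le).trans (by linarith)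
    have e2 : 32 * CS * ((2 * n + 5) * (2 * bΦ M)) * ε ≤ κc :=
      (mul_le_mul_of_nonneg_right h2 H.hε0.le).trans H.hε
    rw [div_div, le_div_iff₀ (by positivity)]
    have e4 : ((n + 1) * (CS * (10 * M.C0 * P) + 2 * (2 * (bΦ M * ε))) +
        3 * (2 * (bΦ M * ε)) + 2 * CS * (10 * M.C0 * P)) * (2 * CS * 8) =
        (32 * CS * ((n + 3) * (CS * (10 * M.C0))) * P +
          32 * CS * ((2 * n + 5) * (2 * bΦ M)) * ε) / 2 := by ring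
    rw [e4]
    linarith
  · rw [div_div, le_div_iff₀ (by positivity)]
    have e1 : 32 * CS * Kf * κ'' ≤ κc := (mul_le_mul_of_nonneg_right h3 H.hκ''0.le).trans b2
    have e2 : 2 * κ'' * Kf * (2 * CS * 8) = 32 * CS * Kf * κ'' := by ring
    rw [e2]
    exact e1

theorem one_le_nv {h : (Ht k →L[ℝ] ℝ) → ℝ} {c₂ κ' κp κm Y A Vb s : ℝ} {nv : ℕ}
    {i : M.ι} {u : Ht k} {v : Fin k → ℤ} {m : ℕ} {g : S}
    (hfr : Frm M h c₂ κ' κp κm Y A Vb s nv i u v m g) : 1 ≤ nv := by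
  by_contra h4
  have h4 : nv = 0 := by omega
  have h5 := hfr.τ_mem
  rw [h4] at h5
  have h6 := θ_CB M h5
  rw [θ_τht] at h6
  have h7 : (ht v : Ht k) = 0 := norm_le_zero_iff.1 (by simpa using h6)
  have h8 := hfr.pos
  rw [h7, map_zero] at h8
  exact lt_irrefl _ h8

theorem m_le {h : (Ht k →L[ℝ] ℝ) → ℝ} {c₂ κ' κp κm Y A Vb s : ℝ} {nv : ℕ}
    {i : M.ι} {u : Ht k} {v : Fin k → ℤ} {m : ℕ} {g : S}
    (hfr : Frm M h c₂ κ' κp κm Y A Vb s nv i u v m g) : (m : ℝ) ≤ A * s := by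
  refine le_trans ?_ hfr.m_A
  exact_mod_cast Nat.le_mul_of_pos_right m (one_le_nv hfr)

theorem ev_pair (hS : M.SPREAD) (B : M.NatBox) (K : ℝ) : ∃ C : ℝ, 1 ≤ C ∧
    ∀ {c₂ κ' κc κm κ'' κp κ4 ε Y A Λ Λ2 : ℝ}, NC M C c₂ κ' κc κm κ'' κp κ4 ε Y A Λ Λ2 →
    ∀ (nv : ℕ) (Vb d₁ θ θ' : ℝ), 0 < d₁ → 0 < θ → 0 < θ' → θ' ≤ 1 →
    ∀ᶠ s : ℝ in atTop, ∀ h : (Ht k →L[ℝ] ℝ) → ℝ, M.HGood c₂ h → ∀ F F' : Γ → Γ, M.QIm K F F' →
      ∀ i u v m g, Frm M h c₂ κ' κp κm Y A Vb s nv i u v m g →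
      ∀ x : ℝ, |x| ≤ Λ * Real.exp (s * h (M.wt i)) →
      ∀ {Lb : Type} [Countable Lb] [MeasurableSpace Lb] [MeasurableSingletonClass Lb]
        {σ : S → Lb} (_ : Measurable σ) {T : Lb → Ht k →L[ℝ] Ht k} {s1 s2 : Lb}
        {b : Ht k →L[ℝ] ℝ} (_ : b ∈ M.Φ) (_ : 0 ≤ b (T s1 (ht v))) (_ : b (T s2 (ht v)) ≤ 0),
      M.μ {z | (z ∈ DF B h Λ2 d₁ κ4 s g ∧ σ z = s2 ∧
            StrAt (M.f F) σ (Tl T) (M.τ v) (ht v) m (ε * s) z) ∧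
          (slide M.sec (M.ex (x • M.X i)) g z ∈ DF B h Λ2 d₁ κ4 s g ∧
            σ (slide M.sec (M.ex (x • M.X i)) g z) = s1 ∧
            StrAt (M.f F) σ (Tl T) (M.τ v) (ht v) m (ε * s)
              (slide M.sec (M.ex (x • M.X i)) g z))} ≤
        ENNReal.ofReal θ * M.μ (DF B h Λ2 d₁ κ4 s g) +
          Nat.card M.ι * (ENNReal.ofReal θ' *
            M.μ (DA B h (B.C * (B.C * Λ2)) d₁ s (M.θ g) (κ4 * s))) := by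
  obtain ⟨CS, hCS, hSp⟩ := hS K
  obtain ⟨n, Kf, hKf, hfill⟩ := exists_fillC M B.m
  obtain ⟨C₁, hC₁, hfrm2⟩ := ev_frm2 (M := M) B
  obtain ⟨C₂, hC₂, hcov⟩ := ev_slide_cov (M := M) B
  obtain ⟨Cl, hCl, hlC⟩ := M.l_CB
  have hC0 := M.C0_pos
  have hC01 := M.one_le_C0
  have hb1 := one_le_bΦ M
  have hb0 : 0 < bΦ M := by linarith
  have hCS0 : 0 < CS := by linarith
  have hn0 : (0 : ℝ) ≤ n := Nat.cast_nonneg n
  have hKf0 : (0 : ℝ) ≤ Kf := Nat.cast_nonneg Kf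
  set G₁ : ℝ := 32 * CS * ((n + 3) * (CS * (10 * M.C0))) with hG₁
  set G₂ : ℝ := 32 * CS * ((2 * n + 5) * (2 * bΦ M)) with hG₂
  set G₃ : ℝ := 32 * CS * Kf with hG₃
  have hG₁0 : 0 ≤ G₁ := by rw [hG₁]; positivity
  have hG₂0 : 0 ≤ G₂ := by rw [hG₂]; positivity
  have hG₃0 : 0 ≤ G₃ := by rw [hG₃]; positivity
  refine ⟨2 * C₁ + C₂ + G₁ + G₂ + G₃ + 2 * bΦ M + 4, by linarith, ?_⟩
  intro c₂ κ' κc κm κ'' κp κ4 ε Y A Λ Λ2 H0 nv Vb d₁ θ θ' hd hθ hθ' hθ'1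
  have H := H0
  obtain ⟨hc, hκ0, hκ', hκc0, hκc, hκm, hκ''0, hκ'', hκp0, hκp', hκp, hκ40, hκ4, hY, hA, hε0, hε,
    hΛ, hΛ2⟩ := H
  have hci : 0 < c₂⁻¹ := inv_pos.2 hc
  obtain ⟨q1, q2, q3, q4⟩ := H0.aux (C₁ := C₁) (C₂ := C₂) (by linarith) (by linarith) (by linarith)
    (by linarith)
  obtain ⟨q5, q6⟩ := H0.aux2 (CS := CS) (n := n) (Kf := Kf) hCS0 hn0 hKf0 (by linarith) (by linarith)
    (by linarith) (by linarith)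
  set P : ℝ := κp * (c₂ + c₂⁻¹) with hP
  have hP0 : 0 < P := by positivity
  obtain ⟨C', hC'0, hDA⟩ := DA_le' (M := M) B hΛ2
  filter_upwards [hfrm2 (Vb := Vb) (κm := κm) (d₁ := d₁) nv hc hκ0 hκ' hκp0 hκp' hκ40 q1 hY hA hd
      hΛ2 hκc0.le q2,
    hcov (Vb := Vb) nv hc hκ0 hκ' hκp0 hκp' hκ40 q1 hY hA hΛ hκ''0 q4 hκc0.le q3,
    ev_slide_top (M := M) (Vb := Vb) (κm := κm) nv hc hκ0 hκ' hκp0 hκp' hκ40 q1 hY hA hΛ,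
    ev_merge (M := M) (A := A) (d' := 10 * M.C0 * P) nv (by positivity),
    num_big (C := CS) (d' := 10 * M.C0 * P) (e' := 2 * (bΦ M * ε)) (lt := Cl * nv) (n := n) A
      (show 0 < κc / (2 * CS) by positivity) hCS (by positivity) (by positivity) (by positivity) q5,
    num_spread (κq := κc / (2 * CS)) (C := CS) (a₁ := M.C0 * κc) (a₂ := κ4 + M.C0 * κc)
      (κ'' := κ'') (C₃ := B.C ^ 3) (C' := C') (θ := θ) (θ' := θ') (k := k) (K := Kf)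
      (by positivity) hCS (by positivity) (by positivity) hκ''0.le (by have := C_pos B; positivity)
      hC'0 hθ hθ' q6,
    ev_linB (2 * CS) hκc0, eventually_ge_atTop (0 : ℝ)]
    with s f1 f2 f3 f4 f5 f6 f7 hs h hg F F' hF i u v m g hfr x hx Lb _ _ _ σ hσ T s1 s2 b hb h1 h2
  obtain ⟨X, hX1, hX2⟩ := hSp F F' hF b hb
  have hκ4s : 0 ≤ κ4 * s := by positivity
  set q : ℕ := ⌊κc / (2 * CS) * s⌋₊ with hq
  have hball : CS * ((q : ℝ) + 1) ≤ κc * s := by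
    have e1 : (q : ℝ) ≤ κc / (2 * CS) * s := Nat.floor_le (by positivity)
    have e2 : CS * (q : ℝ) ≤ κc * s / 2 := by
      calc CS * (q : ℝ) ≤ CS * (κc / (2 * CS) * s) := mul_le_mul_of_nonneg_left e1 hCS0.le
        _ = _ := by field_simp
    linarith
  set m' : ℕ := ⌈C' * (2 * |(κ4 + M.C0 * κc) * s| + 1) ^ k⌉₊ with hm'
  have hlt : (M.l (M.τ v) : ℝ) ≤ Cl * nv := hlC _ _ hfr.τ_mem
  refine pair_core (M := M) (F := F) (X := X) (CS := CS) hb hCS hX1 hX2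
    (v := v) (m := m) (n := n)
    (N0 := ⌊((Kf : ℝ) * (1 + B.C ^ 3 * Real.exp (2 * κ'' * s)) / θ') ^ Kf⌋₊)
    (N := ⌊(2 * |M.C0 * κc * s| + 1) ^ k⌋₊ *
      ⌊((Kf : ℝ) * (1 + B.C ^ 3 * Real.exp (2 * κ'' * s)) / θ') ^ Kf⌋₊)
    (p := ⌊(2 * |M.C0 * κc * s| + 1) ^ k⌋₊) (cI := B.m) (q := q)
    (j := ⌊κc / (2 * CS) * s / 2⌋₊) (m' := m')
    (d := 10 * M.C0 * P * s) (lt := Cl * nv) (CI := B.C ^ 3 * Real.exp (2 * κ'' * s))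
    (e₁ := ε * s) (θr := θ) (θr' := θ') (M.η_ex _) hlt (by positivity) (by positivity)
    (f4 v hfr.τ_mem m ?_) (DF_meas B) (DA_meas B _ _) (DF_ne_top B)
    (Dp := DA B h (B.C * (B.C * Λ2)) d₁ s (M.θ g) ((κ4 + M.C0 * κc) * s))
    (hDA h d₁ s κ4 g _ _ hκ4s) ?_ ?_ ?_ (hfill θ' hθ' hθ'1 _ _ (by have := C_pos B; positivity)) ?_
    le_rfl ?_ ?_ hσ h1 h2
  · exact m_le hfr
  · intro z hz g' hg'
    exact (f1 h hg i u v m g hfr z hz).2 g' (hg'.trans hball)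
  · intro z hz j x' hx'
    exact (f1 h hg i u v m g hfr z hz).1 j x' hx'
  · intro z hz
    exact f3 h hg i u v m g hfr x hx z hz.2
  · intro z0
    obtain ⟨Fs, hFs1, hFs2⟩ := f2 h hg i u v m g hfr x hx z0
    refine ⟨Fs, Nat.le_floor ?_, fun z hz hl => hFs2 z hz.2 (hl.trans hball)⟩
    rw [mul_assoc]
    exact hFs1
  · refine f6 _ _ ?_ ?_
    · push_cast
      refine mul_le_mul (Nat.floor_le (by positivity)) (Nat.floor_le ?_) (Nat.cast_nonneg _)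
        (by positivity)
      have := C_pos B
      positivity
    · exact (Nat.ceil_lt_add_one (by positivity)).le
  · have h3 := f5 m (m_le hfr)
    have e1 : 2 * (bΦ M * (ε * s)) = 2 * (bΦ M * ε) * s := by ring
    rw [e1]
    exact h3

end Vale.Agent.P188.Z1.RModel.F6
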