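import Vale.Agent.P188.H616.M16

/-!
# P188, FLAT in the model, part 17: lines at a frame
-/

set_option linter.all false

open MeasureTheory Set Filter
open Vale.Agent.P188.H530 (hgt)
open Vale.Agent.P188.H616 (Coord Sec Phi slide StrAt nofold_fill Up3)

namespace Vale.Agent.P188.Z1.RModel.F6

variable {S : Type} [Group S] [MeasurableSpace S] {Γ : Type} [Group Γ]
  {V : Type} [AddCommGroup V] [Module ℝ V] {k : ℕ} {M : RModel S Γ V k}

/-- positions along the lines at a frame -/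
theorem ev_line (B : M.NatBox) {c₂ κ' κp κm κ4 Y A Vb d₁ Λ2 : ℝ} (nv : ℕ) (hc : 0 < c₂)
    (hκ0 : 0 < κ') (hκ' : κ' ≤ 1 / 2) (hκp : 0 < κp) (hκp' : 2 * κp ≤ κ') (h4 : 0 < κ4)
    (h6 : bΦ M * (3 * κ4) ≤ κp * c₂) (hY : bΦ M * (3 * κ4 + κ' * Y) ≤ c₂ / 2) (hA : κ4 ≤ A)
    (hd : 0 < d₁) (hΛ : 1 ≤ Λ2) :
    ∀ᶠ s : ℝ in atTop, ∀ h : (Ht k →L[ℝ] ℝ) → ℝ, M.HGood c₂ h → ∀ i u v m g,
      Frm M h c₂ κ' κp κm Y A Vb s nv i u v m g → ∀ z ∈ DF B h Λ2 d₁ κ4 s g,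
      ∀ n ≤ m * nv, ∀ g' ∈ M.CB n, (∃ j ≤ m, ‖M.θ g' - (j : ℝ) • ht v‖ ≤ nv ∨
        ‖M.θ g' + (j : ℝ) • ht v‖ ≤ nv) →
      np M (z * g') ∈ B.Bx (fun i => B.C * (B.C * Λ2) * M.szh h d₁ s i) ∧
      WinH M h κp s (M.θ (z * g')) ∧ ‖M.θ (z * g')‖ ≤ (M.C0 * (2 + A) + 3 * A) * s := by
  have hC0 := M.C0_pos
  have hb1 := one_le_bΦ M
  have hBC := B.one_le
  have h6' : bΦ M * (2 * κ4) ≤ κp * c₂ := le_trans (mul_le_mul_of_nonneg_left (by linarith)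
    (by linarith)) h6
  have hY' : bΦ M * (2 * κ4 + κ' * Y) ≤ c₂ / 2 := le_trans (mul_le_mul_of_nonneg_left (by linarith)
    (by linarith)) hY
  have hA0 : 0 ≤ A := by linarith
  filter_upwards [ev_frm (Vb := Vb) (κm := κm) nv hc hκ0 hκ' hκp hκp' h4 h6' hY' hA,
    ev_DF B hc hd hA hΛ,
    ev_cocycle B hc hd (M.C0 * (2 + A) + 2 * A) one_pos,
    ev_linB (nv : ℝ) h4, eventually_ge_atTop (0 : ℝ)]
    with s f1 f2 f3 f4 hs h hg i u v m g hF z hz n hn g' hg' hj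
  obtain ⟨a1, a2, a3, a4, -⟩ := f1 h hg i u v m g hF z hz.2
  obtain ⟨ng, hng, hgm⟩ := hF.g_mem
  have b1 := f2 h hg.bd ng hng g hgm z hz
  have hnA : (n : ℝ) ≤ A * s := le_trans (by exact_mod_cast hn) hF.m_A
  have hCA : 0 ≤ M.C0 * (2 + A) * s := by positivity
  have hAs : 0 ≤ A * s := mul_nonneg hA0 hs
  have c1 := f3 h hg.bd z a2 n (hnA.trans (by linarith)) g' hg'
  have hszp : ∀ i, 0 < M.szh h d₁ s i := szh_pos
  have hR : ∀ i, 0 ≤ B.C * Λ2 * M.szh h d₁ s i := fun i => by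
    have := hszp i
    positivity
  have eR : (fun i => B.C * (B.C * Λ2) * M.szh h d₁ s i) =
      fun i => B.C * (B.C * Λ2 * M.szh h d₁ s i) := by
    funext i; ring
  have hle : ∀ i, 1 * M.szh h d₁ s i ≤ B.C * Λ2 * M.szh h d₁ s i := fun i =>
    mul_le_mul_of_nonneg_right (one_le_mul_of_one_le_of_one_le hBC hΛ) (hszp i).le
  have hm0 : (0 : ℝ) ≤ m := Nat.cast_nonneg m
  refine ⟨?_, ?_, ?_⟩
  · rw [np_mul, eR]
    exact Bx_mul B hR (fun i => by have := hszp i; positivity) (fun i => le_rfl) hle b1 c1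
  · obtain ⟨j, hjm, hj⟩ := hj
    have hj0 : (0 : ℝ) ≤ j := Nat.cast_nonneg j
    have hjm' : (j : ℝ) ≤ m := by exact_mod_cast hjm
    have hvn := norm_nonneg (ht v : Ht k)
    have e3 : (j : ℝ) * ‖(ht v : Ht k)‖ ≤ κ' * Y * s :=
      (mul_le_mul_of_nonneg_right hjm' hvn).trans hF.m_Y
    have e4 : (j : ℝ) * M.wt i (ht v) ≤ (κ' - 2 * κp) * s * h (M.wt i) :=
      (mul_le_mul_of_nonneg_right hjm' hF.pos.le).trans hF.m_hi
    have e5 : 0 ≤ (j : ℝ) * M.wt i (ht v) := mul_nonneg hj0 hF.pos.le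
    have key : ∀ y : Ht k, ‖M.θ g' - y‖ ≤ nv → ‖y‖ ≤ κ' * Y * s →
        M.wt i y ≤ (κ' - 2 * κp) * s * h (M.wt i) → WinH M h κp s (M.θ (z * g')) := by
      intro y hy1 hy2 hy3
      have e1 : M.θ (z * g') = (M.θ z + (M.θ g' - y)) + y := by rw [M.θ_mul]; abel
      rw [e1]
      refine hF.fct.win hg hc hF.mem_Φ (κ6 := 3 * κ4) (Y := Y) hs hκ' hκp (by linarith) h6 hY ?_
        hy2 hy3
      have e2 : M.θ z + (M.θ g' - y) - ((1 - κ') * s) • u =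
          (M.θ z - ((1 - κ') * s) • u) + (M.θ g' - y) := by abel
      rw [e2]
      refine (norm_add_le _ _).trans ?_
      linarith
    rcases hj with hj | hj
    · refine key _ hj ?_ ?_
      · rw [norm_smul, Real.norm_eq_abs, abs_of_nonneg hj0]; exact e3
      · rw [map_smul, smul_eq_mul]; exact e4
    · refine key (-((j : ℝ) • ht v)) (by rwa [sub_neg_eq_add]) ?_ ?_
      · rw [norm_neg, norm_smul, Real.norm_eq_abs, abs_of_nonneg hj0]; exact e3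
      · rw [map_neg, map_smul, smul_eq_mul]
        have h2 := (hg.bd _ hF.mem_Φ).1
        have h3 : 0 ≤ (κ' - 2 * κp) * s * h (M.wt i) :=
          mul_nonneg (mul_nonneg (by linarith) hs) (by linarith)
        linarith
  · rw [M.θ_mul]
    refine (norm_add_le _ _).trans ?_
    have := (θ_CB M hg').trans hnA
    linarith

/-- existence of the merging time -/
theorem ev_exists_frm {c₂ κ' κp A A_g βm Vm : ℝ} {nv : ℕ} {V₁ : Finset (Fin k → ℤ)} (hc : 0 < c₂)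
    (hκ0 : 0 < κ') (hκp : 0 < κp) (hκp' : 4 * κp ≤ κ') (hβ : 0 < βm) (hVm : 1 ≤ Vm)
    (hV1 : ∀ v ∈ V₁, ‖(ht v : Ht k)‖ ≤ Vm) (hV2 : ∀ v ∈ V₁, ∀ b ∈ M.Φ, βm ≤ |b (ht v)|)
    (hV3 : ∀ v ∈ V₁, M.τ v ∈ M.CB nv) (hA : κ' * c₂⁻¹ / βm * nv ≤ A) (hAg : A_g ≤ A) :
    ∀ᶠ s : ℝ in atTop, ∀ h : (Ht k →L[ℝ] ℝ) → ℝ, M.HGood c₂ h → ∀ i, M.wt i ≠ 0 →
      ∀ u, Fct M h c₂ (M.wt i) u → ∀ v ∈ V₁, 0 < M.wt i (ht v) → ∀ n : ℕ, (n : ℝ) ≤ A_g * s →
      ∀ g ∈ M.CB n, ‖M.θ g - ((1 - κ') * s) • u‖ ≤ 1 / 2 → ∃ m : ℕ,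
      Frm M h c₂ κ' κp (κ' * c₂ * βm / (4 * (bΦ M * Vm))) (c₂⁻¹ * Vm / βm) A (bΦ M * Vm) s nv
        i u v m g := by
  have hb1 := one_le_bΦ M
  have hci : 0 < c₂⁻¹ := inv_pos.2 hc
  have hbV : 0 < bΦ M * Vm := by positivity
  filter_upwards [ev_linB βm (show 0 < κ' * c₂ * βm / (4 * (bΦ M * Vm)) by positivity),
    eventually_ge_atTop (0 : ℝ)] with s h1 hs h hg i hi u hu v hv hpos n hn g hgm hgθ
  have hΦ : M.wt i ∈ M.Φ := by
    rcases wt_cases M i with h0 | h0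
    · exact absurd h0 hi
    · exact h0.1
  have hh := hg.bd _ hΦ
  set β := M.wt i (ht v) with hβdef
  have hββ : βm ≤ β := by
    have := hV2 v hv _ hΦ
    rwa [abs_of_pos hpos] at this
  have hβV : β ≤ bΦ M * Vm := by
    refine (le_abs_self _).trans ((abs_le_bΦ M hΦ _).trans ?_)
    exact mul_le_mul_of_nonneg_left (hV1 v hv) (by linarith)
  set X : ℝ := (κ' - 2 * κp) * s * h (M.wt i) with hX
  have hX0 : 0 ≤ X := mul_nonneg (mul_nonneg (by linarith) hs) (by linarith)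
  have hXlo : κ' / 2 * c₂ * s ≤ X := by
    rw [hX]
    have e1 : κ' / 2 * s * c₂ ≤ κ' / 2 * s * h (M.wt i) := mul_le_mul_of_nonneg_left hh.1 (by positivity)
    have e2 : κ' / 2 * s * h (M.wt i) ≤ (κ' - 2 * κp) * s * h (M.wt i) := by
      refine mul_le_mul_of_nonneg_right (mul_le_mul_of_nonneg_right (by linarith) hs) (by linarith)
    linarith
  have hXhi : X ≤ κ' * c₂⁻¹ * s := by
    rw [hX]
    calc (κ' - 2 * κp) * s * h (M.wt i) ≤ κ' * s * h (M.wt i) :=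
          mul_le_mul_of_nonneg_right (mul_le_mul_of_nonneg_right (by linarith) hs) (by linarith)
      _ ≤ κ' * s * c₂⁻¹ := mul_le_mul_of_nonneg_left hh.2 (by positivity)
      _ = _ := by ring
  set m : ℕ := ⌊X / β⌋₊ with hm
  have hm1 : (m : ℝ) * β ≤ X := by
    have := Nat.floor_le (show 0 ≤ X / β by positivity)
    rwa [le_div_iff₀ hpos] at this
  have hm2 : X - β ≤ m * β := by
    have := Nat.lt_floor_add_one (X / β)
    rw [div_lt_iff₀ hpos] at this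
    rw [← hm] at this
    linarith
  have hm3 : (m : ℝ) ≤ κ' * c₂⁻¹ * s / βm := by
    rw [le_div_iff₀ hβ]
    calc (m : ℝ) * βm ≤ m * β := mul_le_mul_of_nonneg_left hββ (Nat.cast_nonneg m)
      _ ≤ _ := hm1.trans hXhi
  refine ⟨m, hi, hu, hV3 v hv, hpos, by linarith, hm1, ?_, ?_, ?_, ⟨n, ?_, hgm⟩, hgθ⟩
  · calc (m : ℝ) * ‖(ht v : Ht k)‖ ≤ (κ' * c₂⁻¹ * s / βm) * Vm :=
          mul_le_mul hm3 (hV1 v hv) (norm_nonneg _) (by positivity)
      _ = _ := by ring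
  · push_cast
    calc (m : ℝ) * nv ≤ (κ' * c₂⁻¹ * s / βm) * nv :=
          mul_le_mul_of_nonneg_right hm3 (Nat.cast_nonneg nv)
      _ = (κ' * c₂⁻¹ / βm * nv) * s := by ring
      _ ≤ A * s := mul_le_mul_of_nonneg_right hA hs
  · intro j hj
    have hΦj : M.wt j ∈ M.Φ := by
      rcases wt_cases M j with h0 | h0
      · exact absurd h0 hj
      · exact h0.1
    have e1 : (m : ℝ) * βm ≤ m * |M.wt j (ht v)| :=
      mul_le_mul_of_nonneg_left (hV2 v hv _ hΦj) (Nat.cast_nonneg m)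
    refine le_trans ?_ e1
    -- lower bound of m
    have e2 : κ' / 2 * c₂ * s - bΦ M * Vm ≤ m * (bΦ M * Vm) := by
      have := mul_le_mul_of_nonneg_left hβV (Nat.cast_nonneg (α := ℝ) m)
      linarith
    have e3 : (κ' / 2 * c₂ * s - bΦ M * Vm) * βm ≤ m * βm * (bΦ M * Vm) := by
      have := mul_le_mul_of_nonneg_right e2 hβ.le
      linarith
    have e4 : κ' * c₂ * βm / (4 * (bΦ M * Vm)) * s * (bΦ M * Vm) = κ' * c₂ * βm / 4 * s := by
      field_simp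
    have e5 : βm * (bΦ M * Vm) ≤ κ' * c₂ * βm / (4 * (bΦ M * Vm)) * s * (bΦ M * Vm) :=
      mul_le_mul_of_nonneg_right h1 hbV.le
    rw [e4] at e5
    have e6 : κ' * c₂ * βm / (4 * (bΦ M * Vm)) * s * (bΦ M * Vm) ≤ m * βm * (bΦ M * Vm) := by
      rw [e4]
      linarith
    exact le_of_mul_le_mul_right e6 hbV
  · exact hn.trans (mul_le_mul_of_nonneg_right hAg hs)

end Vale.Agent.P188.Z1.RModel.F6
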