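import Vale.Agent.P188.H616.M17

/-!
# P188, FLAT in the model, part 18: NOFOLD for a letter, all labels and directions
-/

set_option linter.all false

open MeasureTheory Set Filter
open Vale.Agent.P188.H530 (hgt)
open Vale.Agent.P188.H616 (Coord Sec Phi slide StrAt nofold_labels offset_close badL)

namespace Vale.Agent.P188.Z1.RModel.F6

variable {S : Type} [Group S] [MeasurableSpace S] {Γ : Type} [Group Γ]
  {V : Type} [AddCommGroup V] [Module ℝ V] {k : ℕ} {M : RModel S Γ V k}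

/-- abstract labels -/
structure LabD (M : RModel S Γ V k) (Φ₁ : Finset (Ht k →L[ℝ] ℝ)) (V₁ : Finset (Fin k → ℤ))
    {Λ : Type*} (T : Λ → Ht k →L[ℝ] Ht k) (P : (Fin k → ℤ) → Λ → Set Φ₁) : Prop where
  sub : Φ₁ ⊆ M.Φ
  pos : ∀ v ∈ V₁, ∀ a, ∀ b : Φ₁, b ∈ P v a → 0 ≤ (b : Ht k →L[ℝ] ℝ) (T a (ht v))
  neg : ∀ v ∈ V₁, ∀ a, ∀ b : Φ₁, b ∉ P v a → (b : Ht k →L[ℝ] ℝ) (T a (ht v)) ≤ 0
  card : ∀ v ∈ V₁, ∀ a a', (P v a).ncard = (P v a').ncard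
  inj : ∀ b₀ ∈ M.Φ, ∀ a a', (∀ v ∈ V₁, 0 < b₀ (ht v) → P v a = P v a') → a = a'

theorem letter_core {Lb : Type} [Fintype Lb] {Φ₁ : Finset (Ht k →L[ℝ] ℝ)}
    {P : (Fin k → ℤ) → Lb → Set Φ₁} {Dr : Finset (Fin k → ℤ)} (hne : Dr.Nonempty)
    (hcard : ∀ v ∈ Dr, ∀ s s', (P v s).ncard = (P v s').ncard)
    (hinj : ∀ s s', (∀ v ∈ Dr, P v s = P v s') → s = s')
    {σ : S → Lb} {T : Lb → Ht k →L[ℝ] Ht k} {f : S → Ht k} {τ : S → S}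
    (hτ : MeasurePreserving τ M.μ M.μ) {m : (Fin k → ℤ) → ℕ} {D0 D2 : Set S}
    (hD1 : ∀ z ∈ D0, z ∈ D2) (hD2 : ∀ z ∈ D0, τ z ∈ D2) {errS d err Lf : ℝ} {e₁ e₂ : ENNReal}
    (hStr : ∀ v ∈ Dr, M.μ {z | z ∈ D2 ∧ ¬ StrAt f σ (Tl T) (M.τ v) (ht v) (m v) errS z} ≤ e₂)
    (hpair : ∀ v ∈ Dr, ∀ b : Φ₁, ∀ s1 s2, b ∈ P v s1 → b ∉ P v s2 →
      M.μ {z | (z ∈ D2 ∧ σ z = s2 ∧ z ∈ {z | StrAt f σ (Tl T) (M.τ v) (ht v) (m v) errS z}) ∧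
        (τ z ∈ D2 ∧ σ (τ z) = s1 ∧
          τ z ∈ {z | StrAt f σ (Tl T) (M.τ v) (ht v) (m v) errS z})} ≤ e₁)
    (htop : ∀ v ∈ Dr, ∀ z ∈ D2, (M.l ((z * M.τ v ^ m v)⁻¹ * (τ z * M.τ v ^ m v)) : ℝ) ≤ d)
    (hLf : 0 ≤ Lf) (hlip : ∀ z g, ‖f (z * g) - f z‖ ≤ Lf * M.l g) (herr : Lf * d + 2 * errS ≤ err) :
    M.μ (D0 ∩ badL σ f τ err) ≤ Dr.card * e₂ + Dr.card * e₂ +
      (Dr.card * (Fintype.card Φ₁ * (Fintype.card Lb * Fintype.card Lb)) : ℕ) * e₁ := by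
  classical
  set Str : (Fin k → ℤ) → Set S := fun v =>
    {z | StrAt f σ (Tl T) (M.τ v) (ht v) (m v) errS z} with hStrdef
  have hfold := nofold_labels M.μ (Dr := Dr) (σ := σ) (τ := τ) P hcard hinj Str (D1 := D2)
    (D2 := D2) (e := e₁) (fun v hv b s1 s2 hb1 hb2 => hpair v hv b s1 s2 hb1 hb2)
  set E1 : Set S := ⋃ v ∈ Dr, {z | z ∈ D2 ∧ z ∉ Str v} with hE1
  have hE1m : M.μ E1 ≤ Dr.card * e₂ := by
    refine (measure_biUnion_finset_le _ _).trans ?_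
    calc ∑ v ∈ Dr, M.μ {z | z ∈ D2 ∧ z ∉ Str v} ≤ ∑ v ∈ Dr, e₂ :=
          Finset.sum_le_sum fun v hv => hStr v hv
      _ = _ := by rw [Finset.sum_const, nsmul_eq_mul]
  have hsub : D0 ∩ badL σ f τ err ⊆ (E1 ∪ τ ⁻¹' E1) ∪ {z | (z ∈ D2 ∧ ∀ v ∈ Dr, z ∈ Str v) ∧
      (τ z ∈ D2 ∧ ∀ v ∈ Dr, τ z ∈ Str v) ∧ σ (τ z) ≠ σ z} := by
    rintro z ⟨hz, hbad⟩
    by_cases h1 : z ∈ E1
    · exact Or.inl (Or.inl h1)
    by_cases h2 : τ z ∈ E1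
    · exact Or.inl (Or.inr h2)
    right
    have h3 : ∀ v ∈ Dr, z ∈ Str v := by
      intro v hv
      by_contra hcon
      exact h1 (mem_iUnion₂.2 ⟨v, hv, hD1 z hz, hcon⟩)
    have h4 : ∀ v ∈ Dr, τ z ∈ Str v := by
      intro v hv
      by_contra hcon
      exact h2 (mem_iUnion₂.2 ⟨v, hv, hD2 z hz, hcon⟩)
    refine ⟨⟨hD1 z hz, h3⟩, ⟨hD2 z hz, h4⟩, ?_⟩
    intro heq
    rcases hbad with h5 | h5
    · exact h5 heq
    · obtain ⟨v, hv⟩ := hne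
      have h6 := offset_close hLf hlip (h3 v hv) (h4 v hv) heq (htop v hv z (hD1 z hz))
      exact absurd h5 (not_lt.2 (h6.trans herr))
  refine (measure_mono hsub).trans ((measure_union_le _ _).trans (add_le_add
    ((measure_union_le _ _).trans (add_le_add hE1m ((mp_le M hτ _).trans hE1m))) hfold))

/-- Lipschitz constant of the height functions -/
theorem f_lip' {K : ℝ} {F F' : Γ → Γ} (h : M.QIm K F F') (z g : S) :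
    ‖M.f F (z * g) - M.f F z‖ ≤ 2 * (M.C0 * K * (2 * M.C0 + 1)) * M.l g := by
  rcases Nat.eq_zero_or_pos (M.l g) with h0 | h0
  · rw [M.l_zero g h0, mul_one, sub_self, norm_zero, M.len.one]
    simp
  · have h1 := h.f_lip z g
    have h2 : (1 : ℝ) ≤ M.l g := by exact_mod_cast h0
    have h3 : 0 ≤ M.C0 * K * (2 * M.C0 + 1) := by
      have := h.K_nonneg
      have := M.C0_pos
      positivity
    nlinarith

end Vale.Agent.P188.Z1.RModel.F6
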