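import Vale.Agent.P188.H616.M18

/-!
# P188, FLAT in the model, part 19: choice of the constants of NOFOLD
-/

set_option linter.all false

open MeasureTheory Set Filter

namespace Vale.Agent.P188.Z1.RModel.F6

variable {S : Type} [Group S] [MeasurableSpace S] {Γ : Type} [Group Γ]
  {V : Type} [AddCommGroup V] [Module ℝ V] {k : ℕ}

theorem exists_nc (M : RModel S Γ V k) {C c₂ βm Vm η κmax A_g Lf Λ Λ2 : ℝ} (nv : ℕ) (hC : 1 ≤ C)
    (hc : 0 < c₂) (hβ : 0 < βm) (hVm : 1 ≤ Vm) (hη : 0 < η) (hκmax : 0 < κmax) (hLf : 0 ≤ Lf)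
    (hΛ : 0 < Λ) (hΛ2 : 1 ≤ Λ2) : ∃ κ' κc κ'' κp κ4 ε₀ A : ℝ, 0 < ε₀ ∧
      (∀ ε, 0 < ε → ε ≤ ε₀ → NC M C c₂ κ' κc (κ' * c₂ * βm / (4 * (bΦ M * Vm))) κ'' κp κ4 ε
        (c₂⁻¹ * Vm / βm) A Λ Λ2) ∧
      4 * κp ≤ κ' ∧ bΦ M * (3 * κ4) ≤ κp * c₂ ∧
      bΦ M * (3 * κ4 + κ' * (c₂⁻¹ * Vm / βm)) ≤ c₂ / 2 ∧
      κ' * c₂⁻¹ / βm * nv ≤ A ∧ A_g ≤ A ∧ κ' ≤ κmax ∧ κ4 ≤ κmax ∧ κp ≤ κmax ∧
      Lf * (10 * M.C0 * (κp * (c₂ + c₂⁻¹))) + 2 * ε₀ ≤ η := by
  have hb1 := one_le_bΦ M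
  have hb0 : 0 < bΦ M := by linarith
  have hC0 : 0 < C := by linarith
  have hM0 := M.C0_pos
  have hci : 0 < c₂⁻¹ := inv_pos.2 hc
  set Y : ℝ := c₂⁻¹ * Vm / βm with hY
  have hY0 : 0 < Y := by positivity
  set W : ℝ := c₂ + c₂⁻¹ with hW
  have hW0 : 0 < W := by positivity
  set κ' : ℝ := min (min (1 / 2) κmax) (c₂ / (4 * bΦ M * (1 + Y))) with hκ'
  have hκ'0 : 0 < κ' := lt_min (lt_min (by norm_num) hκmax) (by positivity)
  have k1 : κ' ≤ 1 / 2 := (min_le_left _ _).trans (min_le_left _ _)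
  have k2 : κ' ≤ κmax := (min_le_left _ _).trans (min_le_right _ _)
  have k3 : κ' * (4 * bΦ M * (1 + Y)) ≤ c₂ := by
    have : κ' ≤ c₂ / (4 * bΦ M * (1 + Y)) := min_le_right _ _
    rwa [le_div_iff₀ (by positivity)] at this
  set κm : ℝ := κ' * c₂ * βm / (4 * (bΦ M * Vm)) with hκm
  have hκm0 : 0 < κm := by positivity
  set κc : ℝ := min (κ' * c₂) κm / (2 * C) with hκc
  have hmin0 : 0 < min (κ' * c₂) κm := lt_min (by positivity) hκm0
  have hκc0 : 0 < κc := by positivity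
  have k4 : C * κc = min (κ' * c₂) κm / 2 := by rw [hκc]; field_simp
  set κ'' : ℝ := κc / C with hκ''
  have hκ''0 : 0 < κ'' := by positivity
  have k5 : C * κ'' = κc := by rw [hκ'']; field_simp
  set κp : ℝ := min (min (κ' / 4) κmax) (min (κ'' / (C * W)) (η / (20 * M.C0 * (Lf + 1) * W)))
    with hκp
  have hκp0 : 0 < κp := lt_min (lt_min (by positivity) hκmax) (lt_min (by positivity) (by positivity))
  have k6 : κp ≤ κ' / 4 := (min_le_left _ _).trans (min_le_left _ _)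
  have k7 : κp ≤ κmax := (min_le_left _ _).trans (min_le_right _ _)
  have k8 : κp * (C * W) ≤ κ'' := by
    have : κp ≤ κ'' / (C * W) := (min_le_right _ _).trans (min_le_left _ _)
    rwa [le_div_iff₀ (by positivity)] at this
  have k9 : κp * (20 * M.C0 * (Lf + 1) * W) ≤ η := by
    have : κp ≤ η / (20 * M.C0 * (Lf + 1) * W) := (min_le_right _ _).trans (min_le_right _ _)
    rwa [le_div_iff₀ (by positivity)] at this
  set κ4 : ℝ := min (min κp κmax) (κp * c₂ / (3 * C * bΦ M)) with hκ4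
  have hκ40 : 0 < κ4 := lt_min (lt_min hκp0 hκmax) (by positivity)
  have k10 : κ4 ≤ κp := (min_le_left _ _).trans (min_le_left _ _)
  have k11 : κ4 ≤ κmax := (min_le_left _ _).trans (min_le_right _ _)
  have k12 : κ4 * (3 * C * bΦ M) ≤ κp * c₂ := by
    have : κ4 ≤ κp * c₂ / (3 * C * bΦ M) := min_le_right _ _
    rwa [le_div_iff₀ (by positivity)] at this
  have k13 : 3 * κ4 * bΦ M ≤ κp * c₂ := by
    have : 3 * κ4 * bΦ M * 1 ≤ 3 * κ4 * bΦ M * C := mul_le_mul_of_nonneg_left hC (by positivity)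
    linarith
  have k14 : C * κ4 ≤ κp * c₂ := by
    have : C * κ4 * 1 ≤ C * κ4 * (3 * bΦ M) := mul_le_mul_of_nonneg_left (by linarith) (by positivity)
    linarith
  have k15 : bΦ M * (3 * κ4 + κ' * Y) ≤ c₂ / 2 := by
    have e1 : bΦ M * (3 * κ4 + κ' * Y) ≤ bΦ M * (κ' * (1 + Y)) :=
      mul_le_mul_of_nonneg_left (by linarith) hb0.le
    linarith
  have k16 : bΦ M * (2 * κ4 + κ' * Y) ≤ c₂ / 2 :=
    (mul_le_mul_of_nonneg_left (by linarith) hb0.le).trans k15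
  set ε₀ : ℝ := min (κc / C) (η / 4) with hε₀
  have hε₀0 : 0 < ε₀ := lt_min (by positivity) (by positivity)
  have k17 : ε₀ * C ≤ κc := by
    have : ε₀ ≤ κc / C := min_le_left _ _
    rwa [le_div_iff₀ hC0] at this
  have k18 : ε₀ ≤ η / 4 := min_le_right _ _
  have hnv : 0 ≤ κ' * c₂⁻¹ / βm * nv := by positivity
  refine ⟨κ', κc, κ'', κp, κ4, ε₀, 1 + |A_g| + κ' * c₂⁻¹ / βm * nv + κ4, hε₀0, ?_, by linarith,
    by linarith, k15, ?_, ?_, k2, k11, k7, ?_⟩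
  · intro ε hε hεε
    refine ⟨hc, hκ'0, k1, hκc0, ?_, ?_, hκ''0, k5.le, hκp0, by linarith, by linarith, hκ40, k14, k16,
      ?_, hε, ?_, hΛ, hΛ2⟩
    · rw [k4]
      have := min_le_left (κ' * c₂) κm
      have : 0 < κ' * c₂ := by positivity
      linarith
    · rw [k4]
      have := min_le_right (κ' * c₂) κm
      linarith
    · have := abs_nonneg A_g
      linarith
    · have := mul_le_mul_of_nonneg_right hεε hC0.le
      linarith
  · have := abs_nonneg A_g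
    linarith
  · have := le_abs_self A_g
    linarith
  · have e1 : Lf * (10 * M.C0 * (κp * W)) ≤ η / 2 := by
      have e2 : Lf * (κp * (20 * M.C0 * W)) ≤ (Lf + 1) * (κp * (20 * M.C0 * W)) :=
        mul_le_mul_of_nonneg_right (by linarith) (by positivity)
      linarith
    linarith

end Vale.Agent.P188.Z1.RModel.F6
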