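import Vale.Agent.P188.H616.M1

/-!
# P188, FLAT in the model, part 2: Cartan words, admissible sizes, paths
-/

set_option linter.all false

open MeasureTheory Set
open Vale.Agent.P188.H530 (hgt)

namespace Vale.Agent.P188.Z1.RModel.F6



variable {S : Type} [Group S] [MeasurableSpace S] {Γ : Type} [Group Γ]
  {V : Type} [AddCommGroup V] [Module ℝ V] {k : ℕ} (M : RModel S Γ V k)

theorem θ_eq_zero {x : S} (h : M.η x = 1) : M.θ x = 0 := by
  funext i
  show ((Multiplicative.toAdd (M.η x) i : ℤ) : ℝ) = 0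
  rw [h]; simp

theorem θ_τht (w : Fin k → ℤ) : M.θ (M.τ w) = ht w := M.θ_τ w

/-! ### Cartan words -/

theorem τ_mem_CB1 {w : Fin k → ℤ} (h : ∀ i, |w i| ≤ 1) : M.τ w ∈ M.CB 1 :=
  ⟨[M.τ w], by simp, by simp, by simpa using Or.inr ⟨w, h, Or.inl rfl⟩⟩

/-- every word is the end of a path with steps in `CB 1` -/
theorem CB_path {n : ℕ} {c : S} (h : c ∈ M.CB n) : ∃ q : ℕ → S, q 0 = 1 ∧ q n = c ∧
    (∀ i, (q i)⁻¹ * q (i + 1) ∈ M.CB 1) ∧ ∀ i, q i ∈ M.CB i := by
  obtain ⟨L, hL, hp, ha⟩ := h
  refine ⟨fun i => (L.take i).prod, by simp, ?_, ?_, ?_⟩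
  · show (L.take n).prod = c
    rw [List.take_of_length_le hL, hp]
  · intro i
    show ((L.take i).prod)⁻¹ * (L.take (i + 1)).prod ∈ M.CB 1
    by_cases hi : i < L.length
    · rw [List.take_succ_eq_append_getElem hi, List.prod_append, inv_mul_cancel_left]
      refine ⟨[L[i]], by simp, by simp, ?_⟩
      intro a h
      rw [List.mem_singleton] at h
      rw [h]
      exact ha _ (List.getElem_mem hi)
    · rw [List.take_of_length_le (by omega), List.take_of_length_le (by omega), inv_mul_cancel]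
      exact M.one_mem_CB 1
  · intro i
    exact ⟨L.take i, List.length_take_le _ _, rfl, fun a h => ha a (List.mem_of_mem_take h)⟩

/-- a path along which the heights follow a segment -/
theorem exists_path (h : Ht k) {n : ℕ} (hn : 2 * ‖h‖ ≤ n) : ∃ q : ℕ → S, q 0 = 1 ∧
    (∀ i < n, (q i)⁻¹ * q (i + 1) ∈ M.CB 1) ∧ (∀ i, q i ∈ M.CB i) ∧
    ∀ i ≤ n, ‖M.θ (q i) - ((i : ℝ) / n) • h‖ ≤ 1 / 2 := by
  classical
  set w : ℕ → Fin k → ℤ := fun i j => round ((i : ℝ) / n * h j) with hw
  have hw0 : w 0 = 0 := by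
    funext j
    simp [hw]
  set st : ℕ → S := fun i => if i < n then M.τ (w (i + 1) - w i) else 1 with hst
  set q : ℕ → S := fun i => (List.ofFn fun j : Fin i => st j).prod with hq
  have hq0 : q 0 = 1 := by simp [hq]
  have hqs : ∀ i, q (i + 1) = q i * st i := by
    intro i
    simp only [hq]
    rw [List.ofFn_succ_last, List.prod_append]
    simp
  have hsmall : ∀ i < n, ∀ j, |(w (i + 1) - w i) j| ≤ 1 := by
    intro i hi j
    have hn0 : (0 : ℝ) < n := by
      have : 0 < n := by omega
      exact_mod_cast this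
    have h1 := abs_sub_round (((i + 1 : ℕ) : ℝ) / n * h j)
    have h2 := abs_sub_round ((i : ℝ) / n * h j)
    have h3 : |((i + 1 : ℕ) : ℝ) / n * h j - (i : ℝ) / n * h j| ≤ 1 / 2 := by
      have e : ((i + 1 : ℕ) : ℝ) / n * h j - (i : ℝ) / n * h j = h j / n := by
        push_cast; ring
      rw [e, abs_div, abs_of_pos hn0, div_le_div_iff₀ hn0 (by norm_num)]
      have := norm_le_pi_norm h j
      rw [Real.norm_eq_abs] at this
      linarith
    have h4 : |(((w (i + 1) - w i) j : ℤ) : ℝ)| < 2 := by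
      have e : (((w (i + 1) - w i) j : ℤ) : ℝ) =
          (round (((i + 1 : ℕ) : ℝ) / n * h j) : ℝ) - (round ((i : ℝ) / n * h j) : ℝ) := by
        simp [hw]
      rw [e]
      rw [abs_le] at h1 h2 h3
      rw [abs_lt]
      constructor <;> linarith [h1.1, h1.2, h2.1, h2.2, h3.1, h3.2]
    have h5 : |(w (i + 1) - w i) j| < 2 := by exact_mod_cast h4
    omega
  have hst1 : ∀ i, st i ∈ M.CB 1 := by
    intro i
    simp only [hst]
    split_ifs with hi
    · exact τ_mem_CB1 M (hsmall i hi)
    · exact M.one_mem_CB 1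
  refine ⟨q, hq0, fun i _ => ?_, ?_, ?_⟩
  · rw [hqs, inv_mul_cancel_left]
    exact hst1 i
  · intro i
    induction i with
    | zero => rw [hq0]; exact M.one_mem_CB 0
    | succ i ih => rw [hqs]; exact M.CB_mul ih (hst1 i)
  · have hθ : ∀ i ≤ n, M.θ (q i) = ht (w i) := by
      intro i
      induction i with
      | zero =>
        intro _
        rw [hq0, M.θ_one, hw0]
        funext j
        simp [ht]
      | succ i ih =>
        intro hi
        rw [hqs, M.θ_mul, ih (by omega)]
        simp only [hst]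
        rw [if_pos (by omega), θ_τht]
        funext j
        simp [ht]
    intro i hi
    rw [hθ i hi, pi_norm_le_iff_of_nonneg (by norm_num)]
    intro j
    have h2 := abs_sub_round ((i : ℝ) / n * h j)
    show ‖(w i j : ℝ) - (i : ℝ) / n * h j‖ ≤ 1 / 2
    rw [Real.norm_eq_abs, abs_sub_comm]
    exact h2

/-! ### sizes -/

theorem wt_cases (i : M.ι) : M.wt i = 0 ∨ (M.wt i ∈ M.Φ ∧ M.wt i ≠ 0) := by
  rcases M.wt_mem i with h | h
  · exact Or.inr ⟨h, M.Φ_ne _ h⟩
  · exact Or.inl h

variable {M} {h : (Ht k →L[ℝ] ℝ) → ℝ} {c d₁ s : ℝ}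

theorem szh_pos (i : M.ι) : 0 < M.szh h d₁ s i := by
  unfold szh
  split_ifs <;> exact Real.exp_pos _

theorem szh_zero {i : M.ι} (hi : M.wt i = 0) : M.szh h d₁ s i = Real.exp (d₁ * s) := by
  unfold szh; rw [if_pos hi]

theorem szh_ne {i : M.ι} (hi : M.wt i ≠ 0) : M.szh h d₁ s i = Real.exp (s * h (M.wt i)) := by
  unfold szh; rw [if_neg hi]

/-- the exponent of the natural size -/
noncomputable def sxh (M : RModel S Γ V k) (h : (Ht k →L[ℝ] ℝ) → ℝ) (d₁ : ℝ) (i : M.ι) : ℝ :=
  open Classical in if M.wt i = 0 then d₁ else h (M.wt i)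

theorem sxh_zero {i : M.ι} (hi : M.wt i = 0) : sxh M h d₁ i = d₁ := by
  unfold sxh; rw [if_pos hi]

theorem sxh_ne {i : M.ι} (hi : M.wt i ≠ 0) : sxh M h d₁ i = h (M.wt i) := by
  unfold sxh; rw [if_neg hi]

theorem szh_eq (i : M.ι) : M.szh h d₁ s i = Real.exp (s * sxh M h d₁ i) := by
  unfold szh sxh
  split_ifs
  · rw [mul_comm]
  · rfl

theorem sxh_nonneg (hc : 0 ≤ c) (hh : M.HB c h) (hd : 0 ≤ d₁) (i : M.ι) : 0 ≤ sxh M h d₁ i := by
  unfold sxh
  split_ifs with hi
  · exact hd
  · rcases wt_cases M i with h0 | h0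
    · exact absurd h0 hi
    · exact hc.trans (hh _ h0.1).1

theorem map_exp_prod {α : Type*} (f : α → ℝ) (w : List α) :
    (w.map fun i => Real.exp (f i)).prod = Real.exp (w.map f).sum := by
  induction w with
  | nil => simp
  | cons i w ih => simp [ih, Real.exp_add]

/-- exponentials of subadditive exponents are admissible sizes -/
theorem adm_exp {f : M.ι → ℝ}
    (hf : ∀ (i : M.ι) (w : List M.ι), w ≠ [] → (w.map M.wt).sum = M.wt i → f i ≤ (w.map f).sum) :
    M.Adm fun i => Real.exp (f i) where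
  pos i := Real.exp_pos _
  le i w hw hsum := by
    rw [map_exp_prod, Real.exp_le_exp]
    exact hf i w hw hsum

theorem adm_two' {x y : ℝ} (hx : 1 ≤ x) (hxy : x ≤ y) : M.Adm (M.two x y) where
  pos i := by unfold two; split_ifs <;> linarith
  le i w hw hsum := by
    have hge : ∀ j, x ≤ M.two x y j := by
      intro j; unfold two; split_ifs
      · exact le_rfl
      · exact hxy
    have hone : ∀ l : List M.ι, 1 ≤ (l.map (M.two x y)).prod := by
      intro l
      induction l with
      | nil => simp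
      | cons j l ih =>
        rw [List.map_cons, List.prod_cons]
        exact one_le_mul_of_one_le_of_one_le (hx.trans (hge j)) ih
    by_cases hi : M.wt i = 0
    · have e : M.two x y i = x := by unfold two; rw [if_pos hi]
      rw [e]
      obtain ⟨j, w', rfl⟩ := List.exists_cons_of_ne_nil hw
      rw [List.map_cons, List.prod_cons]
      have h1 := hge j
      have h2 := hone w'
      nlinarith
    · have e : M.two x y i = y := by unfold two; rw [if_neg hi]
      rw [e]
      -- some letter is not neutral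
      obtain ⟨j, hj, hj0⟩ : ∃ j ∈ w, M.wt j ≠ 0 := by
        by_contra hcon
        push Not at hcon
        refine hi ?_
        rw [← hsum]
        refine List.sum_eq_zero fun b hb => ?_
        obtain ⟨j, hj, rfl⟩ := List.mem_map.1 hb
        exact hcon j hj
      obtain ⟨l₁, l₂, rfl⟩ := List.append_of_mem hj
      rw [List.map_append, List.map_cons, List.prod_append, List.prod_cons]
      have e' : M.two x y j = y := by unfold two; rw [if_neg hj0]
      rw [e']
      have h1 := hone l₁
      have h2 := hone l₂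
      have hy : 0 < y := by linarith
      calc y = 1 * (y * 1) := by ring
        _ ≤ _ := by gcongr

end Vale.Agent.P188.Z1.RModel.F6
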