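import Vale.Agent.P188.H616.M19

/-!
# P188, FLAT in the model, part 20: NOFOLD for a letter at every large scale
-/

set_option linter.all false

open MeasureTheory Set Filter
open Vale.Agent.P188.H530 (hgt)
open Vale.Agent.P188.H616 (Coord Sec Phi slide StrAt nofold_labels offset_close badL)

namespace Vale.Agent.P188.Z1.RModel.F6

variable {S : Type} [Group S] [MeasurableSpace S] {Γ : Type} [Group Γ]
  {V : Type} [AddCommGroup V] [Module ℝ V] {k : ℕ} {M : RModel S Γ V k}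

theorem exists_pos_dir {Φ₁ : Finset (Ht k →L[ℝ] ℝ)} {V₁ : Finset (Fin k → ℤ)} (hV : M.Dirs Φ₁ V₁)
    {i : M.ι} (hi : M.wt i ≠ 0) : ∃ v ∈ V₁, 0 < M.wt i (ht v) := by
  have hΦ : M.wt i ∈ M.Φ := by
    rcases wt_cases M i with h0 | h0
    · exact absurd h0 hi
    · exact h0.1
  have h1 : V₁.Nonempty := by
    rw [Finset.nonempty_iff_ne_empty]
    intro h
    have h2 := hV.span
    rw [h] at h2
    simp only [Finset.coe_empty, image_empty, Submodule.span_empty] at h2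
    apply hi
    ext w
    have h3 : w ∈ (⊥ : Submodule ℝ (Ht k)) := by rw [h2]; trivial
    rw [Submodule.mem_bot] at h3
    rw [h3, map_zero, map_zero]
  obtain ⟨v, hv⟩ := h1
  have h2 := hV.generic v hv _ (M.Φ_sub hΦ) hi
  rcases lt_or_gt_of_ne h2 with h3 | h3
  · refine ⟨-v, hV.neg v hv, ?_⟩
    have e : (ht (-v) : Ht k) = -ht v := by
      funext j
      simp [ht]
    rw [e, map_neg]
    have h4 : M.wt i (ht v) < 0 := h3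
    linarith
  · exact ⟨v, hv, h3⟩

theorem StrAt.mono_err {Lb : Type*} {f : S → Ht k} {σ : S → Lb} {T : Lb → Ht k →L[ℝ] Ht k} {t : S}
    {v : Ht k} {m : ℕ} {e e' : ℝ} (he : e ≤ e') {z : S} (h : StrAt f σ (Tl T) t v m e z) :
    StrAt f σ (Tl T) t v m e' z := fun j hj => ⟨(h j hj).1.trans he, (h j hj).2.trans he⟩

/-- total of the measures -/
theorem total_le {a b c n : ℕ} {ε θ₁ θ : ℝ} {μD : ENNReal} (hε : 0 ≤ ε) (hθ₁ : 0 ≤ θ₁) (ha : a ≤ b)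
    (hb : 8 * ((b : ℝ) + 1) * ε ≤ θ) (hc : c ≤ n) {q : ℕ}
    (hn : 4 * ((n : ℝ) + 1) * (1 + q) * θ₁ ≤ θ) :
    (a : ENNReal) * (2 * (ENNReal.ofReal ε * μD)) + a * (2 * (ENNReal.ofReal ε * μD)) +
      (c : ENNReal) * (ENNReal.ofReal θ₁ * μD + q * (ENNReal.ofReal θ₁ * μD)) ≤
      ENNReal.ofReal θ * μD := by
  have e1 : (a : ENNReal) * (2 * (ENNReal.ofReal ε * μD)) + a * (2 * (ENNReal.ofReal ε * μD)) +
      (c : ENNReal) * (ENNReal.ofReal θ₁ * μD + q * (ENNReal.ofReal θ₁ * μD)) =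
      ((4 * a : ℕ) * ENNReal.ofReal ε + (c * (1 + q) : ℕ) * ENNReal.ofReal θ₁) * μD := by
    push_cast; ring
  rw [e1]
  refine mul_le_mul_left ?_ _
  have e2 : ((4 * a : ℕ) : ENNReal) * ENNReal.ofReal ε = ENNReal.ofReal ((4 * a : ℕ) * ε) := by
    rw [ENNReal.ofReal_mul (Nat.cast_nonneg _), ENNReal.ofReal_natCast]
  have e3 : ((c * (1 + q) : ℕ) : ENNReal) * ENNReal.ofReal θ₁ =
      ENNReal.ofReal ((c * (1 + q) : ℕ) * θ₁) := by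
    rw [ENNReal.ofReal_mul (Nat.cast_nonneg _), ENNReal.ofReal_natCast]
  rw [e2, e3, ← ENNReal.ofReal_add (by positivity) (by positivity)]
  refine ENNReal.ofReal_le_ofReal ?_
  have ha' : (a : ℝ) ≤ b := by exact_mod_cast ha
  have hc' : (c : ℝ) ≤ n := by exact_mod_cast hc
  have q0 : (0 : ℝ) ≤ q := Nat.cast_nonneg q
  have b0 : (0 : ℝ) ≤ b := Nat.cast_nonneg b
  have n0 : (0 : ℝ) ≤ n := Nat.cast_nonneg n
  push_cast
  have f1 : 4 * (a : ℝ) * ε ≤ 4 * ((b : ℝ) + 1) * ε := by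
    refine mul_le_mul_of_nonneg_right ?_ hε
    linarith
  have f2 : (c : ℝ) * (1 + q) * θ₁ ≤ ((n : ℝ) + 1) * (1 + q) * θ₁ := by
    refine mul_le_mul_of_nonneg_right (mul_le_mul_of_nonneg_right (by linarith) (by linarith)) hθ₁
  have f3 : 0 ≤ ((n : ℝ) + 1) * (1 + q) * θ₁ := by positivity
  nlinarith

theorem nofold_letter (hS : M.SPREAD) (B : M.NatBox) (K : ℝ) {Φ₁ : Finset (Ht k →L[ℝ] ℝ)}
    {V₁ : Finset (Fin k → ℤ)} (hV : M.Dirs Φ₁ V₁) {c₂ : ℝ} (hc : 0 < c₂) (NΛ : ℕ)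
    {Λm Λ_L η κmax A_g : ℝ} (hΛm : 1 ≤ Λm) (hΛ_L : 0 < Λ_L) (hη : 0 < η) (hκmax : 0 < κmax) :
    ∃ κ' κ4 κp Λ3 A_S : ℝ, 0 < κ' ∧ κ' ≤ 1 / 2 ∧ κ' ≤ κmax ∧ 0 < κ4 ∧ κ4 ≤ κmax ∧ 0 < κp ∧
    κp ≤ κmax ∧ 1 ≤ Λ3 ∧ ∀ θ : ℝ, 0 < θ → ∃ ε_S : ℝ, 0 < ε_S ∧ ∀ d₁ : ℝ, 0 < d₁ →
    ∀ᶠ s : ℝ in atTop, ∀ h : (Ht k →L[ℝ] ℝ) → ℝ, M.HGood c₂ h → ∀ F F' : Γ → Γ, M.QIm K F F' →
    ∀ i, M.wt i ≠ 0 → ∀ u, Fct M h c₂ (M.wt i) u → ∀ n : ℕ, (n : ℝ) ≤ A_g * s → ∀ g ∈ M.CB n,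
    ‖M.θ g - ((1 - κ') * s) • u‖ ≤ 1 / 2 →
    ∀ {Lb : Type} [Fintype Lb] [MeasurableSpace Lb] [MeasurableSingletonClass Lb],
    Fintype.card Lb ≤ NΛ → ∀ (σ : S → Lb), Measurable σ → ∀ (T : Lb → Ht k →L[ℝ] Ht k)
    (P : (Fin k → ℤ) → Lb → Set Φ₁), LabD M Φ₁ V₁ T P → ∀ (D : Set S) (A ε κS dm : ℝ), A_S ≤ A →
    0 ≤ ε → ε ≤ ε_S → 0 ≤ κS → StrSc M σ T (M.f F) D A ε κS dm s →
    (∀ z, np M z ∈ B.Bx (fun i => Λ3 * M.szh h d₁ s i) → WinH M h κp s (M.θ z) →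
      ‖M.θ z‖ ≤ A_S * s → z ∈ M.In (κS * s) D) →
    ∀ x : ℝ, |x| ≤ Λ_L * Real.exp (s * h (M.wt i)) →
    (M.ex (x • M.X i) ∈ B.Bx fun i => Λm * M.szh h d₁ s i) →
    M.μ (DF B h Λm d₁ κ4 s g ∩ badL σ (M.f F) (slide M.sec (M.ex (x • M.X i)) g) (η * s)) ≤
      ENNReal.ofReal θ * M.μ D := by
  classical
  obtain ⟨βm, Vm, nv, hβ, hVm, hnv, hV1, hV2, hV3⟩ := exists_dirs M hV
  obtain ⟨C, hC, hpair⟩ := ev_pair hS B K
  have hBC := B.one_le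
  have hC0 := M.C0_pos
  have hΛ2 : 1 ≤ B.C * Λm := one_le_mul_of_one_le_of_one_le hBC hΛm
  set Λ2 := B.C * Λm with hΛ2def
  set Lf : ℝ := |2 * (M.C0 * K * (2 * M.C0 + 1))| with hLf
  obtain ⟨κ', κc, κ'', κp, κ4, ε₀, A, hε₀, hNC, n1, n2, n3, n4, n5, n6, n7, n8, n9⟩ :=
    exists_nc M (A_g := A_g) (Λ := Λ_L) (Λ2 := Λ2) nv hC hc hβ hVm hη hκmax (abs_nonneg (2 * (M.C0 * K *
      (2 * M.C0 + 1)))) hΛ_L hΛ2
  have hN0 := hNC ε₀ hε₀ le_rfl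
  have hκ0 := hN0.hκ0
  have hκp0 := hN0.hκp0
  have hκ40 := hN0.hκ40
  have hA0 : 0 ≤ A := by linarith [hN0.hA]
  refine ⟨κ', κ4, κp, B.C * (B.C * Λ2), M.C0 * (2 + A) + 3 * A, hκ0, hN0.hκ', n6, hκ40, n7, hκp0, n8,
    one_le_mul_of_one_le_of_one_le hBC (one_le_mul_of_one_le_of_one_le hBC hΛ2), fun θ hθ => ?_⟩
  set NN : ℕ := V₁.card * (Φ₁.card * (NΛ * NΛ)) with hNN
  set q : ℕ := Nat.card M.ι with hq
  set θ₁ : ℝ := min 1 (θ / (4 * ((NN : ℝ) + 1) * (1 + q))) with hθ₁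
  have hθ₁0 : 0 < θ₁ := lt_min one_pos (by positivity)
  have hθ₁1 : θ₁ ≤ 1 := min_le_left _ _
  have hθ₁2 : 4 * ((NN : ℝ) + 1) * (1 + q) * θ₁ ≤ θ := by
    have : θ₁ ≤ θ / (4 * ((NN : ℝ) + 1) * (1 + q)) := min_le_right _ _
    rw [le_div_iff₀ (by positivity)] at this
    linarith
  set ε_S : ℝ := min ε₀ (θ / (8 * ((V₁.card : ℝ) + 1))) with hε_S
  have hε_S0 : 0 < ε_S := lt_min hε₀ (by positivity)
  have hε_S1 : ε_S ≤ ε₀ := min_le_left _ _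
  have hε_S2 : 8 * ((V₁.card : ℝ) + 1) * ε_S ≤ θ := by
    have : ε_S ≤ θ / (8 * ((V₁.card : ℝ) + 1)) := min_le_right _ _
    rw [le_div_iff₀ (by positivity)] at this
    linarith
  refine ⟨ε_S, hε_S0, fun d₁ hd => ?_⟩
  have hN := hNC ε_S hε_S0 hε_S1
  filter_upwards [hpair hN nv (bΦ M * Vm) d₁ θ₁ θ₁ hd hθ₁0 hθ₁0 hθ₁1,
    ev_line (M := M) (Vb := bΦ M * Vm) (κm := κ' * c₂ * βm / (4 * (bΦ M * Vm))) B nv hc hκ0 hN.hκ'
      hκp0 hN.hκp' hκ40 n2 n3 hN.hA hd hΛ2,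
    ev_exists_frm (M := M) (A_g := A_g) hc hκ0 hκp0 n1 hβ hVm hV1 hV2 hV3 n4 n5,
    ev_slide_top (M := M) (Vb := bΦ M * Vm) (κm := κ' * c₂ * βm / (4 * (bΦ M * Vm))) nv hc hκ0 hN.hκ'
      hκp0 hN.hκp' hκ40 ((mul_le_mul_of_nonneg_left (by linarith) (by linarith [one_le_bΦ M])).trans n2)
      hN.hY hN.hA hΛ_L,
    ev_frm (M := M) (Vb := bΦ M * Vm) (κm := κ' * c₂ * βm / (4 * (bΦ M * Vm))) nv hc hκ0 hN.hκ'
      hκp0 hN.hκp' hκ40 ((mul_le_mul_of_nonneg_left (by linarith) (by linarith [one_le_bΦ M])).trans n2)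
      hN.hY hN.hA,
    eventually_ge_atTop (0 : ℝ)]
    with s f1 f2 f3 f4 f5 hs h hg F F' hF i hi u hu n hn g hgm hgθ Lb _ _ _ hcard σ hσ T P hP D A'
      ε κS dm hA' hε0 hεS hκS hSt hIn x hx hxm
  -- merging times
  have hex : ∀ v, v ∈ V₁ ∧ 0 < M.wt i (ht v) → ∃ m : ℕ,
      Frm M h c₂ κ' κp (κ' * c₂ * βm / (4 * (bΦ M * Vm))) (c₂⁻¹ * Vm / βm) A (bΦ M * Vm) s nv
        i u v m g := fun v hv => f3 h hg i hi u hu v hv.1 hv.2 n hn g hgm hgθ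
  choose! m hm using hex
  set Dr : Finset (Fin k → ℤ) := V₁.filter fun v => 0 < M.wt i (ht v) with hDr
  have hDr' : ∀ v ∈ Dr, v ∈ V₁ ∧ 0 < M.wt i (ht v) := fun v hv => Finset.mem_filter.1 hv
  have hDrne : Dr.Nonempty := by
    obtain ⟨v, hv, hv2⟩ := exists_pos_dir hV hi
    exact ⟨v, Finset.mem_filter.2 ⟨hv, hv2⟩⟩
  obtain ⟨v₀, hv₀⟩ := hDrne
  have hfr₀ := hm v₀ (hDr' v₀ hv₀)
  have hΦ : M.wt i ∈ M.Φ := hfr₀.mem_Φ
  have hl1 : (M.l (1 : S) : ℝ) ≤ κS * s := by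
    rw [M.len.one]
    simpa using mul_nonneg hκS hs
  have hInD : ∀ z, z ∈ M.In (κS * s) D → z ∈ D := by
    intro z hz
    have := hz 1 hl1
    rwa [mul_one] at this
  -- subsets of D
  have hDFD : DF B h Λ2 d₁ κ4 s g ⊆ D := by
    intro z hz
    obtain ⟨g1, g2, g3⟩ := f2 h hg i u v₀ (m v₀) g hfr₀ z hz 0 (Nat.zero_le _) 1 (M.one_mem_CB 0)
      ⟨0, Nat.zero_le _, Or.inl (by rw [M.θ_one]; simp)⟩
    rw [mul_one] at g1 g2 g3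
    exact hInD z (hIn z g1 g2 g3)
  have hDAD : DA B h (B.C * (B.C * Λ2)) d₁ s (M.θ g) (κ4 * s) ⊆ D := by
    intro z hz
    have e0 : M.θ (z * g⁻¹) = M.θ z - M.θ g := by rw [M.θ_mul, M.θ_inv]; abel
    obtain ⟨a1, a2, a3, a4, -⟩ := f5 h hg i u v₀ (m v₀) g hfr₀ z (by rw [e0]; exact hz.2)
    have hY0 : 0 ≤ κ' * (c₂⁻¹ * Vm / βm) * s := by
      have : 0 < c₂⁻¹ := inv_pos.2 hc
      positivity
    have h2 := (hg.bd _ hΦ).1
    have g2 := a4 0 (by rw [norm_zero]; exact hY0) (by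
      rw [map_zero]
      exact mul_nonneg (mul_nonneg (by linarith [hN.hκp']) hs) (by linarith))
    rw [add_zero] at g2
    refine hInD z (hIn z hz.1 g2 (a2.trans ?_))
    have : 0 ≤ A * s := mul_nonneg hA0 hs
    linarith
  have hcore := letter_core (M := M) (Φ₁ := Φ₁) (P := P) (Dr := Dr) ⟨v₀, hv₀⟩
    (fun v hv => hP.card v (hDr' v hv).1)
    (fun a a' haa => hP.inj _ hΦ a a' fun v hv hv2 => haa v (Finset.mem_filter.2 ⟨hv, hv2⟩))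
    (σ := σ) (T := T) (f := M.f F) (slide_mp M (M.η_ex (x • M.X i)) g) (m := m)
    (D0 := DF B h Λm d₁ κ4 s g) (D2 := DF B h Λ2 d₁ κ4 s g)
    (fun z hz => DF_mono B (by linarith) (le_mul_of_one_le_left (by linarith) hBC) hz)
    (fun z hz => slide_DF B (by linarith) hxm hz)
    (errS := ε_S * s) (d := 10 * M.C0 * (κp * (c₂ + c₂⁻¹)) * s) (err := η * s) (Lf := Lf)
    (e₁ := ENNReal.ofReal θ₁ * M.μ D + q * (ENNReal.ofReal θ₁ * M.μ D))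
    (e₂ := 2 * (ENNReal.ofReal ε_S * M.μ D)) ?_ ?_ ?_ (abs_nonneg _) ?_ ?_
  · refine hcore.trans (total_le hε_S0.le hθ₁0.le (Finset.card_filter_le _ _) hε_S2 ?_ hθ₁2)
    rw [Fintype.card_coe]
    exact Nat.mul_le_mul (Finset.card_filter_le _ _) (Nat.mul_le_mul le_rfl
      (Nat.mul_le_mul hcard hcard))
  · intro v hv
    have hfr := hm v (hDr' v hv)
    have hmA : ((m v * nv : ℕ) : ℝ) ≤ A' * s := by
      refine hfr.m_A.trans (mul_le_mul_of_nonneg_right ?_ hs)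
      have : 0 ≤ M.C0 * (2 + A) := by positivity
      linarith
    have h1 := hSt.strAt hnv hfr.τ_mem hmA (Din := DF B h Λ2 d₁ κ4 s g) (by
      intro z hz n' hn' g' hg' hj
      obtain ⟨g1, g2, g3⟩ := f2 h hg i u v (m v) g hfr z hz n' hn' g' hg' hj
      exact hIn _ g1 g2 g3)
    refine le_trans (measure_mono ?_) (h1.trans ?_)
    · rintro z ⟨hz, hz2⟩
      exact ⟨hz, fun h5 => hz2 (StrAt.mono_err (mul_le_mul_of_nonneg_right hεS hs) h5)⟩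
    · refine mul_le_mul_right (mul_le_mul_left ?_ _) _
      exact ENNReal.ofReal_le_ofReal hεS
  · intro v hv b s1 s2 hb1 hb2
    have hv' := (hDr' v hv).1
    have h1 := f1 h hg F F' hF i u v (m v) g (hm v (hDr' v hv)) x hx hσ (T := T) (s1 := s1)
      (s2 := s2) (b := b) (hP.sub b.2) (hP.pos v hv' s1 b hb1) (hP.neg v hv' s2 b hb2)
    refine h1.trans (add_le_add ?_ ?_)
    · exact mul_le_mul_right (measure_mono hDFD) _
    · exact mul_le_mul_right (mul_le_mul_right (measure_mono hDAD) _) _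
  · intro v hv z hz
    exact f4 h hg i u v (m v) g (hm v (hDr' v hv)) x hx z hz.2
  · intro z g'
    refine (f_lip' hF z g').trans ?_
    exact mul_le_mul_of_nonneg_right (le_abs_self _) (Nat.cast_nonneg _)
  · have e1 : Lf * (10 * M.C0 * (κp * (c₂ + c₂⁻¹)) * s) + 2 * (ε_S * s) =
        (Lf * (10 * M.C0 * (κp * (c₂ + c₂⁻¹))) + 2 * ε_S) * s := by ring
    rw [e1]
    refine mul_le_mul_of_nonneg_right (le_trans ?_ n9) hs
    have : 2 * ε_S ≤ 2 * ε₀ := by linarith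
    linarith

end Vale.Agent.P188.Z1.RModel.F6
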