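import Vale.Agent.P188.H616.NoFold2
import Mathlib.Analysis.Normed.Operator.ContinuousLinearMap
import Mathlib.MeasureTheory.Constructions.BorelSpace.Basic
import Mathlib.MeasureTheory.Constructions.BorelSpace.Metric

/-!
# P188, block NOFOLD, part 3: all directions and all pairs of labels
-/

set_option linter.all false

namespace Vale.Agent.P188.H616

open MeasureTheory Set Real H329

variable {S : Type} [Group S] {V W : Type*} [NormedAddCommGroup V] [NormedSpace ℝ V]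
  [AddCommGroup W] [Module ℝ W] {Λ Dir Ph : Type*}

/-- `f` is straight along `t` at `z` up to time `m`, with slope `T (σ z) v`. -/
def StrAt (f : S → V) (σ : S → Λ) (T : Λ → W →ₗ[ℝ] V) (t : S) (v : W) (m : ℕ) (err : ℝ) (z : S) :
    Prop :=
  ∀ j ≤ m, ‖f (z * t ^ j) - f z - (j : ℝ) • T (σ z) v‖ ≤ err ∧
    ‖f (z * t⁻¹ ^ j) - f z + (j : ℝ) • T (σ z) v‖ ≤ err

theorem StrAt.measurable [MeasurableSpace S] [MeasurableSpace V] [BorelSpace V]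
    [SecondCountableTopology V] [MeasurableSpace Λ] [Countable Λ] [MeasurableSingletonClass Λ]
    {f : S → V} {σ : S → Λ} (T : Λ → W →ₗ[ℝ] V) (t : S) (v : W) (m : ℕ) (err : ℝ)
    (hf : Measurable f) (hσ : Measurable σ) (hr : ∀ g : S, Measurable fun z => z * g) :
    MeasurableSet {z | StrAt f σ T t v m err z} := by
  have h1 : {z | StrAt f σ T t v m err z} = ⋃ s : Λ, (σ ⁻¹' {s} ∩ ⋂ j : Fin (m + 1),
      ({z | ‖f (z * t ^ (j : ℕ)) - f z - ((j : ℕ) : ℝ) • T s v‖ ≤ err} ∩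
        {z | ‖f (z * t⁻¹ ^ (j : ℕ)) - f z + ((j : ℕ) : ℝ) • T s v‖ ≤ err})) := by
    ext z
    simp only [mem_setOf_eq, mem_iUnion, mem_inter_iff, mem_preimage, mem_singleton_iff, mem_iInter]
    constructor
    · intro h
      exact ⟨σ z, rfl, fun j => h j (by omega)⟩
    · rintro ⟨s, rfl, h⟩ j hj
      exact h ⟨j, by omega⟩
  rw [h1]
  refine MeasurableSet.iUnion fun s => (hσ (measurableSet_singleton s)).inter
    (MeasurableSet.iInter fun j => MeasurableSet.inter ?_ ?_)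
  · exact measurableSet_le (((hf.comp (hr _)).sub hf).sub_const _).norm measurable_const
  · exact measurableSet_le (((hf.comp (hr _)).sub hf).add_const _).norm measurable_const

/-- target functionals: `bt β` is bounded by `Lb` -/
theorem StrAt.up3 {f : S → V} {σ : S → Λ} {T : Λ → W →ₗ[ℝ] V} {t : S} {v : W} {m : ℕ} {err : ℝ}
    {z : S} (hz : StrAt f σ T t v m err z) {b : V →ₗ[ℝ] ℝ} {Lb : ℝ} (hb : ∀ x, |b x| ≤ Lb * ‖x‖)
    (hLb : 0 ≤ Lb) (hpos : 0 ≤ b (T (σ z) v)) :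
    Up3 (fun z => b (f z)) t m (2 * (Lb * err)) (m * b (T (σ z) v)) (2 * (m * b (T (σ z) v))) z := by
  have he : 0 ≤ err := (norm_nonneg _).trans (hz 0 (Nat.zero_le _)).1
  have hLe : 0 ≤ Lb * err := mul_nonneg hLb he
  have h1 : ∀ j ≤ m, |b (f (z * t ^ j)) - b (f z) - j * b (T (σ z) v)| ≤ Lb * err := by
    intro j hj
    have h := (hb _).trans (mul_le_mul_of_nonneg_left (hz j hj).1 hLb)
    rwa [map_sub, map_sub, map_smul, smul_eq_mul] at h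
  have h2 : ∀ j ≤ m, |b (f (z * t⁻¹ ^ j)) - b (f z) + j * b (T (σ z) v)| ≤ Lb * err := by
    intro j hj
    have h := (hb _).trans (mul_le_mul_of_nonneg_left (hz j hj).2 hLb)
    rwa [map_add, map_sub, map_smul, smul_eq_mul] at h
  have h3 := abs_le.1 (h1 m le_rfl)
  have h4 := abs_le.1 (h2 m le_rfl)
  have h5 : ∀ j : ℕ, j ≤ m → (j : ℝ) * b (T (σ z) v) ≤ m * b (T (σ z) v) := fun j hj =>
    mul_le_mul_of_nonneg_right (by exact_mod_cast hj) hpos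
  have h6 : ∀ j : ℕ, 0 ≤ (j : ℝ) * b (T (σ z) v) := fun j => mul_nonneg (Nat.cast_nonneg j) hpos
  refine ⟨fun j hj => ?_, fun j hj => ?_, ?_, ?_⟩
  · have a1 := abs_le.1 (h1 j hj)
    have a2 := h5 j hj
    show b (f (z * t ^ j)) ≤ b (f (z * t ^ m)) + _
    linarith [a1.2, h3.1]
  · have a1 := abs_le.1 (h2 j hj)
    have a2 := h6 j
    have a3 := h6 m
    show b (f (z * t⁻¹ ^ j)) ≤ b (f (z * t ^ m)) + _
    linarith [a1.2, h3.1]
  · show |b (f (z * t ^ m)) - b (f (z * t⁻¹ ^ m)) - _| ≤ _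
    rw [abs_le]
    constructor <;> linarith [h3.1, h3.2, h4.1, h4.2]
  · show |b (f (z * t ^ m)) - b (f z) - _| ≤ _
    rw [abs_le]
    constructor <;> linarith [h3.1, h3.2]

theorem StrAt.down {f : S → V} {σ : S → Λ} {T : Λ → W →ₗ[ℝ] V} {t : S} {v : W} {m : ℕ} {err : ℝ}
    {z : S} (hz : StrAt f σ T t v m err z) {b : V →ₗ[ℝ] ℝ} {Lb : ℝ} (hb : ∀ x, |b x| ≤ Lb * ‖x‖)
    (hLb : 0 ≤ Lb) (hneg : b (T (σ z) v) ≤ 0) :
    ∀ j ≤ m, b (f (z * t ^ j)) ≤ b (f z) + 2 * (Lb * err) := by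
  intro j hj
  have he : 0 ≤ err := (norm_nonneg _).trans (hz 0 (Nat.zero_le _)).1
  have hLe : 0 ≤ Lb * err := mul_nonneg hLb he
  have h := (hb _).trans (mul_le_mul_of_nonneg_left (hz j hj).1 hLb)
  rw [map_sub, map_sub, map_smul, smul_eq_mul] at h
  have h6 : (j : ℝ) * b (T (σ z) v) ≤ 0 := mul_nonpos_of_nonneg_of_nonpos (Nat.cast_nonneg j) hneg
  linarith [(abs_le.1 h).2]

/-- **NOFOLD: labels.** If for every direction and every pair of labels that are not compatible the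
set of folded points is small then `σ (τ z) = σ z` for most `z`. -/
theorem nofold_labels [MeasurableSpace S] (μ : Measure S) [Fintype Λ] [Fintype Ph]
    {Dr : Finset Dir} {σ : S → Λ} {τ : S → S} (P : Dir → Λ → Set Ph)
    (hcard : ∀ v ∈ Dr, ∀ s s', (P v s).ncard = (P v s').ncard)
    (hinj : ∀ s s', (∀ v ∈ Dr, P v s = P v s') → s = s') (Str : Dir → Set S) {D1 D2 : Set S}
    {e : ENNReal}
    (hpair : ∀ v ∈ Dr, ∀ b s1 s2, b ∈ P v s1 → b ∉ P v s2 →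
      μ {z | (z ∈ D2 ∧ σ z = s2 ∧ z ∈ Str v) ∧ (τ z ∈ D1 ∧ σ (τ z) = s1 ∧ τ z ∈ Str v)} ≤ e) :
    μ {z | (z ∈ D2 ∧ ∀ v ∈ Dr, z ∈ Str v) ∧ (τ z ∈ D1 ∧ ∀ v ∈ Dr, τ z ∈ Str v) ∧ σ (τ z) ≠ σ z} ≤
      (Dr.card * (Fintype.card Ph * (Fintype.card Λ * Fintype.card Λ)) : ℕ) * e := by
  classical
  set I : Finset (Dir × Ph × Λ × Λ) := (Dr ×ˢ (Finset.univ : Finset (Ph × Λ × Λ))).filter
    fun q => q.2.1 ∈ P q.1 q.2.2.1 ∧ q.2.1 ∉ P q.1 q.2.2.2 with hI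
  have hsub : {z | (z ∈ D2 ∧ ∀ v ∈ Dr, z ∈ Str v) ∧ (τ z ∈ D1 ∧ ∀ v ∈ Dr, τ z ∈ Str v) ∧
      σ (τ z) ≠ σ z} ⊆ ⋃ q ∈ I, {z | (z ∈ D2 ∧ σ z = q.2.2.2 ∧ z ∈ Str q.1) ∧
        (τ z ∈ D1 ∧ σ (τ z) = q.2.2.1 ∧ τ z ∈ Str q.1)} := by
    rintro z ⟨⟨hz1, hz2⟩, ⟨hz3, hz4⟩, hz5⟩
    have h1 : ∃ v ∈ Dr, P v (σ (τ z)) ≠ P v (σ z) := by
      by_contra hcon
      push Not at hcon
      exact hz5 (hinj _ _ hcon)
    obtain ⟨v, hv, hne⟩ := h1
    have h2 : ∃ b, b ∈ P v (σ (τ z)) ∧ b ∉ P v (σ z) := by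
      by_contra hcon
      push Not at hcon
      have h3 : P v (σ (τ z)) ⊆ P v (σ z) := fun b hb => hcon b hb
      exact hne (Set.eq_of_subset_of_ncard_le h3 (hcard v hv _ _).le)
    obtain ⟨b, hb1, hb2⟩ := h2
    rw [mem_iUnion₂]
    refine ⟨(v, b, σ (τ z), σ z), ?_, ⟨hz1, rfl, hz2 v hv⟩, ⟨hz3, rfl, hz4 v hv⟩⟩
    rw [hI, Finset.mem_filter, Finset.mem_product]
    exact ⟨⟨hv, Finset.mem_univ _⟩, hb1, hb2⟩
  have hIc : I.card ≤ Dr.card * (Fintype.card Ph * (Fintype.card Λ * Fintype.card Λ)) := by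
    refine (Finset.card_filter_le _ _).trans (le_of_eq ?_)
    rw [Finset.card_product, Finset.card_univ, Fintype.card_prod, Fintype.card_prod]
  calc _ ≤ μ (⋃ q ∈ I, {z | (z ∈ D2 ∧ σ z = q.2.2.2 ∧ z ∈ Str q.1) ∧
        (τ z ∈ D1 ∧ σ (τ z) = q.2.2.1 ∧ τ z ∈ Str q.1)}) := measure_mono hsub
    _ ≤ ∑ q ∈ I, μ {z | (z ∈ D2 ∧ σ z = q.2.2.2 ∧ z ∈ Str q.1) ∧
        (τ z ∈ D1 ∧ σ (τ z) = q.2.2.1 ∧ τ z ∈ Str q.1)} := measure_biUnion_finset_le _ _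
    _ ≤ ∑ q ∈ I, e := by
        refine Finset.sum_le_sum fun q hq => ?_
        rw [hI, Finset.mem_filter, Finset.mem_product] at hq
        exact hpair q.1 hq.1.1 q.2.1 q.2.2.1 q.2.2.2 hq.2.1 hq.2.2
    _ = I.card * e := by rw [Finset.sum_const, nsmul_eq_mul]
    _ ≤ _ := by gcongr

/-- the offset is preserved at a merging pair of straight points -/
theorem offset_close {f : S → V} {σ : S → Λ} {T : Λ → W →ₗ[ℝ] V} {t : S} {v : W} {m : ℕ} {err d : ℝ}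
    {l : S → ℝ} {L : ℝ} (hL : 0 ≤ L) (hlip : ∀ z g, ‖f (z * g) - f z‖ ≤ L * l g)
    {z w : S} (hz : StrAt f σ T t v m err z) (hw : StrAt f σ T t v m err w) (hσ : σ w = σ z)
    (hm : l ((z * t ^ m)⁻¹ * (w * t ^ m)) ≤ d) : ‖f w - f z‖ ≤ L * d + 2 * err := by
  have h1 := (hz m le_rfl).1
  have h2 := (hw m le_rfl).1
  rw [hσ] at h2
  have h3 := (hlip (z * t ^ m) ((z * t ^ m)⁻¹ * (w * t ^ m))).trans (mul_le_mul_of_nonneg_left hm hL)
  rw [mul_inv_cancel_left] at h3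
  have e : f w - f z = (f (w * t ^ m) - f (z * t ^ m)) - (f (w * t ^ m) - f w -
      (m : ℝ) • T (σ z) v) + (f (z * t ^ m) - f z - (m : ℝ) • T (σ z) v) := by abel
  rw [e]
  calc _ ≤ ‖(f (w * t ^ m) - f (z * t ^ m)) - (f (w * t ^ m) - f w - (m : ℝ) • T (σ z) v)‖ +
        ‖f (z * t ^ m) - f z - (m : ℝ) • T (σ z) v‖ := norm_add_le _ _
    _ ≤ (‖f (w * t ^ m) - f (z * t ^ m)‖ + ‖f (w * t ^ m) - f w - (m : ℝ) • T (σ z) v‖) +
        ‖f (z * t ^ m) - f z - (m : ℝ) • T (σ z) v‖ := by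
        gcongr
        exact norm_sub_le _ _
    _ ≤ _ := by linarith

end Vale.Agent.P188.H616
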