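import Vale.Agent.P188.H616.M2
import Vale.Agent.P188.H616.Flat4
import Vale.Agent.P188.H616.NoFold3
import Mathlib.Analysis.SpecialFunctions.Exp
import Mathlib.Analysis.Asymptotics.SpecificAsymptotics

/-!
# P188, FLAT in the model, part 3: positions, small elements, conjugations
-/

set_option linter.all false

open MeasureTheory Set Filter
open Vale.Agent.P188.H530 (hgt)
open Vale.Agent.P188.H616 (Coord Sec Phi slide)

namespace Vale.Agent.P188.Z1.RModel.F6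

/-! ### polynomials against exponentials -/

theorem ev_pow_le_exp (n : ℕ) {a : ℝ} (ha : 0 < a) (C : ℝ) :
    ∀ᶠ s : ℝ in atTop, C * s ^ n ≤ Real.exp (a * s) := by
  have h := (isLittleO_pow_exp_pos_mul_atTop n ha).bound (c := 1 / (|C| + 1)) (by positivity)
  filter_upwards [h, eventually_ge_atTop (0 : ℝ)] with s hs hs0
  rw [Real.norm_eq_abs, Real.norm_eq_abs, abs_of_nonneg (pow_nonneg hs0 n), Real.abs_exp] at hs
  have h1 : C * s ^ n ≤ (|C| + 1) * s ^ n := by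
    have : C ≤ |C| + 1 := by linarith [le_abs_self C]
    exact mul_le_mul_of_nonneg_right this (pow_nonneg hs0 n)
  refine h1.trans ?_
  have h2 : (0 : ℝ) < |C| + 1 := by positivity
  rw [one_div, inv_mul_eq_div, le_div_iff₀ h2] at hs
  linarith

theorem ev_polyA (C A : ℝ) (n : ℕ) {a : ℝ} (ha : 0 < a) :
    ∀ᶠ s : ℝ in atTop, C * (1 + A * s) ^ n ≤ Real.exp (a * s) := by
  filter_upwards [ev_pow_le_exp n ha (|C| * (1 + |A|) ^ n), eventually_ge_atTop (1 : ℝ)] with s hs hs1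
  refine le_trans ?_ hs
  have h1 : |1 + A * s| ≤ (1 + |A|) * s := by
    calc |1 + A * s| ≤ |1| + |A * s| := abs_add_le _ _
      _ = 1 + |A| * s := by rw [abs_one, abs_mul, abs_of_nonneg (by linarith : (0 : ℝ) ≤ s)]
      _ ≤ (1 + |A|) * s := by nlinarith [abs_nonneg A]
  calc C * (1 + A * s) ^ n ≤ |C * (1 + A * s) ^ n| := le_abs_self _
    _ = |C| * |1 + A * s| ^ n := by rw [abs_mul, abs_pow]
    _ ≤ |C| * ((1 + |A|) * s) ^ n := by gcongr
    _ = _ := by rw [mul_pow]; ring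

/-- polynomial factors times a small power are small -/
theorem ev_polyB (C A : ℝ) (n : ℕ) {a δ : ℝ} (ha : 0 < a) (hδ : 0 < δ) :
    ∀ᶠ s : ℝ in atTop, C * (1 + A * s) ^ n ≤ δ * Real.exp (a * s) := by
  filter_upwards [ev_polyA (C / δ) A n ha] with s hs
  rw [div_mul_eq_mul_div, div_le_iff₀ hδ] at hs
  linarith

/-- constants against exponentials -/
theorem ev_constB (C : ℝ) {a δ : ℝ} (ha : 0 < a) (hδ : 0 < δ) :
    ∀ᶠ s : ℝ in atTop, C ≤ δ * Real.exp (a * s) := by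
  filter_upwards [ev_polyB C 0 0 ha hδ] with s hs
  simpa using hs

/-- constants against linear functions -/
theorem ev_linB (C : ℝ) {a : ℝ} (ha : 0 < a) : ∀ᶠ s : ℝ in atTop, C ≤ a * s := by
  filter_upwards [eventually_ge_atTop (C / a)] with s hs
  rw [div_le_iff₀ ha] at hs
  linarith

variable {S : Type} [Group S] [MeasurableSpace S] {Γ : Type} [Group Γ]
  {V : Type} [AddCommGroup V] [Module ℝ V] {k : ℕ} (M : RModel S Γ V k)

/-! ### the section -/

theorem η_sec (z : S) : M.η (M.sec z) = M.η z := by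
  unfold sec
  rw [M.η_τ]; rfl

theorem θ_eq_ht (z : S) : M.θ z = ht (Multiplicative.toAdd (M.η z)) := rfl

theorem θ_sec (z : S) : M.θ (M.sec z) = M.θ z := by
  unfold sec
  rw [M.θ_τ]; rfl

theorem isSec : Sec M.η.ker M.sec where
  mem z := by
    rw [MonoidHom.mem_ker, map_mul, map_inv, η_sec, mul_inv_cancel]
  inv e he z := by
    unfold sec
    rw [map_mul, (MonoidHom.mem_ker).1 he, one_mul]

theorem sec_congr {x y : S} (h : M.η x = M.η y) : M.sec x = M.sec y := by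
  unfold sec; rw [h]

theorem θ_CB {n : ℕ} {c : S} (h : c ∈ M.CB n) : ‖M.θ c‖ ≤ n := by
  obtain ⟨L, hL, rfl, ha⟩ := h
  have key : ∀ L : List S, (∀ a ∈ L, (∃ v ∈ (M.Vw 0 : Set V), M.nm v ≤ 1 ∧ M.ex v = a) ∨
      (∃ w : Fin k → ℤ, (∀ i, |w i| ≤ 1) ∧ (M.τ w = a ∨ (M.τ w)⁻¹ = a))) →
      ‖M.θ L.prod‖ ≤ L.length := by
    intro L
    induction L with
    | nil => intro _; simp [M.θ_one]
    | cons a L ih =>
      intro ha
      rw [List.prod_cons, M.θ_mul, List.length_cons, Nat.cast_add, Nat.cast_one]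
      have h1 := ih fun b hb => ha b (by simp [hb])
      have h2 : ‖M.θ a‖ ≤ 1 := by
        have hw : ∀ w : Fin k → ℤ, (∀ i, |w i| ≤ 1) → ‖(ht w : Ht k)‖ ≤ 1 := by
          intro w hw
          rw [pi_norm_le_iff_of_nonneg zero_le_one]
          intro i
          rw [ht, Real.norm_eq_abs]
          exact_mod_cast hw i
        rcases ha a (by simp) with ⟨v, _, _, rfl⟩ | ⟨w, hw1, hw2⟩
        · rw [θ_eq_zero M (M.η_ex v), norm_zero]; exact zero_le_one
        · rcases hw2 with rfl | rfl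
          · rw [θ_τht]; exact hw w hw1
          · rw [M.θ_inv, θ_τht, norm_neg]; exact hw w hw1
      calc _ ≤ ‖M.θ a‖ + ‖M.θ L.prod‖ := norm_add_le _ _
        _ ≤ _ := by linarith
  exact (key L ha).trans (by exact_mod_cast hL)

theorem sec_mem_CB (z : S) {n : ℕ} (h : M.C0 * (1 + ‖M.θ z‖) ≤ n) : M.sec z ∈ M.CB n := by
  have h1 := M.τ_CB (Multiplicative.toAdd (M.η z))
  refine M.CB_mono ?_ h1
  exact Nat.ceil_le.2 h

/-- the error of the section is a Cartan word -/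
theorem cocycle_mem {z g : S} {n N : ℕ} {A : ℝ} (hg : g ∈ M.CB n) (hz : ‖M.θ z‖ ≤ A)
    (hN : 2 * (M.C0 * (2 + A + n)) + n ≤ N) :
    M.sec z * g * (M.sec (z * g))⁻¹ ∈ M.CB N := by
  have hA : 0 ≤ A := (norm_nonneg _).trans hz
  have hC := M.C0_pos
  have hθ : ‖M.θ (z * g)‖ ≤ A + n := by
    rw [M.θ_mul]
    exact (norm_add_le _ _).trans (add_le_add hz (θ_CB M hg))
  set m := ⌈M.C0 * (1 + A + n)⌉₊ with hm
  have h1 : M.sec z ∈ M.CB m := by
    refine sec_mem_CB M z (le_trans ?_ (Nat.le_ceil _))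
    have : (0 : ℝ) ≤ n := Nat.cast_nonneg n
    exact mul_le_mul_of_nonneg_left (by linarith) hC.le
  have h2 : M.sec (z * g) ∈ M.CB m := by
    refine sec_mem_CB M _ (le_trans ?_ (Nat.le_ceil _))
    exact mul_le_mul_of_nonneg_left (by linarith) hC.le
  refine M.CB_mono ?_ (M.CB_mul (M.CB_mul h1 hg) (M.CB_inv h2))
  have h3 : (m : ℝ) < M.C0 * (1 + A + n) + 1 := Nat.ceil_lt_add_one (by positivity)
  have h4 : ((m + n + m : ℕ) : ℝ) ≤ N := by
    push_cast
    have : (1 : ℝ) ≤ M.C0 := M.one_le_C0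
    nlinarith
  exact_mod_cast h4

theorem η_cocycle (z g : S) : M.η (M.sec z * g * (M.sec (z * g))⁻¹) = 1 := by
  rw [map_mul, map_mul, map_inv, η_sec, η_sec, map_mul, mul_inv_cancel]

/-! ### small elements -/

variable {M} (B : M.NatBox) {h : (Ht k →L[ℝ] ℝ) → ℝ} {c₂ : ℝ}

theorem C_pos : 0 < B.C := lt_of_lt_of_le one_pos B.one_le

theorem Bx_mul {R R₁ R₂ : M.ι → ℝ} (h1 : ∀ i, 0 ≤ R₁ i) (h2 : ∀ i, 0 ≤ R₂ i)
    (h1' : ∀ i, R₁ i ≤ R i) (h2' : ∀ i, R₂ i ≤ R i) {x y : S} (hx : x ∈ B.Bx R₁)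
    (hy : y ∈ B.Bx R₂) : x * y ∈ B.Bx fun i => B.C * R i :=
  B.mul R (fun i => (h1 i).trans (h1' i)) x (B.mono _ _ h1 h1' hx) y (B.mono _ _ h2 h2' hy)

/-- product of two elements of `Bx (δ / C)` -/
theorem Bx_mul_half {R : M.ι → ℝ} (hR : ∀ i, 0 ≤ R i) {δ : ℝ} (hδ : 0 ≤ δ) {x y : S}
    (hx : x ∈ B.Bx fun i => δ / B.C * R i) (hy : y ∈ B.Bx fun i => δ / B.C * R i) :
    x * y ∈ B.Bx fun i => δ * R i := by
  have hC := C_pos B
  have h1 := B.mul (fun i => δ / B.C * R i)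
    (fun i => mul_nonneg (div_nonneg hδ hC.le) (hR i)) _ hx _ hy
  have e : (fun i => B.C * (δ / B.C * R i)) = fun i => δ * R i := by
    funext i
    field_simp
  rwa [e] at h1

theorem Bx_mono {R R' : M.ι → ℝ} (h0 : ∀ i, 0 ≤ R i) (h1 : ∀ i, R i ≤ R' i) {x : S}
    (hx : x ∈ B.Bx R) : x ∈ B.Bx R' := B.mono R R' h0 h1 hx

/-- a neutral Cartan word is small -/
theorem ker_mem {n : ℕ} {c : S} (hc : c ∈ M.CB n) (hη : M.η c = 1) :
    c ∈ B.Bx (M.two (B.C * (1 + M.C0) * (1 + (n : ℝ)) ^ M.deg) 1) := by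
  obtain ⟨v, hv, rfl, hvn⟩ := M.C_ker n c hc hη
  have hC := C_pos B
  have hC0 := M.C0_pos
  refine B.mono _ _ ?_ ?_ (B.ball_0 v hv)
  · intro i
    unfold two
    split_ifs
    · have := apply_nonneg M.nm v
      positivity
    · exact zero_le_one
  · intro i
    unfold two
    split_ifs with hi
    · have h4 : (1 : ℝ) ≤ (1 + (n : ℝ)) ^ M.deg := by
        have : (0 : ℝ) ≤ n := Nat.cast_nonneg n
        exact one_le_pow₀ (by linarith)
      calc B.C * (1 + M.nm v) ≤ B.C * ((1 + (n : ℝ)) ^ M.deg + M.C0 * (1 + (n : ℝ)) ^ M.deg) := by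
            gcongr
        _ = _ := by ring
    · exact le_rfl

/-- neutral Cartan words of linear length are in small boxes -/
theorem ev_ker {d₁ δ : ℝ} (hc : 0 < c₂) (hd : 0 < d₁) (A : ℝ) (hδ : 0 < δ) :
    ∀ᶠ s : ℝ in atTop, ∀ h : (Ht k →L[ℝ] ℝ) → ℝ, M.HB c₂ h → ∀ n : ℕ, (n : ℝ) ≤ A * s →
      ∀ c ∈ M.CB n, M.η c = 1 → c ∈ B.Bx fun i => δ * M.szh h d₁ s i := by
  filter_upwards [ev_polyB (B.C * (1 + M.C0)) A M.deg hd hδ, ev_constB 1 hc hδ,
    eventually_ge_atTop (0 : ℝ)] with s h1 h2 hs h hh n hn c hc hη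
  have hC := C_pos B
  have hC0 := M.C0_pos
  refine B.mono _ _ ?_ ?_ (ker_mem B hc hη)
  · intro i
    unfold two
    split_ifs
    · positivity
    · exact zero_le_one
  · intro i
    unfold two
    split_ifs with hi
    · rw [szh_zero hi]
      refine le_trans ?_ h1
      have h3 : (1 + (n : ℝ)) ^ M.deg ≤ (1 + A * s) ^ M.deg := by
        have : (0 : ℝ) ≤ n := Nat.cast_nonneg n
        gcongr
      gcongr
    · rw [szh_ne hi]
      refine h2.trans ?_
      refine mul_le_mul_of_nonneg_left (Real.exp_le_exp.2 ?_) hδ.le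
      rw [mul_comm]
      refine mul_le_mul_of_nonneg_left ?_ hs
      rcases wt_cases M i with h | h
      · exact absurd h hi
      · exact (hh _ h.1).1

variable (M) in
/-- the `N_R`-part -/
def np (z : S) : S := z * (M.sec z)⁻¹

variable (M) in
theorem np_Phi (U g z : S) (hU : M.η U = 1) : np M (Phi M.sec U g z) =
    np M z * U * (M.sec z * g * (M.sec (z * g))⁻¹) := by
  have h1 : M.η (Phi M.sec U g z) = M.η (z * g) := by
    unfold Phi
    rw [map_mul, map_mul, map_mul, map_mul, map_inv, η_sec, hU, map_mul]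
    group
  unfold np
  rw [sec_congr M h1]
  unfold Phi
  group

variable (M) in
theorem θ_Phi (U g z : S) (hU : M.η U = 1) : M.θ (Phi M.sec U g z) = M.θ z + M.θ g := by
  unfold Phi
  rw [M.θ_mul, M.θ_mul, M.θ_mul, M.θ_mul, M.θ_inv, θ_sec, θ_eq_zero M hU]
  abel

variable (M) in
theorem np_mul (z g : S) : np M (z * g) = np M z * (M.sec z * g * (M.sec (z * g))⁻¹) := by
  unfold np; group

/-- the cocycle of a Cartan word of linear length is small -/
theorem ev_cocycle {d₁ δ : ℝ} (hc : 0 < c₂) (hd : 0 < d₁) (A : ℝ) (hδ : 0 < δ) :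
    ∀ᶠ s : ℝ in atTop, ∀ h : (Ht k →L[ℝ] ℝ) → ℝ, M.HB c₂ h → ∀ z : S, ‖M.θ z‖ ≤ A * s →
      ∀ n : ℕ, (n : ℝ) ≤ A * s → ∀ g ∈ M.CB n,
        M.sec z * g * (M.sec (z * g))⁻¹ ∈ B.Bx fun i => δ * M.szh h d₁ s i := by
  have hC0 := M.C0_pos
  have hC1 := M.one_le_C0
  filter_upwards [ev_ker B (d₁ := d₁) hc hd (6 * M.C0 * (A + 1)) hδ, eventually_ge_atTop (2 : ℝ)]
    with s h1 hs h hh z hθ n hn g hg
  have hn0 : (0 : ℝ) ≤ n := Nat.cast_nonneg n
  have hA : 0 ≤ A * s := hn0.trans hn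
  have hA0 : 0 ≤ A := by nlinarith
  have h2 : M.sec z * g * (M.sec (z * g))⁻¹ ∈ M.CB ⌊6 * M.C0 * (A + 1) * s⌋₊ := by
    refine cocycle_mem M hg hθ ?_
    have h3 := Nat.lt_floor_add_one (6 * M.C0 * (A + 1) * s)
    have h4 : 2 * (M.C0 * (2 + A * s + n)) + n ≤ 6 * M.C0 * (A + 1) * s - 1 := by
      have e1 : M.C0 * (2 + A * s + n) ≤ M.C0 * (2 + 2 * (A * s)) :=
        mul_le_mul_of_nonneg_left (by linarith) hC0.le
      have e2 : A * s ≤ M.C0 * (A * s) := le_mul_of_one_le_left hA hC1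
      have e3 : 2 * M.C0 ≤ M.C0 * s := by nlinarith
      nlinarith
    linarith
  exact h1 h hh _ (Nat.floor_le (by positivity)) _ h2 (η_cocycle M z g)

/-- **positions** -/
theorem ev_pos {d₁ Λ : ℝ} (hc : 0 < c₂) (hd : 0 < d₁) (A : ℝ) (hΛ : 1 ≤ Λ) :
    ∀ᶠ s : ℝ in atTop, ∀ h : (Ht k →L[ℝ] ℝ) → ℝ, M.HB c₂ h →
      ∀ z : S, np M z ∈ B.Bx (fun i => Λ * M.szh h d₁ s i) → ‖M.θ z‖ ≤ A * s →
      ∀ U ∈ B.Bx (fun i => Λ * M.szh h d₁ s i), ∀ n : ℕ, (n : ℝ) ≤ A * s → ∀ g ∈ M.CB n,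
        np M (Phi M.sec U g z) ∈ B.Bx (fun i => B.C * (B.C * Λ) * M.szh h d₁ s i) := by
  filter_upwards [ev_cocycle B (d₁ := d₁) hc hd A one_pos] with s h1 h hh z hz hθ U hU n hn g hg
  rw [np_Phi M U g z (B.sub _ _ hU)]
  have h5 := h1 h hh z hθ n hn g hg
  have hpos : ∀ i, 0 < M.szh h d₁ s i := szh_pos
  have hC := B.one_le
  have h6 : np M z * U ∈ B.Bx fun i => B.C * (Λ * M.szh h d₁ s i) :=
    B.mul _ (fun i => mul_nonneg (by linarith) (hpos i).le) _ hz _ hU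
  have h7 := Bx_mul B (R := fun i => B.C * (Λ * M.szh h d₁ s i))
    (fun i => by have := hpos i; positivity) (fun i => by have := hpos i; positivity)
    (fun i => le_rfl) (fun i => by
      have := (hpos i).le
      have e : (1 : ℝ) ≤ B.C * Λ := one_le_mul_of_one_le_of_one_le hC hΛ
      nlinarith) h6 h5
  have e : (fun i => B.C * (B.C * Λ) * M.szh h d₁ s i) =
      fun i => B.C * (B.C * (Λ * M.szh h d₁ s i)) := by
    funext i; ring
  rw [e]
  exact h7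

/-! ### conjugations -/

theorem ev_conj {d₁ δ ν : ℝ} (A : ℝ) (hδ : 0 < δ) (hν : 0 < ν) :
    ∀ᶠ s : ℝ in atTop, ∀ h : (Ht k →L[ℝ] ℝ) → ℝ, ∀ n : ℕ, (n : ℝ) ≤ A * s → ∀ c ∈ M.CB n,
      ∀ R, M.Adm R →
      (∀ i, Real.exp (M.wt i (M.θ c)) * R i ≤ Real.exp ((sxh M h d₁ i - ν) * s)) →
      ∀ u ∈ B.Bx R, c * u * c⁻¹ ∈ B.Bx fun i => δ * M.szh h d₁ s i := by
  filter_upwards [ev_polyB B.C A B.dg hν hδ] with s h1 h n hn c hc R hR hle u hu
  have hC := C_pos B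
  refine B.mono _ _ ?_ ?_ (B.conj n c hc R hR u hu)
  · intro i
    have := hR.pos i
    positivity
  · intro i
    rw [szh_eq]
    have h2 : B.C * (1 + (n : ℝ)) ^ B.dg ≤ δ * Real.exp (ν * s) := by
      refine le_trans ?_ h1
      have : (0 : ℝ) ≤ n := Nat.cast_nonneg n
      gcongr
    calc B.C * (1 + (n : ℝ)) ^ B.dg * Real.exp (M.wt i (M.θ c)) * R i
        = (B.C * (1 + (n : ℝ)) ^ B.dg) * (Real.exp (M.wt i (M.θ c)) * R i) := by ring
      _ ≤ (δ * Real.exp (ν * s)) * Real.exp ((sxh M h d₁ i - ν) * s) := by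
          refine mul_le_mul h2 (hle i) ?_ (by positivity)
          have := hR.pos i
          positivity
      _ = δ * Real.exp (s * sxh M h d₁ i) := by
          rw [mul_assoc, ← Real.exp_add]
          congr 2
          ring

end Vale.Agent.P188.Z1.RModel.F6
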