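import Vale.Agent.P188.H616.M3

/-!
# P188, FLAT in the model, part 4: short elements
-/

set_option linter.all false

open MeasureTheory Set Filter
open Vale.Agent.P188.H530 (hgt)
open Vale.Agent.P188.H616 (Coord Sec Phi slide)

namespace Vale.Agent.P188.Z1.RModel.F6

variable {S : Type} [Group S] [MeasurableSpace S] {Γ : Type} [Group Γ]
  {V : Type} [AddCommGroup V] [Module ℝ V] {k : ℕ} (M : RModel S Γ V k)

/-- decomposition of an arbitrary element -/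
theorem exists_dec : ∃ C : ℝ, 1 ≤ C ∧ ∀ (g : S) (r : ℝ), (M.l g : ℝ) ≤ r → ∃ v ∈ M.e,
    M.nm v ≤ Real.exp (C * (1 + r)) ∧ ∃ n : ℕ, (n : ℝ) ≤ C * (1 + r) ∧ ∃ c ∈ M.CB n,
      g = M.ex v * c := by
  obtain ⟨C₁, hC₁, hl⟩ := M.l_CB
  have hC0 := M.C0_pos
  have hC01 := M.one_le_C0
  refine ⟨M.C0 * (1 + 1 + C₁ * (M.C0 + 1)) + M.C0 + 1, by nlinarith [mul_pos hC0 (by linarith : 0 < C₁)], ?_⟩
  intro g r hr
  have hr0 : 0 ≤ r := (Nat.cast_nonneg _).trans hr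
  obtain ⟨v, hv, c, hc, rfl⟩ := M.dec g
  have hn : ((⌈M.C0 * (M.l (M.ex v * c) : ℝ)⌉₊ : ℕ) : ℝ) ≤ M.C0 * r + 1 := by
    refine (Nat.ceil_lt_add_one (by positivity)).le.trans ?_
    have := mul_le_mul_of_nonneg_left hr hC0.le
    linarith
  refine ⟨v, hv, ?_, _, ?_, c, hc, rfl⟩
  · refine (M.met_lo v).trans (Real.exp_le_exp.2 ?_)
    have h1 : (M.l (M.ex v) : ℝ) ≤ M.l (M.ex v * c) + M.l c := by
      have e : M.ex v = (M.ex v * c) * c⁻¹ := by group
      have h2 := M.len.mul (M.ex v * c) c⁻¹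
      rw [← e, M.len.inv] at h2
      exact_mod_cast h2
    have h2 := hl _ c hc
    have h3 : (M.l c : ℝ) ≤ C₁ * (M.C0 * r + 1) := h2.trans (mul_le_mul_of_nonneg_left hn (by linarith))
    have h4 : C₁ * (M.C0 * r + 1) ≤ C₁ * (M.C0 + 1) * (1 + r) := by
      have : 0 ≤ C₁ * M.C0 := by positivity
      nlinarith
    have h5 : 1 + (M.l (M.ex v) : ℝ) ≤ (1 + 1 + C₁ * (M.C0 + 1)) * (1 + r) := by nlinarith
    calc M.C0 * (1 + (M.l (M.ex v) : ℝ)) ≤ M.C0 * ((1 + 1 + C₁ * (M.C0 + 1)) * (1 + r)) :=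
          mul_le_mul_of_nonneg_left h5 hC0.le
      _ ≤ _ := by nlinarith
  · refine hn.trans ?_
    have : 0 ≤ M.C0 * (1 + 1 + C₁ * (M.C0 + 1)) := by positivity
    nlinarith

/-- the windows: `b (w) ≤ (1 - κ) s h b` for all classes -/
def WinH (h : (Ht k →L[ℝ] ℝ) → ℝ) (κ s : ℝ) (w : Ht k) : Prop :=
  ∀ b ∈ M.Φ, b w ≤ (1 - κ) * s * h b

variable {M} in
theorem WinH.mono {h : (Ht k →L[ℝ] ℝ) → ℝ} {c κ κ' s : ℝ} (hc : 0 ≤ c) (hh : M.HB c h) (hs : 0 ≤ s)
    (hk : κ' ≤ κ) {w : Ht k} (hw : WinH M h κ s w) : WinH M h κ' s w := by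
  intro b hb
  refine (hw b hb).trans ?_
  have := (hh b hb).1
  have h1 : (1 - κ) * s ≤ (1 - κ') * s := mul_le_mul_of_nonneg_right (by linarith) hs
  exact mul_le_mul_of_nonneg_right h1 (by linarith)

/-- right translation by a short element moves the `N_R`-part by a small element -/
theorem exists_cocycle (B : M.NatBox) : ∃ C : ℝ, 1 ≤ C ∧ ∀ (c₂ d₁ κ κ₁ A δ : ℝ), 0 < c₂ → 0 < d₁ →
    0 < κ → 0 ≤ κ₁ → C * κ₁ < κ * c₂ → 0 < δ → ∀ᶠ s : ℝ in atTop,
      ∀ h : (Ht k →L[ℝ] ℝ) → ℝ, M.HB c₂ h → ∀ z : S, WinH M h κ s (M.θ z) →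
      ‖M.θ z‖ ≤ A * s → ∀ g : S, (M.l g : ℝ) ≤ κ₁ * s →
        M.sec z * g * (M.sec (z * g))⁻¹ ∈ B.Bx fun i => δ * M.szh h d₁ s i := by
  obtain ⟨C₁, hC₁, hdec⟩ := exists_dec M
  have hC0 := M.C0_pos
  have hC01 := M.one_le_C0
  have hBC := C_pos B
  refine ⟨C₁, hC₁, ?_⟩
  intro c₂ d₁ κ κ₁ A δ hc₂ hd hκ hκ₁ hCκ hδ
  -- the exponent left
  set ν₀ : ℝ := κ * c₂ - C₁ * κ₁ with hν₀
  have hν₀pos : 0 < ν₀ := by
    rw [hν₀]
    linarith
  set ν : ℝ := min (ν₀ / 2) (d₁ / 2) with hν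
  have hνpos : 0 < ν := lt_min (by linarith) (by linarith)
  have hδ' : 0 < δ / B.C := by positivity
  -- the constants of the small exponential
  have hev2 : ∀ᶠ s : ℝ in atTop, B.C * (1 + Real.exp (C₁ * (1 + κ₁ * s))) ≤
      Real.exp (C₁ * κ₁ * s) * Real.exp (ν₀ / 2 * s) := by
    filter_upwards [ev_constB (B.C * (1 + Real.exp C₁)) (half_pos hν₀pos) one_pos,
      eventually_ge_atTop (0 : ℝ)] with s h1 hs
    simp only [one_mul] at h1
    have h2 : (1 : ℝ) ≤ Real.exp (C₁ * κ₁ * s) := Real.one_le_exp (by positivity)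
    have h3 : Real.exp (C₁ * (1 + κ₁ * s)) = Real.exp C₁ * Real.exp (C₁ * κ₁ * s) := by
      rw [← Real.exp_add]; congr 1; ring
    rw [h3]
    calc B.C * (1 + Real.exp C₁ * Real.exp (C₁ * κ₁ * s))
        ≤ B.C * (Real.exp (C₁ * κ₁ * s) + Real.exp C₁ * Real.exp (C₁ * κ₁ * s)) := by gcongr
      _ = Real.exp (C₁ * κ₁ * s) * (B.C * (1 + Real.exp C₁)) := by ring
      _ ≤ _ := mul_le_mul_of_nonneg_left h1 (Real.exp_pos _).le
  set A' : ℝ := M.C0 * (|A| + 2) with hA'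
  set A'' : ℝ := |A| + C₁ * (1 + κ₁) with hA''
  filter_upwards [ev_conj B (d₁ := d₁) A' hδ' hνpos, ev_cocycle B hc₂ hd A'' hδ', hev2,
    eventually_ge_atTop (2 : ℝ)] with s h1 h2 h3 hs h hh z hw hz g hg
  obtain ⟨v, hv, hvn, n, hn, c, hc, rfl⟩ := hdec g (κ₁ * s) hg
  have hηg : M.η (z * (M.ex v * c)) = M.η (z * c) := by
    rw [map_mul, map_mul, M.η_ex, one_mul, map_mul]
  have hsplit : M.sec z * (M.ex v * c) * (M.sec (z * (M.ex v * c)))⁻¹ =
      (M.sec z * M.ex v * (M.sec z)⁻¹) * (M.sec z * c * (M.sec (z * c))⁻¹) := by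
    rw [sec_congr M hηg]; group
  rw [hsplit]
  have hzA : ‖M.θ z‖ ≤ |A| * s := hz.trans (mul_le_mul_of_nonneg_right (le_abs_self A) (by linarith))
  have hAs : 0 ≤ |A| * s := by positivity
  have hn0 : (0 : ℝ) ≤ n := Nat.cast_nonneg n
  have hC₁0 : 0 ≤ C₁ * (1 + κ₁) := by positivity
  -- first factor
  have hf1 : M.sec z * M.ex v * (M.sec z)⁻¹ ∈ B.Bx fun i => δ / B.C * M.szh h d₁ s i := by
    refine h1 h ⌈M.C0 * (1 + |A| * s)⌉₊ ?_ _ (sec_mem_CB M z (le_trans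
      (mul_le_mul_of_nonneg_left (by linarith) hC0.le) (Nat.le_ceil _)))
      (M.two 1 (B.C * (1 + M.nm v))) (adm_two' le_rfl ?_) ?_ _ (B.ball_e v hv)
    · refine (Nat.ceil_lt_add_one (by positivity)).le.trans ?_
      rw [hA']
      nlinarith [mul_nonneg hC0.le hAs]
    · have h4 := apply_nonneg M.nm v
      have := B.one_le
      nlinarith
    · intro i
      rw [θ_sec]
      unfold two sxh
      split_ifs with hi
      · rw [hi]
        simp only [ContinuousLinearMap.zero_apply, Real.exp_zero, mul_one]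
        refine Real.one_le_exp (mul_nonneg ?_ (by linarith))
        have := min_le_right (ν₀ / 2) (d₁ / 2)
        rw [hν]; linarith
      · rcases wt_cases M i with h0 | ⟨hΦ, _⟩
        · exact absurd h0 hi
        have h5 := hw _ hΦ
        have h6 := (hh _ hΦ).1
        have h7 : B.C * (1 + M.nm v) ≤ Real.exp (C₁ * κ₁ * s) * Real.exp (ν₀ / 2 * s) := by
          refine le_trans ?_ h3
          gcongr
        calc Real.exp (M.wt i (M.θ z)) * (B.C * (1 + M.nm v))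
            ≤ Real.exp ((1 - κ) * s * h (M.wt i)) *
              (Real.exp (C₁ * κ₁ * s) * Real.exp (ν₀ / 2 * s)) := by
              gcongr
          _ = Real.exp ((1 - κ) * s * h (M.wt i) + (C₁ * κ₁ * s + ν₀ / 2 * s)) := by
              rw [Real.exp_add, Real.exp_add]
          _ ≤ _ := by
              rw [Real.exp_le_exp]
              have h8 := min_le_left (ν₀ / 2) (d₁ / 2)
              have h9 : κ * c₂ ≤ κ * h (M.wt i) := mul_le_mul_of_nonneg_left h6 hκ.le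
              have h10 : C₁ * κ₁ + ν₀ / 2 - κ * h (M.wt i) + ν ≤ 0 := by
                rw [hν]
                linarith
              have h11 : (C₁ * κ₁ + ν₀ / 2 - κ * h (M.wt i) + ν) * s ≤ 0 :=
                mul_nonpos_of_nonpos_of_nonneg h10 (by linarith)
              nlinarith
  -- second factor
  have hf2 : M.sec z * c * (M.sec (z * c))⁻¹ ∈ B.Bx fun i => δ / B.C * M.szh h d₁ s i := by
    refine h2 h hh z (hzA.trans ?_) n (hn.trans ?_) c hc
    · rw [hA'']; nlinarith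
    · rw [hA'']
      have e1 : C₁ * (1 + κ₁ * s) ≤ C₁ * (1 + κ₁) * s := by nlinarith
      nlinarith
  exact Bx_mul_half B (fun i => (szh_pos i).le) hδ.le hf1 hf2

end Vale.Agent.P188.Z1.RModel.F6
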