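import Vale.Agent.P188.H616.M4

/-!
# P188, FLAT in the model, part 5: measures
-/

set_option linter.all false

open MeasureTheory Set Filter
open Vale.Agent.P188.H530 (hgt)
open Vale.Agent.P188.H616 (Coord Sec Phi slide)

namespace Vale.Agent.P188.Z1.RModel.F6

variable {S : Type} [Group S] [MeasurableSpace S] {Γ : Type} [Group Γ]
  {V : Type} [AddCommGroup V] [Module ℝ V] {k : ℕ} (M : RModel S Γ V k)

instance : Countable (Multiplicative (Fin k → ℤ)) :=
  Multiplicative.ofAdd.symm.injective.countable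

/-- all sets: preimages under measure preserving maps -/
theorem mp_le {f : S → S} (hf : MeasurePreserving f M.μ M.μ) (A : Set S) :
    M.μ (f ⁻¹' A) ≤ M.μ A := by
  calc M.μ (f ⁻¹' A) ≤ M.μ (f ⁻¹' (toMeasurable M.μ A)) :=
        measure_mono (preimage_mono (subset_toMeasurable _ _))
    _ = M.μ (toMeasurable M.μ A) := hf.measure_preimage (measurableSet_toMeasurable _ _).nullMeasurableSet
    _ = M.μ A := measure_toMeasurable A

theorem measurable_of_η {β : Type*} [MeasurableSpace β] (φ : Multiplicative (Fin k → ℤ) → β) :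
    Measurable fun z => φ (M.η z) := by
  intro B _
  have h : (fun z => φ (M.η z)) ⁻¹' B = ⋃ w ∈ φ ⁻¹' B, {x | M.η x = w} := by
    ext x
    simp
  rw [h]
  exact MeasurableSet.biUnion (Set.to_countable _) fun w _ => M.η_meas w

/-- piecewise translations are measurable -/
theorem pw_meas (φ : Multiplicative (Fin k → ℤ) → S) : Measurable fun z => z * φ (M.η z) := by
  intro B hB
  have h : (fun z => z * φ (M.η z)) ⁻¹' B =
      ⋃ w : Multiplicative (Fin k → ℤ), {x | M.η x = w} ∩ (fun z => z * φ w) ⁻¹' B := by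
    ext x
    simp
  rw [h]
  exact MeasurableSet.iUnion fun w => (M.η_meas w).inter ((M.mp _).measurable hB)

/-- **piecewise translations by kernel elements preserve the measure** -/
theorem pw_mp (φ : Multiplicative (Fin k → ℤ) → S) (hφ : ∀ w, M.η (φ w) = 1) :
    MeasurePreserving (fun z => z * φ (M.η z)) M.μ M.μ := by
  refine ⟨pw_meas M φ, ?_⟩
  ext A hA
  rw [Measure.map_apply (pw_meas M φ) hA]
  have h1 : (fun z => z * φ (M.η z)) ⁻¹' A =
      ⋃ w : Multiplicative (Fin k → ℤ), (fun z => z * φ w) ⁻¹' ({x | M.η x = w} ∩ A) := by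
    ext x
    simp only [mem_preimage, mem_iUnion, mem_inter_iff, mem_setOf_eq, map_mul, hφ, mul_one]
    simp
  have h2 : A = ⋃ w : Multiplicative (Fin k → ℤ), ({x | M.η x = w} ∩ A) := by
    ext x
    simp
  rw [h1]
  conv_rhs => rw [h2]
  rw [measure_iUnion, measure_iUnion]
  · refine tsum_congr fun w => ?_
    exact (M.mp _).measure_preimage ((M.η_meas w).inter hA).nullMeasurableSet
  · intro w w' hww
    show Disjoint _ _
    rw [Set.disjoint_left]
    rintro z ⟨h3, _⟩ ⟨h4, _⟩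
    exact hww (h3.symm.trans h4)
  · exact fun w => (M.η_meas w).inter hA
  · intro w w' hww
    show Disjoint _ _
    rw [Set.disjoint_left]
    intro z h3 h4
    have h5 := h3.1
    have h6 := h4.1
    simp only [mem_setOf_eq, map_mul, hφ, mul_one] at h5 h6
    exact hww (h5.symm.trans h6)
  · exact fun w => (M.mp _).measurable ((M.η_meas w).inter hA)

/-- the maps `Φ` preserve the measure -/
theorem Phi_mp {U : S} (hU : M.η U = 1) (g : S) :
    MeasurePreserving (Phi M.sec U g) M.μ M.μ := by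
  have h1 := pw_mp M (fun w => (M.τ (Multiplicative.toAdd w))⁻¹ * U * M.τ (Multiplicative.toAdd w))
    (by intro w; rw [map_mul, map_mul, map_inv, hU, mul_one, inv_mul_cancel])
  have h2 := (M.mp g).comp h1
  convert h2 using 1
  funext z
  unfold Phi sec
  simp only [Function.comp_apply]
  group

/-- the slides preserve the measure -/
theorem slide_mp {u : S} (hu : M.η u = 1) (g : S) :
    MeasurePreserving (slide M.sec u g) M.μ M.μ := by
  have h1 := pw_mp M (fun w => (M.τ (Multiplicative.toAdd (w * (M.η g)⁻¹)) * g)⁻¹ * u *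
    (M.τ (Multiplicative.toAdd (w * (M.η g)⁻¹)) * g))
    (by intro w; rw [map_mul, map_mul, map_inv, hu, mul_one, inv_mul_cancel])
  convert h1 using 1
  funext z
  unfold slide sec
  rw [map_mul, map_inv]

/-! ### sets `(box of N_R) x (heights)` -/

/-- `N_R`-part in `A`, heights in `W` -/
def BW (A : Set S) (W : Set (Fin k → ℤ)) : Set S :=
  {z | np M z ∈ A ∧ Multiplicative.toAdd (M.η z) ∈ W}

theorem sec_of_η {z : S} {w : Fin k → ℤ} (h : M.η z = Multiplicative.ofAdd w) :
    M.sec z = M.τ w := by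
  unfold sec
  rw [h]
  rfl

theorem BW_eq {A : Set S} (hA : ∀ x ∈ A, M.η x = 1) (W : Set (Fin k → ℤ)) :
    BW M A W = ⋃ w ∈ W, (fun z => z * (M.τ w)⁻¹) ⁻¹' A := by
  ext z
  simp only [BW, mem_setOf_eq, mem_iUnion, mem_preimage, exists_prop]
  constructor
  · rintro ⟨h1, h2⟩
    exact ⟨_, h2, h1⟩
  · rintro ⟨w, hw, h1⟩
    have h2 := hA _ h1
    rw [map_mul, map_inv, M.η_τ, mul_inv_eq_one] at h2
    unfold np
    rw [sec_of_η M h2, h2]
    exact ⟨h1, hw⟩

theorem BW_meas {A : Set S} (hA : MeasurableSet A) (hA1 : ∀ x ∈ A, M.η x = 1)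
    (W : Set (Fin k → ℤ)) : MeasurableSet (BW M A W) := by
  rw [BW_eq M hA1]
  exact MeasurableSet.biUnion (Set.to_countable W) fun w _ => (M.mp _).measurable hA

/-- **measure of (box) x (heights)** -/
theorem BW_measure {A : Set S} (hA : MeasurableSet A) (hA1 : ∀ x ∈ A, M.η x = 1)
    {W : Set (Fin k → ℤ)} (hW : W.Finite) : M.μ (BW M A W) = W.ncard * M.μ A := by
  rw [BW_eq M hA1]
  have h1 : (⋃ w ∈ W, (fun z => z * (M.τ w)⁻¹) ⁻¹' A) =
      ⋃ w ∈ hW.toFinset, (fun z => z * (M.τ w)⁻¹) ⁻¹' A := by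
    ext z; simp
  rw [h1, measure_biUnion_finset]
  · have h2 : ∀ w ∈ hW.toFinset, M.μ ((fun z => z * (M.τ w)⁻¹) ⁻¹' A) = M.μ A := fun w _ =>
      (M.mp _).measure_preimage hA.nullMeasurableSet
    rw [Finset.sum_congr rfl h2, Finset.sum_const, nsmul_eq_mul, ncard_eq_toFinset_card W hW]
  · intro w _ w' _ hww
    show Disjoint _ _
    rw [Set.disjoint_left]
    intro z h2 h3
    have h4 := hA1 _ h2
    have h5 := hA1 _ h3
    rw [map_mul, map_inv, M.η_τ, mul_inv_eq_one] at h4 h5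
    rw [h4] at h5
    exact hww (Multiplicative.ofAdd.injective h5)
  · intro w _
    exact (M.mp _).measurable hA

/-- balls of heights -/
theorem ball_finite (a : Ht k) (R : ℝ) : {w : Fin k → ℤ | ‖(ht w : Ht k) - a‖ ≤ R}.Finite ∧
    (({w : Fin k → ℤ | ‖(ht w : Ht k) - a‖ ≤ R}.ncard : ℕ) : ℝ) ≤ (2 * |R| + 1) ^ k := by
  classical
  by_cases hR : R < 0
  · have : {w : Fin k → ℤ | ‖(ht w : Ht k) - a‖ ≤ R} = ∅ := by
      rw [eq_empty_iff_forall_notMem]
      intro w hw
      have h1 : ‖(ht w : Ht k) - a‖ ≤ R := hw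
      have := norm_nonneg ((ht w : Ht k) - a)
      linarith
    rw [this]
    refine ⟨finite_empty, ?_⟩
    rw [ncard_empty, Nat.cast_zero]
    positivity
  rw [not_lt] at hR
  rw [abs_of_nonneg hR]
  set F : Finset (Fin k → ℤ) := Fintype.piFinset fun i => Finset.Icc ⌈a i - R⌉ ⌊a i + R⌋ with hF
  have hsub : {w : Fin k → ℤ | ‖(ht w : Ht k) - a‖ ≤ R} ⊆ (F : Set (Fin k → ℤ)) := by
    intro w hw
    have h1 : ‖(ht w : Ht k) - a‖ ≤ R := hw
    rw [Finset.mem_coe, hF, Fintype.mem_piFinset]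
    intro i
    have h2 := (norm_le_pi_norm ((ht w : Ht k) - a) i).trans h1
    have h3 : |(w i : ℝ) - a i| ≤ R := h2
    rw [abs_le] at h3
    rw [Finset.mem_Icc, Int.ceil_le, Int.le_floor]
    constructor <;> linarith [h3.1, h3.2]
  refine ⟨(Finset.finite_toSet F).subset hsub, ?_⟩
  have h1 : {w : Fin k → ℤ | ‖(ht w : Ht k) - a‖ ≤ R}.ncard ≤ F.card := by
    have := Set.ncard_le_ncard hsub (Finset.finite_toSet F)
    rwa [Set.ncard_coe_finset] at this
  refine (Nat.cast_le.2 h1).trans ?_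
  rw [hF, Fintype.card_piFinset]
  push_cast
  have h2 : ∀ i ∈ (Finset.univ : Finset (Fin k)),
      (((Finset.Icc ⌈a i - R⌉ ⌊a i + R⌋).card : ℕ) : ℝ) ≤ 2 * R + 1 := by
    intro i _
    rw [Int.card_Icc]
    have h3 : ((⌊a i + R⌋ + 1 - ⌈a i - R⌉ : ℤ) : ℝ) ≤ 2 * R + 1 := by
      push_cast
      have := Int.floor_le (a i + R)
      have := Int.le_ceil (a i - R)
      linarith
    rcases le_or_gt 0 (⌊a i + R⌋ + 1 - ⌈a i - R⌉) with h4 | h4
    · have h5 : ((Int.toNat (⌊a i + R⌋ + 1 - ⌈a i - R⌉) : ℕ) : ℝ) =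
          ((⌊a i + R⌋ + 1 - ⌈a i - R⌉ : ℤ) : ℝ) := by
        have := Int.toNat_of_nonneg h4
        exact_mod_cast this
      rw [h5]; exact h3
    · rw [Int.toNat_of_nonpos h4.le, Nat.cast_zero]
      linarith
  refine (Finset.prod_le_prod (fun i _ => Nat.cast_nonneg _) h2).trans ?_
  rw [Finset.prod_const, Finset.card_univ, Fintype.card_fin]

end Vale.Agent.P188.Z1.RModel.F6
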