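import Vale.Agent.P188.H616.M5

/-!
# P188, FLAT in the model, part 6: windows, facets, inner points
-/

set_option linter.all false

open MeasureTheory Set Filter
open Vale.Agent.P188.H530 (hgt)
open Vale.Agent.P188.H616 (Coord Sec Phi slide)

namespace Vale.Agent.P188.Z1.RModel.F6

variable {S : Type} [Group S] [MeasurableSpace S] {Γ : Type} [Group Γ]
  {V : Type} [AddCommGroup V] [Module ℝ V] {k : ℕ} (M : RModel S Γ V k)

/-- a bound of the norms of the classes -/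
noncomputable def bΦ : ℝ := 1 + ∑ b ∈ M.Φ, ‖b‖

theorem one_le_bΦ : 1 ≤ bΦ M := by
  unfold bΦ
  have := Finset.sum_nonneg (s := M.Φ) (f := fun b : Ht k →L[ℝ] ℝ => ‖b‖) fun _ _ => norm_nonneg _
  linarith

theorem norm_le_bΦ {b : Ht k →L[ℝ] ℝ} (hb : b ∈ M.Φ) : ‖b‖ ≤ bΦ M := by
  unfold bΦ
  have := Finset.single_le_sum (f := fun b : Ht k →L[ℝ] ℝ => ‖b‖) (fun _ _ => norm_nonneg _) hb
  linarith

theorem abs_le_bΦ {b : Ht k →L[ℝ] ℝ} (hb : b ∈ M.Φ) (w : Ht k) : |b w| ≤ bΦ M * ‖w‖ := by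
  rw [← Real.norm_eq_abs]
  exact (b.le_opNorm w).trans (mul_le_mul_of_nonneg_right (norm_le_bΦ M hb) (norm_nonneg _))

theorem abs_wt_le (i : M.ι) (w : Ht k) : |M.wt i w| ≤ bΦ M * ‖w‖ := by
  rcases wt_cases M i with h | h
  · rw [h]
    simp only [ContinuousLinearMap.zero_apply, abs_zero]
    have := one_le_bΦ M
    positivity
  · exact abs_le_bΦ M h.1 w

/-- the window is bounded -/
theorem exists_bdd : ∃ C : ℝ, 0 < C ∧ ∀ (x : Ht k) (t : ℝ), 0 ≤ t →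
    (∀ b ∈ M.Φ, b x ≤ t) → ‖x‖ ≤ C * t := by
  classical
  set A : ℝ := ∑ b ∈ M.Φ, M.mult b with hA
  have hA0 : 0 ≤ A := Finset.sum_nonneg fun b hb => (M.mult_pos b hb).le
  have hlow : ∀ (x : Ht k) (t : ℝ), 0 ≤ t → (∀ b ∈ M.Φ, b x ≤ t) → ∀ b ∈ M.Φ,
      |b x| ≤ t * (1 + A / M.mult b) := by
    intro x t ht hx b hb
    have h1 : ∑ b ∈ M.Φ, M.mult b * b x = 0 := by
      have := congrArg (fun f : Ht k →L[ℝ] ℝ => f x) M.unimod
      simpa [ContinuousLinearMap.sum_apply] using this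
    have h2 : M.mult b * b x + ∑ b' ∈ M.Φ.erase b, M.mult b' * b' x = 0 := by
      exact (Finset.add_sum_erase M.Φ (fun b' => M.mult b' * b' x) hb).trans h1
    have h3 : ∑ b' ∈ M.Φ.erase b, M.mult b' * b' x ≤ t * A := by
      calc ∑ b' ∈ M.Φ.erase b, M.mult b' * b' x
          ≤ ∑ b' ∈ M.Φ.erase b, M.mult b' * t :=
            Finset.sum_le_sum fun b' hb' => mul_le_mul_of_nonneg_left
              (hx b' (Finset.mem_of_mem_erase hb')) (M.mult_pos b' (Finset.mem_of_mem_erase hb')).le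
        _ ≤ ∑ b' ∈ M.Φ, M.mult b' * t :=
            Finset.sum_le_sum_of_subset_of_nonneg (Finset.erase_subset _ _)
              fun b' hb' _ => mul_nonneg (M.mult_pos b' hb').le ht
        _ = t * A := by
            rw [hA, Finset.mul_sum]
            exact Finset.sum_congr rfl fun b' _ => by ring
    have hm := M.mult_pos b hb
    have h4 : -(t * (A / M.mult b)) ≤ b x := by
      have h5 : -(t * A) ≤ M.mult b * b x := by linarith
      have h6 : -(t * (A / M.mult b)) = (-(t * A)) / M.mult b := by ring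
      rw [h6, div_le_iff₀ hm]
      linarith
    rw [abs_le]
    have h8 : 0 ≤ t * (A / M.mult b) := by positivity
    have h9 := hx b hb
    constructor <;> nlinarith
  set T : Ht k →ₗ[ℝ] (M.Φ → ℝ) := LinearMap.pi fun b => (b : Ht k →L[ℝ] ℝ).toLinearMap with hT
  have hTker : LinearMap.ker T = ⊥ := by
    rw [LinearMap.ker_eq_bot']
    intro x hx
    apply M.Φ_span x
    intro b hb
    have := congrFun hx ⟨b, hb⟩
    simpa [hT] using this
  obtain ⟨K, hK0, hK⟩ := LinearMap.exists_antilipschitzWith T hTker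
  set C' : ℝ := ∑ b ∈ M.Φ, (1 + A / M.mult b) with hC'
  have hterm : ∀ b ∈ M.Φ, 0 ≤ 1 + A / M.mult b := fun b hb =>
    add_nonneg zero_le_one (div_nonneg hA0 (M.mult_pos b hb).le)
  have hC'0 : 0 ≤ C' := Finset.sum_nonneg hterm
  refine ⟨K * C' + 1, by positivity, fun x t ht hx => ?_⟩
  have h1 : ‖x‖ ≤ K * ‖T x‖ := by
    have := hK.le_mul_dist x 0
    rw [map_zero, dist_zero_right, dist_zero_right] at this
    exact this
  have h2 : ‖T x‖ ≤ t * C' := by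
    rw [pi_norm_le_iff_of_nonneg (mul_nonneg ht hC'0)]
    rintro ⟨b, hb⟩
    have h3 := hlow x t ht hx b hb
    have h4 : 1 + A / M.mult b ≤ C' := Finset.single_le_sum (f := fun b => 1 + A / M.mult b)
      (fun b hb => hterm b hb) hb
    calc ‖T x ⟨b, hb⟩‖ = |b x| := rfl
      _ ≤ t * (1 + A / M.mult b) := h3
      _ ≤ t * C' := mul_le_mul_of_nonneg_left h4 ht
  calc ‖x‖ ≤ K * ‖T x‖ := h1
    _ ≤ K * (t * C') := mul_le_mul_of_nonneg_left h2 K.2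
    _ ≤ (K * C' + 1) * t := by nlinarith

theorem exists_win_bdd {c₂ : ℝ} (hc : 0 < c₂) : ∃ C : ℝ, 0 < C ∧
    ∀ (h : (Ht k →L[ℝ] ℝ) → ℝ), M.HB c₂ h → ∀ (κ s : ℝ), 0 ≤ κ → κ ≤ 1 → 0 ≤ s → ∀ w : Ht k,
      WinH M h κ s w → ‖w‖ ≤ C * s := by
  obtain ⟨C, hC, h1⟩ := exists_bdd M
  refine ⟨C * c₂⁻¹, by positivity, fun h hh κ s h0 h1' hs w hw => ?_⟩
  rw [mul_assoc]
  refine h1 w _ (by positivity) fun b hb => (hw b hb).trans ?_
  have h2 := (hh b hb).2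
  have h3 := (hh b hb).1
  have h4 : (1 - κ) * s ≤ s := by nlinarith
  have h5 : 0 ≤ (1 - κ) * s := mul_nonneg (by linarith) hs
  calc (1 - κ) * s * h b ≤ s * c₂⁻¹ := mul_le_mul h4 h2 (by linarith) hs
    _ = _ := by ring

/-- **inner points** -/
theorem exists_In (B : M.NatBox) : ∃ C : ℝ, 1 ≤ C ∧ ∀ (c₂ d₁ κa κS A Λ : ℝ), 0 < c₂ → 0 < d₁ →
    0 < κa → 0 ≤ κS → C * κS < κa * c₂ → 1 ≤ Λ → ∀ᶠ s : ℝ in atTop,
      ∀ h : (Ht k →L[ℝ] ℝ) → ℝ, M.HB c₂ h → ∀ z : S, np M z ∈ B.Bx (fun i => Λ * M.szh h d₁ s i) →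
      WinH M h κa s (M.θ z) → ‖M.θ z‖ ≤ A * s →
      z ∈ M.In (κS * s) (B.DboxH h (B.C * Λ) d₁ (κa / 2) s) := by
  obtain ⟨C₁, hC₁, hco⟩ := exists_cocycle M B
  have hC0 := M.C0_pos
  have hb1 := one_le_bΦ M
  have hBC := B.one_le
  refine ⟨C₁ + 2 * (bΦ M * M.C0), by nlinarith [mul_pos (by linarith : 0 < bΦ M) hC0], ?_⟩
  intro c₂ d₁ κa κS A Λ hc₂ hd hκa hκS hC hΛ
  have h0 : 0 ≤ 2 * (bΦ M * M.C0) * κS := by positivity
  filter_upwards [hco c₂ d₁ κa κS A 1 hc₂ hd hκa hκS (by nlinarith) one_pos,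
    eventually_ge_atTop (0 : ℝ)] with s h1 hs h hh z hz hw hθ g hg
  constructor
  · show np M (z * g) ∈ _
    rw [np_mul]
    have h2 := h1 h hh z hw hθ g hg
    have h3 := Bx_mul B (R := fun i => Λ * M.szh h d₁ s i)
      (fun i => by have := szh_pos (M := M) (h := h) (d₁ := d₁) (s := s) i; positivity)
      (fun i => by have := szh_pos (M := M) (h := h) (d₁ := d₁) (s := s) i; positivity)
      (fun i => le_rfl) (fun i => by
        have := (szh_pos (M := M) (h := h) (d₁ := d₁) (s := s) i).le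
        nlinarith) hz h2
    have e : (fun i => B.C * Λ * M.szh h d₁ s i) = fun i => B.C * (Λ * M.szh h d₁ s i) := by
      funext i; ring
    rw [e]; exact h3
  · intro b hb
    rw [M.θ_mul, map_add]
    have h2 := hw b hb
    have h3 := (abs_le.1 ((abs_le_bΦ M hb (M.θ g)).trans (mul_le_mul_of_nonneg_left
      ((M.θ_le g).trans (mul_le_mul_of_nonneg_left hg hC0.le)) (by linarith)))).2
    have h4 := (hh b hb).1
    have h5 : bΦ M * (M.C0 * (κS * s)) ≤ κa / 2 * c₂ * s := by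
      have : 2 * (bΦ M * M.C0) * κS ≤ κa * c₂ := by nlinarith
      nlinarith
    have h6 : κa / 2 * c₂ * s ≤ κa / 2 * s * h b := by
      have : κa / 2 * s * c₂ ≤ κa / 2 * s * h b := mul_le_mul_of_nonneg_left h4 (by positivity)
      linarith
    nlinarith

/-! ### facets -/

/-- `u` is the facet point of `b₀` -/
structure Fct (h : (Ht k →L[ℝ] ℝ) → ℝ) (c₂ : ℝ) (b₀ : Ht k →L[ℝ] ℝ) (u : Ht k) : Prop where
  norm_le : ‖u‖ ≤ c₂⁻¹
  eq : b₀ u = h b₀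
  other : ∀ b' ∈ M.Φ, (∃ t : ℝ, 0 < t ∧ b' = t • b₀) ∨ b' u ≤ h b' - c₂

variable {M} {h : (Ht k →L[ℝ] ℝ) → ℝ} {c₂ : ℝ} {b₀ : Ht k →L[ℝ] ℝ} {u : Ht k}

theorem Fct.le (hF : Fct M h c₂ b₀ u) (hg : M.HGood c₂ h) (hc : 0 ≤ c₂) (hb₀ : b₀ ∈ M.Φ)
    {b : Ht k →L[ℝ] ℝ} (hb : b ∈ M.Φ) : b u ≤ h b := by
  rcases hF.other b hb with ⟨t, ht, rfl⟩ | h1
  · rw [hg.ray b₀ hb₀ _ hb t ht rfl]
    show t * b₀ u ≤ _
    rw [hF.eq]
  · linarith

/-- **heights near the facet** -/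
theorem Fct.win (hF : Fct M h c₂ b₀ u) (hg : M.HGood c₂ h) (hc : 0 < c₂) (hb₀ : b₀ ∈ M.Φ)
    {κ' κp κ6 Y s : ℝ} (hs : 0 ≤ s) (hκ' : κ' ≤ 1 / 2) (hκp : 0 < κp) (hκp' : κp ≤ κ')
    (h6 : bΦ M * κ6 ≤ κp * c₂) (hY : bΦ M * (κ6 + κ' * Y) ≤ c₂ / 2) {x y : Ht k}
    (hx : ‖x - ((1 - κ') * s) • u‖ ≤ κ6 * s) (hy : ‖y‖ ≤ κ' * Y * s)
    (hy0 : b₀ y ≤ (κ' - 2 * κp) * s * h b₀) : WinH M h κp s (x + y) := by
  intro b hb
  have hb1 := one_le_bΦ M
  have hh := (hg.bd b hb)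
  have e1 : b x = (1 - κ') * s * b u + b (x - ((1 - κ') * s) • u) := by
    rw [map_sub, map_smul, smul_eq_mul]; ring
  have e2 : b (x - ((1 - κ') * s) • u) ≤ bΦ M * (κ6 * s) :=
    (le_abs_self _).trans ((abs_le_bΦ M hb _).trans (mul_le_mul_of_nonneg_left hx (by linarith)))
  rw [map_add]
  rcases hF.other b hb with ⟨t, ht, rfl⟩ | h1
  · have e3 : h (t • b₀) = t * h b₀ := hg.ray b₀ hb₀ _ hb t ht rfl
    have e4 : (t • b₀) u = h (t • b₀) := by
      rw [e3]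
      show t * b₀ u = _
      rw [hF.eq]
    have e5 : (t • b₀) y ≤ (κ' - 2 * κp) * s * h (t • b₀) := by
      show t * b₀ y ≤ _
      rw [e3]
      nlinarith
    have e6 : bΦ M * (κ6 * s) ≤ κp * s * h (t • b₀) := by
      calc bΦ M * (κ6 * s) = (bΦ M * κ6) * s := by ring
        _ ≤ (κp * c₂) * s := mul_le_mul_of_nonneg_right h6 hs
        _ = (κp * s) * c₂ := by ring
        _ ≤ (κp * s) * h (t • b₀) := mul_le_mul_of_nonneg_left hh.1 (by positivity)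
    rw [e1, e4]
    nlinarith
  · have e3 : b y ≤ bΦ M * (κ' * Y * s) :=
      (le_abs_self _).trans ((abs_le_bΦ M hb _).trans (mul_le_mul_of_nonneg_left hy (by linarith)))
    have e4 : (1 - κ') * s * b u ≤ (1 - κ') * s * (h b - c₂) :=
      mul_le_mul_of_nonneg_left h1 (mul_nonneg (by linarith) hs)
    have e5 : bΦ M * (κ6 * s) + bΦ M * (κ' * Y * s) ≤ c₂ / 2 * s := by
      calc bΦ M * (κ6 * s) + bΦ M * (κ' * Y * s) = (bΦ M * (κ6 + κ' * Y)) * s := by ring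
        _ ≤ _ := mul_le_mul_of_nonneg_right hY hs
    have e6 : (κ' - κp) * s * h b ≥ 0 :=
      mul_nonneg (mul_nonneg (by linarith) hs) (by linarith [hh.1])
    have e7 : (1 / 2 - κ') * s * c₂ ≥ 0 := mul_nonneg (mul_nonneg (by linarith) hs) hc.le
    rw [e1]
    nlinarith

/-- heights on the way to the facet -/
theorem Fct.way (hF : Fct M h c₂ b₀ u) (hg : M.HGood c₂ h) (hc : 0 < c₂) (hb₀ : b₀ ∈ M.Φ)
    {κ' κ6 s t : ℝ} (hs : 0 ≤ s) (hκ' : κ' ≤ 1) (hκ0 : 0 < κ') (ht : 0 ≤ t) (ht1 : t ≤ 1)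
    (h6 : bΦ M * κ6 ≤ κ' / 2 * c₂) {x : Ht k}
    (hx : ‖x - (t * ((1 - κ') * s)) • u‖ ≤ κ6 * s) : WinH M h (κ' / 2) s x := by
  intro b hb
  have hb1 := one_le_bΦ M
  have hh := (hg.bd b hb)
  have hbu := hF.le hg hc.le hb₀ hb
  have e1 : b x = t * ((1 - κ') * s) * b u + b (x - (t * ((1 - κ') * s)) • u) := by
    rw [map_sub, map_smul, smul_eq_mul]; ring
  have e2 : b (x - (t * ((1 - κ') * s)) • u) ≤ bΦ M * (κ6 * s) :=
    (le_abs_self _).trans ((abs_le_bΦ M hb _).trans (mul_le_mul_of_nonneg_left hx (by linarith)))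
  have e3 : 0 ≤ (1 - κ') * s := mul_nonneg (by linarith) hs
  have e4 : t * ((1 - κ') * s) * b u ≤ (1 - κ') * s * h b := by
    calc t * ((1 - κ') * s) * b u ≤ t * ((1 - κ') * s) * h b :=
          mul_le_mul_of_nonneg_left hbu (mul_nonneg ht e3)
      _ ≤ 1 * ((1 - κ') * s) * h b := by
          have : 0 ≤ h b := by linarith [hh.1]
          gcongr
      _ = _ := by ring
  have e6 : bΦ M * (κ6 * s) ≤ κ' / 2 * s * h b := by
    calc bΦ M * (κ6 * s) = (bΦ M * κ6) * s := by ring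
      _ ≤ (κ' / 2 * c₂) * s := mul_le_mul_of_nonneg_right h6 hs
      _ = (κ' / 2 * s) * c₂ := by ring
      _ ≤ (κ' / 2 * s) * h b := mul_le_mul_of_nonneg_left hh.1 (by positivity)
  rw [e1]
  nlinarith

end Vale.Agent.P188.Z1.RModel.F6
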