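import Vale.Agent.P188.H616.M6

/-!
# P188, FLAT in the model, part 7: merging at the facet
-/

set_option linter.all false

open MeasureTheory Set Filter
open Vale.Agent.P188.H530 (hgt)
open Vale.Agent.P188.H616 (Coord Sec Phi slide)

namespace Vale.Agent.P188.Z1.RModel.F6

variable {S : Type} [Group S] [MeasurableSpace S] {Γ : Type} [Group Γ]
  {V : Type} [AddCommGroup V] [Module ℝ V] {k : ℕ} (M : RModel S Γ V k)

/-- constants of the finite set of directions -/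
theorem exists_dirs {Φ₁ : Finset (Ht k →L[ℝ] ℝ)} {V₁ : Finset (Fin k → ℤ)} (hV : M.Dirs Φ₁ V₁) :
    ∃ (βm Vm : ℝ) (nv : ℕ), 0 < βm ∧ 1 ≤ Vm ∧ 1 ≤ nv ∧ (∀ v ∈ V₁, ‖(ht v : Ht k)‖ ≤ Vm) ∧
      (∀ v ∈ V₁, ∀ b ∈ M.Φ, βm ≤ |b (ht v)|) ∧ ∀ v ∈ V₁, M.τ v ∈ M.CB nv := by
  classical
  obtain ⟨βm, hβ, hβ2⟩ : ∃ βm : ℝ, 0 < βm ∧ ∀ v ∈ V₁, ∀ b ∈ M.Φ, βm ≤ |b (ht v)| := by
    set P := V₁ ×ˢ M.Φ with hP
    by_cases hne : P.Nonempty
    · obtain ⟨q, hq, hmin⟩ := P.exists_min_image (fun q => |q.2 (ht q.1)|) hne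
      have hq1 := Finset.mem_product.1 hq
      refine ⟨|q.2 (ht q.1)|, abs_pos.2 (hV.generic _ hq1.1 _ (M.Φ_sub hq1.2) (M.Φ_ne _ hq1.2)), ?_⟩
      intro v hv b hb
      exact hmin (v, b) (Finset.mem_product.2 ⟨hv, hb⟩)
    · rw [Finset.not_nonempty_iff_eq_empty] at hne
      refine ⟨1, one_pos, fun v hv b hb => ?_⟩
      have : (v, b) ∈ P := Finset.mem_product.2 ⟨hv, hb⟩
      rw [hne] at this
      simp at this
  refine ⟨βm, 1 + ∑ v ∈ V₁, ‖(ht v : Ht k)‖,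
    1 + ∑ v ∈ V₁, ⌈M.C0 * (1 + ‖(fun i => ((v i : ℤ) : ℝ))‖)⌉₊, hβ, ?_, ?_, ?_, hβ2, ?_⟩
  · have := Finset.sum_nonneg (s := V₁) (f := fun v => ‖(ht v : Ht k)‖) fun _ _ => norm_nonneg _
    linarith
  · omega
  · intro v hv
    have := Finset.single_le_sum (f := fun v => ‖(ht v : Ht k)‖) (fun _ _ => norm_nonneg _) hv
    linarith
  · intro v hv
    have := Finset.single_le_sum (f := fun v : Fin k → ℤ =>
      ⌈M.C0 * (1 + ‖(fun i => ((v i : ℤ) : ℝ))‖)⌉₊) (fun _ _ => Nat.zero_le _) hv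
    refine M.CB_mono ?_ (M.τ_CB v)
    omega

/-- conjugates of letters by Cartan words -/
theorem nm_Ad_le {n : ℕ} {c : S} (hc : c ∈ M.CB n) (i : M.ι) (x : ℝ) :
    M.nm (M.Ad c (x • M.X i)) ≤ M.C0 * (1 + n) ^ M.deg * Real.exp (M.wt i (M.θ c)) * |x| := by
  have hwt : M.wt i ∈ M.Wt := by
    rcases M.wt_mem i with h | h
    · exact M.Φ_sub h
    · rw [h]; exact M.zero_mem_Wt
  have h1 := M.C_le n c hc (M.wt i) hwt (x • M.X i) (Submodule.smul_mem _ _ (M.X_mem i))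
  refine h1.trans ?_
  have h2 : M.nm (x • M.X i) ≤ |x| := by
    rw [map_smul_eq_mul, Real.norm_eq_abs]
    have := M.X_le i
    nlinarith [abs_nonneg x]
  have hC := M.C0_pos
  refine mul_le_mul_of_nonneg_left h2 ?_
  positivity

theorem Ad_mem_Vw {n : ℕ} {c : S} (hc : c ∈ M.CB n) (i : M.ι) (x : ℝ) :
    M.Ad c (x • M.X i) ∈ M.Vw (M.wt i) :=
  M.C_inv n c hc _ _ (Submodule.smul_mem _ _ (M.X_mem i))

variable {M} {c₂ : ℝ}

/-- **merging at the top** -/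
theorem ev_top (hc : 0 < c₂) {κ' κp κ6 A Λ Vb : ℝ} (hκp : 0 < κp) (h6 : bΦ M * κ6 ≤ κp * c₂)
    (hΛ : 0 < Λ) :
    ∀ᶠ s : ℝ in atTop, ∀ h : (Ht k →L[ℝ] ℝ) → ℝ, M.HGood c₂ h → ∀ i, M.wt i ≠ 0 →
      ∀ u, Fct M h c₂ (M.wt i) u → ∀ (v : Fin k → ℤ) (m : ℕ),
      (κ' - 2 * κp) * s * h (M.wt i) - Vb ≤ m * M.wt i (ht v) →
      ∀ n : ℕ, (n : ℝ) ≤ A * s → ∀ c : S, c * M.τ v ^ m ∈ M.CB n →
      ‖M.θ c - ((1 - κ') * s) • u‖ ≤ κ6 * s → ∀ x : ℝ, |x| ≤ Λ * Real.exp (s * h (M.wt i)) →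
      (M.l ((M.τ v ^ m)⁻¹ * (c⁻¹ * M.ex (x • M.X i) * c) * M.τ v ^ m) : ℝ) ≤
        10 * M.C0 * (κp * (c₂ + c₂⁻¹)) * s := by
  have hC := M.C0_pos
  have hci : 0 < c₂⁻¹ := inv_pos.2 hc
  have hb1 := one_le_bΦ M
  set C₂ := κp * (c₂ + c₂⁻¹) with hC₂
  have hC₂0 : 0 < C₂ := by positivity
  filter_upwards [ev_polyB (M.C0 * Real.exp Vb * Λ) A M.deg hC₂0 one_pos,
    ev_linB 1 hC₂0, eventually_ge_atTop (0 : ℝ)] with s h1 h2 hs h hg i hi u hF v m hm n hn c hcn hθ x hx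
  rw [one_mul] at h1
  have hΦ : M.wt i ∈ M.Φ := by
    rcases wt_cases M i with h0 | h0
    · exact absurd h0 hi
    · exact h0.1
  have e1 : (M.τ v ^ m)⁻¹ * (c⁻¹ * M.ex (x • M.X i) * c) * M.τ v ^ m =
      M.ex (M.Ad (c * M.τ v ^ m)⁻¹ (x • M.X i)) := by
    rw [M.ex_Ad]; group
  rw [e1]
  have hcn' := M.CB_inv hcn
  have h3 := nm_Ad_le M hcn' i x
  have h4 : M.θ (c * M.τ v ^ m)⁻¹ = -(M.θ c + (m : ℝ) • ht v) := by
    rw [M.θ_inv, M.θ_mul]
    congr 2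
    have : ∀ m : ℕ, M.θ (M.τ v ^ m) = (m : ℝ) • (ht v : Ht k) := by
      intro m
      induction m with
      | zero => simp [M.θ_one]
      | succ m ih => rw [pow_succ, M.θ_mul, ih, θ_τht, Nat.cast_succ, add_smul, one_smul]
    exact this m
  have h5 : M.wt i (M.θ (c * M.τ v ^ m)⁻¹) ≤ -(s * h (M.wt i)) + (3 * C₂ * s + Vb) := by
    rw [h4, map_neg, map_add, map_smul, smul_eq_mul]
    have e2 : M.wt i (M.θ c) = (1 - κ') * s * M.wt i u + M.wt i (M.θ c - ((1 - κ') * s) • u) := by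
      rw [map_sub, map_smul, smul_eq_mul]; ring
    have e3 : -(bΦ M * (κ6 * s)) ≤ M.wt i (M.θ c - ((1 - κ') * s) • u) :=
      (abs_le.1 ((abs_le_bΦ M hΦ _).trans (mul_le_mul_of_nonneg_left hθ (by linarith)))).1
    rw [e2, hF.eq]
    have e4 : bΦ M * (κ6 * s) ≤ κp * c₂ * s := by
      calc bΦ M * (κ6 * s) = (bΦ M * κ6) * s := by ring
        _ ≤ _ := mul_le_mul_of_nonneg_right h6 hs
    have e5 : κp * s * h (M.wt i) ≤ κp * s * c₂⁻¹ :=
      mul_le_mul_of_nonneg_left (hg.bd _ hΦ).2 (by positivity)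
    have e6 : 2 * (κp * s * c₂⁻¹) + κp * c₂ * s ≤ 3 * C₂ * s := by
      rw [hC₂]
      have : 0 ≤ κp * c₂ * s := by positivity
      have : 0 ≤ κp * c₂⁻¹ * s := by positivity
      nlinarith
    nlinarith
  have h6' : (1 + (n : ℝ)) ^ M.deg ≤ (1 + A * s) ^ M.deg := by
    have : (0 : ℝ) ≤ n := Nat.cast_nonneg n
    gcongr
  have hAs : 0 ≤ 1 + A * s := by
    have : (0 : ℝ) ≤ n := Nat.cast_nonneg n
    linarith
  have h7 : M.nm (M.Ad (c * M.τ v ^ m)⁻¹ (x • M.X i)) ≤ Real.exp (4 * C₂ * s) := by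
    refine h3.trans ?_
    have hP := pow_nonneg hAs M.deg
    calc M.C0 * (1 + n) ^ M.deg * Real.exp (M.wt i (M.θ (c * M.τ v ^ m)⁻¹)) * |x|
        ≤ M.C0 * (1 + A * s) ^ M.deg * Real.exp (-(s * h (M.wt i)) + (3 * C₂ * s + Vb)) *
          (Λ * Real.exp (s * h (M.wt i))) := by gcongr
      _ = (M.C0 * Real.exp Vb * Λ * (1 + A * s) ^ M.deg) * Real.exp (3 * C₂ * s) := by
          rw [Real.exp_add, Real.exp_add, Real.exp_neg]
          field_simp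
      _ ≤ Real.exp (C₂ * s) * Real.exp (3 * C₂ * s) := by gcongr
      _ = _ := by rw [← Real.exp_add]; congr 1; ring
  have h8 : M.Ad (c * M.τ v ^ m)⁻¹ (x • M.X i) ∈ M.e := M.Vw_e _ hi (Ad_mem_Vw M hcn' i x)
  have h9 := M.len_e h8 (by positivity) h7
  refine h9.trans ?_
  have h10 : M.C0 * 1 ≤ M.C0 * (C₂ * s) := mul_le_mul_of_nonneg_left h2 hC.le
  nlinarith

/-- sizes of the letters which merge along `v` -/
noncomputable def Rm (M : RModel S Γ V k) (v : Fin k → ℤ) (m : ℕ) (j : M.ι) : ℝ :=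
  Real.exp (m * |M.wt j (ht v)|)

theorem adm_Rm (v : Fin k → ℤ) (m : ℕ) : M.Adm (Rm M v m) := by
  refine adm_exp ?_
  intro i w hw0 hsum
  rw [← hsum]
  clear hsum hw0
  induction w with
  | nil => simp
  | cons j w ih =>
    rw [List.map_cons, List.sum_cons, List.map_cons, List.sum_cons]
    have h1 : |(M.wt j + (w.map M.wt).sum) (ht v)| ≤ |M.wt j (ht v)| + |(w.map M.wt).sum (ht v)| := by
      rw [ContinuousLinearMap.add_apply]
      exact abs_add_le _ _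
    have h2 := mul_le_mul_of_nonneg_left h1 (Nat.cast_nonneg (α := ℝ) m)
    linarith

theorem one_le_Rm (v : Fin k → ℤ) (m : ℕ) (j : M.ι) : 1 ≤ Rm M v m j :=
  Real.one_le_exp (by positivity)

theorem Rm_zero {v : Fin k → ℤ} {m : ℕ} {j : M.ι} (hj : M.wt j = 0) : Rm M v m j = 1 := by
  unfold Rm
  rw [hj]
  simp

theorem θ_τpow (v : Fin k → ℤ) (m : ℕ) : M.θ (M.τ v ^ m) = (m : ℝ) • (ht v : Ht k) := by
  induction m with
  | zero => simp [M.θ_one]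
  | succ m ih => rw [pow_succ, M.θ_mul, ih, θ_τht, Nat.cast_succ, add_smul, one_smul]

/-- **the letters merge** along `v` -/
theorem ev_merge {A d' : ℝ} (nv : ℕ) (hd : 0 < d') :
    ∀ᶠ s : ℝ in atTop, ∀ v : Fin k → ℤ, M.τ v ∈ M.CB nv → ∀ m : ℕ, (m : ℝ) ≤ A * s →
      ∀ (j : M.ι) (x : ℝ), |x| ≤ 1 →
      (M.l ((M.τ v ^ m)⁻¹ * M.ex ((Rm M v m j * x) • M.X j) * M.τ v ^ m) : ℝ) ≤ d' * s ∨
      (M.l (((M.τ v)⁻¹ ^ m)⁻¹ * M.ex ((Rm M v m j * x) • M.X j) * (M.τ v)⁻¹ ^ m) : ℝ) ≤ d' * s ∨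
      (M.l (M.ex ((Rm M v m j * x) • M.X j)) : ℝ) ≤ d' * s := by
  have hC := M.C0_pos
  have ha : 0 < d' / (4 * M.C0) := by positivity
  filter_upwards [ev_polyB M.C0 (A * nv) M.deg ha one_pos, ev_linB (4 * M.C0) hd,
    eventually_ge_atTop (0 : ℝ)] with s h1 h2 hs v hv m hm j x hx
  rw [one_mul] at h1
  have hpow : (M.τ v) ^ m ∈ M.CB (m * nv) := M.CB_pow hv m
  have hbd : M.C0 * (1 + ((m * nv : ℕ) : ℝ)) ^ M.deg ≤ Real.exp (d' / (4 * M.C0) * s) := by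
    refine le_trans ?_ h1
    have h3 : ((m * nv : ℕ) : ℝ) ≤ A * nv * s := by
      push_cast
      have : (0 : ℝ) ≤ nv := Nat.cast_nonneg nv
      nlinarith
    have : (0 : ℝ) ≤ ((m * nv : ℕ) : ℝ) := Nat.cast_nonneg _
    gcongr
  -- general estimate
  have key : ∀ c ∈ M.CB (m * nv), M.wt j ≠ 0 → M.wt j (M.θ c) = -(m * |M.wt j (ht v)|) →
      (M.l (M.ex (M.Ad c ((Rm M v m j * x) • M.X j))) : ℝ) ≤ d' * s := by
    intro c hc hj hθ
    have h3 := nm_Ad_le M hc j (Rm M v m j * x)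
    have h4 : M.nm (M.Ad c ((Rm M v m j * x) • M.X j)) ≤ Real.exp (d' / (4 * M.C0) * s) := by
      refine h3.trans (le_trans ?_ hbd)
      rw [hθ, abs_mul, abs_of_pos (lt_of_lt_of_le one_pos (one_le_Rm v m j))]
      unfold Rm
      rw [mul_assoc, ← mul_assoc (Real.exp _) (Real.exp _), ← Real.exp_add, neg_add_cancel,
        Real.exp_zero, one_mul]
      exact mul_le_of_le_one_right (by positivity) hx
    have h5 : M.Ad c ((Rm M v m j * x) • M.X j) ∈ M.e := M.Vw_e _ hj (Ad_mem_Vw M hc j _)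
    refine (M.len_e h5 (by positivity) h4).trans ?_
    have e : 2 * M.C0 * (d' / (4 * M.C0) * s + 1) = d' * s / 2 + 2 * M.C0 := by
      field_simp
      ring
    rw [e]
    linarith
  by_cases hj : M.wt j = 0
  · right; right
    rw [Rm_zero hj, one_mul]
    have h3 := M.met_V (x • M.X j)
    have h4 : M.nm (x • M.X j) ≤ 1 := by
      rw [map_smul_eq_mul, Real.norm_eq_abs]
      have := M.X_le j
      nlinarith [abs_nonneg x, apply_nonneg M.nm (M.X j)]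
    refine h3.trans (le_trans ?_ h2)
    nlinarith
  · rcases le_or_gt 0 (M.wt j (ht v)) with h3 | h3
    · left
      have e1 : (M.τ v ^ m)⁻¹ * M.ex ((Rm M v m j * x) • M.X j) * M.τ v ^ m =
          M.ex (M.Ad (M.τ v ^ m)⁻¹ ((Rm M v m j * x) • M.X j)) := by
        rw [M.ex_Ad, inv_inv]
      rw [e1]
      refine key _ (M.CB_inv hpow) hj ?_
      rw [M.θ_inv, θ_τpow, map_neg, map_smul, smul_eq_mul, abs_of_nonneg h3]
    · right; left
      have e1 : ((M.τ v)⁻¹ ^ m)⁻¹ * M.ex ((Rm M v m j * x) • M.X j) * (M.τ v)⁻¹ ^ m =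
          M.ex (M.Ad (M.τ v ^ m) ((Rm M v m j * x) • M.X j)) := by
        rw [M.ex_Ad]; group
      rw [e1]
      refine key _ hpow hj ?_
      rw [θ_τpow, map_smul, smul_eq_mul, abs_of_neg h3]
      ring

/-- **positions after a merging letter** -/
theorem ev_q (B : M.NatBox) (hc : 0 < c₂) {d₁ κp A δ : ℝ} (hd : 0 < d₁) (hκp : 0 < κp)
    (hδ : 0 < δ) :
    ∀ᶠ s : ℝ in atTop, ∀ h : (Ht k →L[ℝ] ℝ) → ℝ, M.HB c₂ h → ∀ (v : Fin k → ℤ) (m : ℕ) (z : S),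
      WinH M h κp s (M.θ z + (m : ℝ) • ht v) → WinH M h κp s (M.θ z - (m : ℝ) • ht v) →
      ‖M.θ z‖ ≤ A * s → ∀ (j : M.ι) (x : ℝ), |x| ≤ 1 →
        M.sec z * M.ex ((Rm M v m j * x) • M.X j) * (M.sec z)⁻¹ ∈
          B.Bx fun i => δ * M.szh h d₁ s i := by
  have hC := M.C0_pos
  set ν := min (κp * c₂) d₁ with hν
  have hν0 : 0 < ν := lt_min (by positivity) hd
  filter_upwards [ev_conj B (d₁ := d₁) (M.C0 * (|A| + 2)) hδ hν0, eventually_ge_atTop (1 : ℝ)]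
    with s h1 hs h hh v m z hw1 hw2 hz j x hx
  have hz' : ‖M.θ z‖ ≤ |A| * s := hz.trans (mul_le_mul_of_nonneg_right (le_abs_self A) (by linarith))
  have hAs : 0 ≤ |A| * s := by positivity
  refine h1 h ⌈M.C0 * (1 + |A| * s)⌉₊ ?_ _ (sec_mem_CB M z (le_trans
      (mul_le_mul_of_nonneg_left (by linarith) hC.le) (Nat.le_ceil _))) _ (adm_Rm v m) ?_ _
      (B.letter _ (fun i => (zero_le_one.trans (one_le_Rm v m i))) j _ ?_)
  · refine (Nat.ceil_lt_add_one (by positivity)).le.trans ?_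
    have := M.one_le_C0
    nlinarith [mul_nonneg hC.le hAs]
  · intro i
    rw [θ_sec]
    unfold Rm
    rw [← Real.exp_add, Real.exp_le_exp]
    rcases wt_cases M i with h0 | ⟨hΦ, h0⟩
    · rw [h0, sxh_zero h0]
      simp only [ContinuousLinearMap.zero_apply, abs_zero, mul_zero, add_zero]
      refine mul_nonneg ?_ (by linarith)
      have := min_le_right (κp * c₂) d₁
      linarith
    · rw [sxh_ne h0]
      have e1 := hw1 _ hΦ
      have e2 := hw2 _ hΦ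
      rw [map_add, map_smul, smul_eq_mul] at e1
      rw [map_sub, map_smul, smul_eq_mul] at e2
      have e3 : M.wt i (M.θ z) + m * |M.wt i (ht v)| ≤ (1 - κp) * s * h (M.wt i) := by
        rcases abs_choice (M.wt i (ht v)) with h3 | h3
        · rw [h3]; exact e1
        · rw [h3]; linarith
      refine e3.trans ?_
      have e4 := min_le_left (κp * c₂) d₁
      have e5 : κp * c₂ ≤ κp * h (M.wt i) := mul_le_mul_of_nonneg_left (hh _ hΦ).1 hκp.le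
      have e6 : ν * s ≤ κp * h (M.wt i) * s := mul_le_mul_of_nonneg_right (e4.trans e5) (by linarith)
      nlinarith
  · rw [abs_mul, abs_of_pos (lt_of_lt_of_le one_pos (one_le_Rm v m j))]
    exact mul_le_of_le_one_right (zero_le_one.trans (one_le_Rm v m j)) hx

end Vale.Agent.P188.Z1.RModel.F6
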