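import Vale.Agent.P188.H616.M8

/-!
# P188, FLAT in the model, part 9: the cover of the slid points by few boxes
-/

set_option linter.all false

open MeasureTheory Set Filter
open Vale.Agent.P188.H530 (hgt)
open Vale.Agent.P188.H616 (Coord Sec Phi slide)
open Vale.Agent.P188.H329 (InP prS)

namespace Vale.Agent.P188.Z1.RModel.F6

variable {S : Type} [Group S] [MeasurableSpace S] {Γ : Type} [Group Γ]
  {V : Type} [AddCommGroup V] [Module ℝ V] {k : ℕ} {M : RModel S Γ V k}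

theorem cov_adm (θc : Ht k) (v : Fin k → ℤ) (m : ℕ) {a : ℝ} (ha : 0 ≤ a) :
    M.Adm fun j => Real.exp (M.wt j θc + m * |M.wt j (ht v)| + a) := by
  refine adm_exp ?_
  intro i w hw0 hsum
  have key : ∀ w : List M.ι, (w.map M.wt).sum θc + m * |(w.map M.wt).sum (ht v)| +
      w.length * a ≤ (w.map fun j => M.wt j θc + m * |M.wt j (ht v)| + a).sum := by
    intro w
    induction w with
    | nil => simp
    | cons j w ih =>
      rw [List.map_cons, List.sum_cons, List.map_cons, List.sum_cons, List.length_cons]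
      have h1 : |(M.wt j + (w.map M.wt).sum) (ht v)| ≤
          |M.wt j (ht v)| + |(w.map M.wt).sum (ht v)| := by
        rw [ContinuousLinearMap.add_apply]
        exact abs_add_le _ _
      have h2 := mul_le_mul_of_nonneg_left h1 (Nat.cast_nonneg (α := ℝ) m)
      have h3 : (M.wt j + (w.map M.wt).sum) θc = M.wt j θc + (w.map M.wt).sum θc := rfl
      rw [h3, Nat.cast_add, Nat.cast_one]
      linarith
  have h1 := key w
  rw [hsum] at h1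
  have h2 : (1 : ℝ) ≤ w.length := by
    have := List.length_pos_of_ne_nil hw0
    exact_mod_cast this
  have h3 : a ≤ w.length * a := le_mul_of_one_le_left ha h2
  linarith

theorem cov1 (B : M.NatBox) {s κ'' : ℝ} (hs : 0 ≤ s) (hκ : 0 ≤ κ'') {n : ℕ}
    (hn : B.C * (1 + (n : ℝ)) ^ B.dg ≤ Real.exp (κ'' * s)) {c : S} (hc : c ∈ M.CB n)
    (v : Fin k → ℤ) (m : ℕ) {i : M.ι} {x : ℝ}
    (hx : |x| ≤ Real.exp (M.wt i (M.θ c) + m * |M.wt i (ht v)| + κ'' * s)) :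
    c⁻¹ * M.ex (x • M.X i) * c ∈ B.Bx fun j => Real.exp (2 * κ'' * s) * Rm M v m j := by
  have h1 := B.conj n c⁻¹ (M.CB_inv hc) _ (cov_adm (M.θ c) v m (mul_nonneg hκ hs)) _
    (B.letter _ (fun j => (Real.exp_pos _).le) i x hx)
  rw [inv_inv] at h1
  have hBC := C_pos B
  refine B.mono _ _ (fun j => by positivity) (fun j => ?_) h1
  calc B.C * (1 + (n : ℝ)) ^ B.dg * Real.exp (M.wt j (M.θ c⁻¹)) *
        Real.exp (M.wt j (M.θ c) + m * |M.wt j (ht v)| + κ'' * s)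
      ≤ Real.exp (κ'' * s) * Real.exp (M.wt j (M.θ c⁻¹)) *
        Real.exp (M.wt j (M.θ c) + m * |M.wt j (ht v)| + κ'' * s) := by gcongr
    _ = _ := by
        rw [M.θ_inv, map_neg]
        unfold Rm
        rw [← Real.exp_add, ← Real.exp_add, ← Real.exp_add]
        congr 1
        ring

theorem cov_size {c₂ κ' κp κ6 κ'' Λ Vb s : ℝ} (hc : 0 < c₂) (hs : 0 ≤ s) (hκp : 0 < κp)
    {h : (Ht k →L[ℝ] ℝ) → ℝ} (hg : M.HGood c₂ h) {i : M.ι} (hΦ : M.wt i ∈ M.Φ) {u : Ht k}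
    (hF : Fct M h c₂ (M.wt i) u) {v : Fin k → ℤ} {m : ℕ}
    (hm : (κ' - 2 * κp) * s * h (M.wt i) - Vb ≤ m * M.wt i (ht v)) {θc : Ht k}
    (hθ : ‖θc - ((1 - κ') * s) • u‖ ≤ κ6 * s)
    (hΛ : Λ * Real.exp Vb ≤ Real.exp ((κ'' - (2 * κp * c₂⁻¹ + bΦ M * κ6)) * s)) :
    Λ * Real.exp (s * h (M.wt i)) ≤
      Real.exp (M.wt i θc + m * |M.wt i (ht v)| + κ'' * s) := by
  have hb1 := one_le_bΦ M
  have e2 : M.wt i θc = (1 - κ') * s * M.wt i u + M.wt i (θc - ((1 - κ') * s) • u) := by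
    rw [map_sub, map_smul, smul_eq_mul]; ring
  have e3 : -(bΦ M * (κ6 * s)) ≤ M.wt i (θc - ((1 - κ') * s) • u) :=
    (abs_le.1 ((abs_le_bΦ M hΦ _).trans (mul_le_mul_of_nonneg_left hθ (by linarith)))).1
  have e4 : (m : ℝ) * M.wt i (ht v) ≤ m * |M.wt i (ht v)| :=
    mul_le_mul_of_nonneg_left (le_abs_self _) (Nat.cast_nonneg m)
  have e5 : κp * s * h (M.wt i) ≤ κp * s * c₂⁻¹ :=
    mul_le_mul_of_nonneg_left (hg.bd _ hΦ).2 (by positivity)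
  have e1 : s * h (M.wt i) + ((κ'' - (2 * κp * c₂⁻¹ + bΦ M * κ6)) * s - Vb) ≤
      M.wt i θc + m * |M.wt i (ht v)| + κ'' * s := by
    rw [e2, hF.eq]
    linarith
  calc Λ * Real.exp (s * h (M.wt i))
      = Real.exp (s * h (M.wt i)) * (Λ * Real.exp Vb) * Real.exp (-Vb) := by
        rw [Real.exp_neg]; field_simp
    _ ≤ Real.exp (s * h (M.wt i)) *
        Real.exp ((κ'' - (2 * κp * c₂⁻¹ + bΦ M * κ6)) * s) * Real.exp (-Vb) := by gcongr
    _ = Real.exp (s * h (M.wt i) + ((κ'' - (2 * κp * c₂⁻¹ + bΦ M * κ6)) * s - Vb)) := by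
        rw [← Real.exp_add, ← Real.exp_add]; congr 1; ring
    _ ≤ _ := Real.exp_le_exp.2 e1

theorem cov2 (B : M.NatBox) {R : M.ι → ℝ} {n₂ : ℕ} {w : Fin k → ℤ} (hτw : M.τ w ∈ M.CB n₂)
    {W : ℝ} (hw : ‖(ht w : Ht k)‖ ≤ W) {vg : V} (hvg : vg ∈ M.e)
    (h0 : ∀ j, M.wt j = 0 → B.C * (1 + (n₂ : ℝ)) ^ B.dg ≤ R j)
    (h1 : ∀ j, M.wt j ≠ 0 → B.C * (1 + (n₂ : ℝ)) ^ B.dg * Real.exp (bΦ M * W) *
      (B.C * (1 + M.nm vg)) ≤ R j) : (M.τ w)⁻¹ * M.ex vg * M.τ w ∈ B.Bx R := by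
  have hBC := C_pos B
  have hBC1 := B.one_le
  have hb1 := one_le_bΦ M
  have hnm := apply_nonneg M.nm vg
  have h2 : 1 ≤ B.C * (1 + M.nm vg) := by nlinarith
  have h3 := B.conj n₂ (M.τ w)⁻¹ (M.CB_inv hτw) _ (adm_two' (M := M) le_rfl h2) _ (B.ball_e vg hvg)
  rw [inv_inv] at h3
  refine B.mono _ _ (fun j => ?_) (fun j => ?_) h3
  · have : 0 ≤ M.two 1 (B.C * (1 + M.nm vg)) j := by unfold two; split_ifs <;> linarith
    positivity
  · unfold two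
    split_ifs with hj
    · have h4 := h0 j hj
      rw [hj]
      simpa using h4
    · refine le_trans ?_ (h1 j hj)
      have e1 : M.wt j (M.θ (M.τ w)⁻¹) ≤ bΦ M * W := by
        refine (le_abs_self _).trans ((abs_wt_le M j _).trans ?_)
        rw [M.θ_inv, norm_neg, θ_τht]
        exact mul_le_mul_of_nonneg_left hw (by linarith)
      gcongr

theorem cov3 (B : M.NatBox) {R : M.ι → ℝ} {n₂ n₃ : ℕ} {w : Fin k → ℤ} (hτw : M.τ w ∈ M.CB n₂)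
    {cg : S} (hcg : cg ∈ M.CB n₃) (hη : M.η cg = Multiplicative.ofAdd w)
    (h0 : ∀ j, M.wt j = 0 → B.C * (1 + M.C0) * (1 + ((n₂ + n₃ : ℕ) : ℝ)) ^ M.deg ≤ R j)
    (h1 : ∀ j, M.wt j ≠ 0 → 1 ≤ R j) : (M.τ w)⁻¹ * cg ∈ B.Bx R := by
  have hBC := C_pos B
  have hC0 := M.C0_pos
  have h2 : (M.τ w)⁻¹ * cg ∈ M.CB (n₂ + n₃) := M.CB_mul (M.CB_inv hτw) hcg
  have h3 : M.η ((M.τ w)⁻¹ * cg) = 1 := by
    rw [map_mul, map_inv, M.η_τ, hη, inv_mul_cancel]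
  refine B.mono _ _ (fun j => ?_) (fun j => ?_) (ker_mem B h2 h3)
  · unfold two; split_ifs
    · positivity
    · exact zero_le_one
  · unfold two
    split_ifs with hj
    · exact h0 j hj
    · exact h1 j hj

theorem cov4 (B : M.NatBox) {v : Fin k → ℤ} {m : ℕ} {E : ℝ} (hE : 1 ≤ E) {w : Fin k → ℤ}
    {z0 z y cg : S} {vg : V} (hz : z0⁻¹ * z = M.ex vg * cg)
    (h1 : y ∈ B.Bx fun j => E * Rm M v m j)
    (h2 : (M.τ w)⁻¹ * M.ex vg * M.τ w ∈ B.Bx fun j => E * Rm M v m j)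
    (h3 : (M.τ w)⁻¹ * cg ∈ B.Bx fun j => E * Rm M v m j) :
    InP (fun j x => M.ex ((Rm M v m j * x) • M.X j)) B.m (B.C ^ 3 * E) (z0 * M.τ w) (z * y) := by
  have hBC := C_pos B
  have hBC1 := B.one_le
  have hRm1 : ∀ j, 1 ≤ Rm M v m j := one_le_Rm v m
  set R : M.ι → ℝ := fun j => E * Rm M v m j with hR
  have hR1 : ∀ j, 1 ≤ R j := fun j => one_le_mul_of_one_le_of_one_le hE (hRm1 j)
  have hR0 : ∀ j, 0 ≤ R j := fun j => zero_le_one.trans (hR1 j)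
  have hY : (M.τ w)⁻¹ * (z0⁻¹ * z) * y ∈ B.Bx fun j => B.C * (B.C * R j) := by
    have e1 : (M.τ w)⁻¹ * (z0⁻¹ * z) * y =
        ((M.τ w)⁻¹ * M.ex vg * M.τ w) * ((M.τ w)⁻¹ * cg) * y := by
      rw [hz]; group
    rw [e1]
    refine B.mul _ (fun j => mul_nonneg hBC.le (hR0 j)) _ (B.mul _ hR0 _ h2 _ h3) _
      (B.mono _ _ hR0 (fun j => ?_) h1)
    exact le_mul_of_one_le_left (hR0 j) hBC1
  obtain ⟨y', hy, hyeq⟩ := B.gen _ (fun j => mul_nonneg hBC.le (mul_nonneg hBC.le (hR0 j))) _ hY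
  refine ⟨B.J, fun t => y' t / Rm M v m (B.J t), fun t => ?_, ?_⟩
  · have hp : 0 < Rm M v m (B.J t) := lt_of_lt_of_le one_pos (hRm1 _)
    rw [abs_div, abs_of_pos hp, div_le_iff₀ hp]
    refine (hy t).trans (le_of_eq ?_)
    rw [hR]
    ring
  · have e1 : prS (fun j x => M.ex ((Rm M v m j * x) • M.X j)) B.J
        (fun t => y' t / Rm M v m (B.J t)) =
        (List.ofFn fun t => M.ex (y' t • M.X (B.J t))).prod := by
      unfold prS
      congr 2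
      funext t
      have hp : Rm M v m (B.J t) ≠ 0 := (lt_of_lt_of_le one_pos (hRm1 _)).ne'
      show M.ex ((Rm M v m (B.J t) * (y' t / Rm M v m (B.J t))) • M.X (B.J t)) = _
      rw [mul_div_cancel₀ _ hp]
    rw [e1, ← hyeq]
    group

variable (M) in
theorem ev_cov (B : M.NatBox) : ∃ C : ℝ, 1 ≤ C ∧ ∀ {c₂ κ' κp κ6 κc κm κ'' A Λ Vb : ℝ}, 0 < c₂ →
    0 < κp → 0 < κ'' → 2 * κp * c₂⁻¹ + bΦ M * κ6 < κ'' → 0 ≤ κc → C * κc < κm → 0 < Λ →
    ∀ᶠ s : ℝ in atTop, ∀ h : (Ht k →L[ℝ] ℝ) → ℝ, M.HGood c₂ h → ∀ i, M.wt i ≠ 0 →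
      ∀ u, Fct M h c₂ (M.wt i) u → ∀ (v : Fin k → ℤ) (m : ℕ),
      (κ' - 2 * κp) * s * h (M.wt i) - Vb ≤ m * M.wt i (ht v) →
      (∀ j, M.wt j ≠ 0 → κm * s ≤ m * |M.wt j (ht v)|) →
      ∀ z0 : S, ∃ F : Finset S, (F.card : ℝ) ≤ (2 * |M.C0 * (κc * s)| + 1) ^ k ∧
      ∀ z : S, (M.l (z0⁻¹ * z) : ℝ) ≤ κc * s → ∀ n : ℕ, (n : ℝ) ≤ A * s → ∀ c ∈ M.CB n,
      ‖M.θ c - ((1 - κ') * s) • u‖ ≤ κ6 * s → ∀ x : ℝ, |x| ≤ Λ * Real.exp (s * h (M.wt i)) →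
      ∃ z1 ∈ F, InP (fun j x => M.ex ((Rm M v m j * x) • M.X j)) B.m
        (B.C ^ 3 * Real.exp (2 * κ'' * s)) z1 (z * (c⁻¹ * M.ex (x • M.X i) * c)) := by
  classical
  obtain ⟨C₁, hC₁, hdec⟩ := exists_dec M
  have hC0 := M.C0_pos
  have hC01 := M.one_le_C0
  have hb1 := one_le_bΦ M
  have hBC := C_pos B
  have hBC1 := B.one_le
  refine ⟨C₁ + bΦ M * M.C0, by nlinarith [mul_pos (by linarith : 0 < bΦ M) hC0], ?_⟩
  intro c₂ κ' κp κ6 κc κm κ'' A Λ Vb hc hκp hκ'' hκ''1 hκc hκm hΛ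
  have hci : 0 < c₂⁻¹ := inv_pos.2 hc
  have hε₁0 : 0 < κ'' - (2 * κp * c₂⁻¹ + bΦ M * κ6) := by linarith
  have hε₂0 : 0 < κm - (C₁ + bΦ M * M.C0) * κc := by linarith
  set ε₂ : ℝ := κm - (C₁ + bΦ M * M.C0) * κc with hε₂
  set A₂ : ℝ := 3 * (M.C0 * (1 + M.C0 * κc)) + C₁ * (1 + κc) with hA₂
  filter_upwards [ev_polyB B.C A B.dg hκ'' one_pos, ev_constB (Λ * Real.exp Vb) hε₁0 one_pos,
    ev_polyB B.C A₂ B.dg (show 0 < 2 * κ'' by positivity) one_pos,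
    ev_polyB (B.C * (B.C * (1 + Real.exp C₁))) A₂ B.dg hε₂0 one_pos,
    ev_polyB (B.C * (1 + M.C0)) A₂ M.deg (show 0 < 2 * κ'' by positivity) one_pos,
    eventually_ge_atTop (1 : ℝ)] with s p1 p2 p3 p4 p5 hs h hg i hi u hF v m hm hmj z0
  rw [one_mul] at p1 p2 p3 p4 p5
  have hs0 : 0 ≤ s := by linarith
  have hΦ : M.wt i ∈ M.Φ := by
    rcases wt_cases M i with h0 | h0
    · exact absurd h0 hi
    · exact h0.1
  obtain ⟨hfin, hcard⟩ := ball_finite (k := k) 0 (M.C0 * (κc * s))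
  refine ⟨hfin.toFinset.image fun w => z0 * M.τ w, ?_, ?_⟩
  · refine le_trans ?_ hcard
    have h1 := Finset.card_image_le (s := hfin.toFinset) (f := fun w => z0 * M.τ w)
    rw [ncard_eq_toFinset_card _ hfin]
    exact_mod_cast h1
  intro z hz n hn c hc' hθ x hx
  set g := z0⁻¹ * z with hgdef
  set w : Fin k → ℤ := Multiplicative.toAdd (M.η g) with hw
  have hηw : M.η g = Multiplicative.ofAdd w := rfl
  have hθg : M.θ g = ht w := rfl
  have hκcs : 0 ≤ κc * s := by positivity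
  have hθg' : ‖(ht w : Ht k)‖ ≤ M.C0 * (κc * s) := by
    rw [← hθg]
    exact (M.θ_le g).trans (mul_le_mul_of_nonneg_left hz hC0.le)
  refine ⟨z0 * M.τ w, ?_, ?_⟩
  · rw [Finset.mem_image]
    refine ⟨w, ?_, rfl⟩
    rw [Set.Finite.mem_toFinset, mem_setOf_eq, sub_zero]
    exact hθg'
  obtain ⟨vg, hvg, hvn, n₃, hn₃, cg, hcg, hgeq⟩ := hdec g (κc * s) hz
  have hE1 : 1 ≤ Real.exp (2 * κ'' * s) := Real.one_le_exp (by positivity)
  have hRm1 : ∀ j, 1 ≤ Rm M v m j := one_le_Rm v m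
  set n₂ : ℕ := ⌈M.C0 * (1 + M.C0 * (κc * s))⌉₊ with hn₂
  have hq1 : 0 ≤ M.C0 * (1 + M.C0 * κc) := by positivity
  have hn₂' : (n₂ : ℝ) ≤ 2 * (M.C0 * (1 + M.C0 * κc)) * s := by
    have e1 : (n₂ : ℝ) < M.C0 * (1 + M.C0 * (κc * s)) + 1 := Nat.ceil_lt_add_one (by positivity)
    have e2 : 0 ≤ M.C0 * (M.C0 * κc) * s := by positivity
    have e3 : M.C0 * 1 ≤ M.C0 * s := mul_le_mul_of_nonneg_left hs hC0.le
    have e4 : (1 : ℝ) ≤ M.C0 * s := by nlinarith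
    linarith
  have hn₃' : (n₃ : ℝ) ≤ C₁ * (1 + κc) * s := by
    refine hn₃.trans ?_
    have e1 : C₁ * 1 ≤ C₁ * s := mul_le_mul_of_nonneg_left hs (by linarith)
    linarith
  have hq2 : 0 ≤ M.C0 * (1 + M.C0 * κc) * s := by positivity
  have hq3 : 0 ≤ C₁ * (1 + κc) * s := by positivity
  have hA23 : ((n₂ + n₃ : ℕ) : ℝ) ≤ A₂ * s := by
    push_cast
    rw [hA₂]
    linarith
  have hn20 : (0 : ℝ) ≤ n₂ := Nat.cast_nonneg _
  have hn30 : (0 : ℝ) ≤ n₃ := Nat.cast_nonneg _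
  have hA2 : (n₂ : ℝ) ≤ A₂ * s := by
    push_cast at hA23
    linarith
  have hτw : M.τ w ∈ M.CB n₂ := by
    refine M.CB_mono ?_ (M.τ_CB w)
    refine Nat.ceil_mono (mul_le_mul_of_nonneg_left ?_ hC0.le)
    have : ‖(fun i => ((w i : ℤ) : ℝ))‖ ≤ M.C0 * (κc * s) := hθg'
    linarith
  have hpow2 : (1 + (n₂ : ℝ)) ^ B.dg ≤ (1 + A₂ * s) ^ B.dg :=
    pow_le_pow_left₀ (by linarith) (by linarith) _
  have hpow3 : (1 + ((n₂ + n₃ : ℕ) : ℝ)) ^ M.deg ≤ (1 + A₂ * s) ^ M.deg :=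
    pow_le_pow_left₀ (by positivity) (by linarith) _
  refine cov4 B hE1 hgeq ?_ ?_ ?_
  · refine cov1 B hs0 hκ''.le ?_ hc' v m (hx.trans (cov_size hc hs0 hκp hg hΦ hF hm hθ p2))
    refine le_trans ?_ p1
    have e0 : (0 : ℝ) ≤ n := Nat.cast_nonneg n
    exact mul_le_mul_of_nonneg_left (pow_le_pow_left₀ (by linarith) (by linarith) _) hBC.le
  · refine cov2 B hτw hθg' hvg (fun j hj => ?_) (fun j hj => ?_)
    · rw [Rm_zero hj, mul_one]
      exact le_trans (mul_le_mul_of_nonneg_left hpow2 hBC.le) p3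
    · have hnm := apply_nonneg M.nm vg
      have e2 : B.C * (1 + M.nm vg) ≤ B.C * (1 + Real.exp C₁) * Real.exp (C₁ * (κc * s)) := by
        have e3 : Real.exp (C₁ * (1 + κc * s)) = Real.exp C₁ * Real.exp (C₁ * (κc * s)) := by
          rw [← Real.exp_add]; congr 1; ring
        have e4 : (1 : ℝ) ≤ Real.exp (C₁ * (κc * s)) := Real.one_le_exp (by positivity)
        rw [mul_assoc]
        refine mul_le_mul_of_nonneg_left ?_ hBC.le
        rw [e3] at hvn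
        linarith
      have e5 : Real.exp (ε₂ * s) * (Real.exp (bΦ M * (M.C0 * (κc * s))) *
          Real.exp (C₁ * (κc * s))) ≤ Rm M v m j := by
        unfold Rm
        rw [← Real.exp_add, ← Real.exp_add, Real.exp_le_exp]
        refine le_trans (le_of_eq ?_) (hmj j hj)
        rw [hε₂]; ring
      have e6 : Rm M v m j ≤ Real.exp (2 * κ'' * s) * Rm M v m j :=
        le_mul_of_one_le_left (zero_le_one.trans (hRm1 j)) hE1
      refine le_trans ?_ (e5.trans e6)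
      calc B.C * (1 + (n₂ : ℝ)) ^ B.dg * Real.exp (bΦ M * (M.C0 * (κc * s))) *
            (B.C * (1 + M.nm vg))
          ≤ B.C * (1 + A₂ * s) ^ B.dg * Real.exp (bΦ M * (M.C0 * (κc * s))) *
            (B.C * (1 + Real.exp C₁) * Real.exp (C₁ * (κc * s))) := by
            gcongr
        _ = (B.C * (B.C * (1 + Real.exp C₁)) * (1 + A₂ * s) ^ B.dg) *
            (Real.exp (bΦ M * (M.C0 * (κc * s))) * Real.exp (C₁ * (κc * s))) := by ring
        _ ≤ Real.exp (ε₂ * s) *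
            (Real.exp (bΦ M * (M.C0 * (κc * s))) * Real.exp (C₁ * (κc * s))) := by gcongr
  · refine cov3 B hτw hcg ?_ (fun j hj => ?_) (fun j hj => ?_)
    · rw [← hηw, hgeq, map_mul, M.η_ex, one_mul]
    · rw [Rm_zero hj, mul_one]
      refine le_trans ?_ p5
      exact mul_le_mul_of_nonneg_left hpow3 (by positivity)
    · exact one_le_mul_of_one_le_of_one_le hE1 (hRm1 j)

end Vale.Agent.P188.Z1.RModel.F6
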