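import Vale.Agent.P188.H893.Gcl

/-!
# P188, block NOFOLD, part 2: the core with the FILL theorem plugged in, and with short moves
-/

set_option linter.all false

namespace Vale.Agent.P188.H616

open MeasureTheory Set Real H329

variable {ι : Type} {S : Type} [Group S] {l h : S → ℝ} {X : S → ℂ} {A L : ℝ}

/-- Class 1 property: the height is maximal at the top, and the slopes are known. -/
structure Up3 (h : S → ℝ) (t : S) (m : ℕ) (err s0 s1 : ℝ) (z : S) : Prop where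
  up : ∀ j ≤ m, h (z * t ^ j) ≤ h (z * t ^ m) + err
  down : ∀ j ≤ m, h (z * t⁻¹ ^ j) ≤ h (z * t ^ m) + err
  slope : |h (z * t ^ m) - h (z * t⁻¹ ^ m) - s1| ≤ err
  slope0 : |h (z * t ^ m) - h z - s0| ≤ err

theorem Up3.toUp {t : S} {m : ℕ} {err s0 s1 : ℝ} {z : S} (hz : Up3 h t m err s0 s1 z) :
    Up h t m err s1 z := ⟨hz.up, hz.down, hz.slope⟩

/-- `z` and `w` merge along `t` (at the top or at the bottom) or are close -/
def Mv3 (l : S → ℝ) (t : S) (m : ℕ) (d : ℝ) (z w : S) : Prop :=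
  l ((z * t ^ m)⁻¹ * (w * t ^ m)) ≤ d ∨ l ((z * t⁻¹ ^ m)⁻¹ * (w * t⁻¹ ^ m)) ≤ d ∨ l (z⁻¹ * w) ≤ d

theorem Up3.mv (c : Coord l h X A L) {t : S} {m : ℕ} {err s0 s1 d : ℝ} {z w : S}
    (hz : Up3 h t m err s0 s1 z) (hw : Up3 h t m err s0 s1 w) (hd0 : 0 ≤ d)
    (hm : Mv3 l t m d z w) :
    |h (w * t ^ m) - h (z * t ^ m)| ≤ L * d + 2 * err := by
  rcases hm with hm | hm | hm
  · exact hz.toUp.mv c hw.toUp hd0 (Or.inl hm)
  · exact hz.toUp.mv c hw.toUp hd0 (Or.inr hm)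
  · have h1 := (c.lip' z w).trans (mul_le_mul_of_nonneg_left hm c.L0)
    have h2 := hz.slope0
    have h3 := hw.slope0
    rw [abs_le] at h1 h2 h3 ⊢
    constructor <;> linarith [h1.1, h1.2, h2.1, h2.2, h3.1, h3.2]

theorem Up3.close (c : Coord l h X A L) {t : S} {m : ℕ} {err s0 s1 d lt : ℝ} {z w : S}
    (hlt : l t ≤ lt) (hlt' : l t⁻¹ ≤ lt)
    (hz : Up3 h t m err s0 s1 z) (hw : Up3 h t m err s0 s1 w) (hd0 : 0 ≤ d)
    (hm : Mv3 l t m d z w) :
    ‖X w - X z‖ ≤ (2 * m + 1) * (A * (1 + d + lt) *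
      exp (h (z * t ^ m) + (L * d + 2 * err) + err + L * (d + lt))) := by
  rcases hm with hm | hm | hm
  · exact hz.toUp.close c hlt hlt' hw.toUp hd0 (Or.inl hm)
  · exact hz.toUp.close c hlt hlt' hw.toUp hd0 (Or.inr hm)
  · have he : 0 ≤ err := (abs_nonneg _).trans hz.slope
    have hlt0 : 0 ≤ lt := (c.l0 t).trans hlt
    have h1 : h z ≤ h (z * t ^ m) + err := by
      have := hz.up 0 (Nat.zero_le _)
      simpa using this
    refine (c.step' z w h1 hm).trans ?_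
    have hA := c.A0
    have hL := c.L0
    have hLd : 0 ≤ L * d := mul_nonneg hL hd0
    have hLlt : 0 ≤ L * lt := mul_nonneg hL hlt0
    have e1 : A * (1 + d) * exp (h (z * t ^ m) + err + L * d) ≤ A * (1 + d + lt) *
        exp (h (z * t ^ m) + (L * d + 2 * err) + err + L * (d + lt)) := by
      refine mul_le_mul ?_ (exp_le_exp.2 ?_) (exp_pos _).le ?_
      · exact mul_le_mul_of_nonneg_left (by linarith) hA
      · nlinarith
      · exact mul_nonneg hA (by linarith)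
    refine e1.trans ?_
    have hm0 : (0 : ℝ) ≤ m := Nat.cast_nonneg m
    refine le_mul_of_one_le_left ?_ (by linarith)
    exact mul_nonneg (mul_nonneg hA (by linarith)) (exp_pos _).le

/-- `w` is joined to `y` by `n` moves inside `Γ` -/
def Join3 (l : S → ℝ) (t : S) (m : ℕ) (d : ℝ) (Γ : Set S) (n : ℕ) (w y : S) : Prop :=
  ∃ p : ℕ → S, p 0 = w ∧ p n = y ∧ (∀ j ≤ n, p j ∈ Γ) ∧ ∀ j < n, Mv3 l t m d (p j) (p (j + 1))

theorem Join3.close (c : Coord l h X A L) {t : S} {m : ℕ} {err s0 s1 d lt : ℝ} {Γ : Set S}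
    (hlt : l t ≤ lt) (hlt' : l t⁻¹ ≤ lt) (hd0 : 0 ≤ d) (he : 0 ≤ err)
    (hΓ : ∀ z ∈ Γ, Up3 h t m err s0 s1 z) {n : ℕ} {w y : S} (hj : Join3 l t m d Γ n w y) :
    ‖X y - X w‖ ≤ n * ((2 * m + 1) * (A * (1 + d + lt) *
      exp (h (w * t ^ m) + (n + 1) * (L * d + 2 * err) + err + L * (d + lt)))) := by
  obtain ⟨p, h0, hn, hp, hmv⟩ := hj
  subst h0
  set e1 := L * d + 2 * err with he1
  have hLd : 0 ≤ L * d := mul_nonneg c.L0 hd0
  have he10 : 0 ≤ e1 := by rw [he1]; linarith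
  have hlt0 : 0 ≤ lt := (c.l0 t).trans hlt
  -- heights of the tops
  have htop : ∀ j ≤ n, h (p j * t ^ m) ≤ h (p 0 * t ^ m) + j * e1 := by
    intro j
    induction j with
    | zero => intro _; simp
    | succ j ih =>
      intro hj
      have h1 := ih (by omega)
      have h2 := (hΓ _ (hp j (by omega))).mv c (hΓ _ (hp (j + 1) hj)) hd0 (hmv j (by omega))
      rw [abs_le] at h2
      push_cast
      linarith [h2.2]
  set B := (2 * (m : ℝ) + 1) * (A * (1 + d + lt) *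
      exp (h (p 0 * t ^ m) + (n + 1) * e1 + err + L * (d + lt))) with hB
  have hstep : ∀ j < n, ‖X (p (j + 1)) - X (p j)‖ ≤ B := by
    intro j hj
    have h1 := (hΓ _ (hp j (by omega))).close c hlt hlt' (hΓ _ (hp (j + 1) (by omega))) hd0
      (hmv j hj)
    refine h1.trans ?_
    rw [hB]
    have hA := c.A0
    have h2 := htop j (by omega)
    have h3 : (j : ℝ) + 1 ≤ n := by exact_mod_cast hj
    have h4 : (j : ℝ) * e1 + e1 ≤ (n + 1) * e1 := by nlinarith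
    gcongr (2 * (m : ℝ) + 1) * (A * (1 + d + lt) * exp ?_)
    linarith
  have hsum : ∀ j ≤ n, ‖X (p j) - X (p 0)‖ ≤ j * B := by
    intro j
    induction j with
    | zero => intro _; simp
    | succ j ih =>
      intro hj
      have h1 := ih (by omega)
      have h2 := hstep j (by omega)
      calc ‖X (p (j + 1)) - X (p 0)‖ = ‖(X (p (j + 1)) - X (p j)) + (X (p j) - X (p 0))‖ := by
            ring_nf
        _ ≤ _ := norm_add_le _ _
        _ ≤ B + j * B := add_le_add h2 h1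
        _ = _ := by push_cast; ring
  rw [← hn]
  exact hsum n le_rfl

theorem Join3.of_reach {s : ι → ℝ → S} {G : Set S} {t : S} {m : ℕ} {d : ℝ}
    (hmerge : ∀ i x, |x| ≤ 1 → l ((t ^ m)⁻¹ * s i x * t ^ m) ≤ d ∨
      l ((t⁻¹ ^ m)⁻¹ * s i x * t⁻¹ ^ m) ≤ d ∨ l (s i x) ≤ d) {n : ℕ} {a b : S}
    (hr : Reach s G n a b) : Join3 l t m d G n a b := by
  induction n generalizing a with
  | zero =>
    obtain ⟨ha, rfl⟩ := hr
    refine ⟨fun _ => a, rfl, rfl, fun _ _ => ha, fun j hj => absurd hj (Nat.not_lt_zero _)⟩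
  | succ n ih =>
    obtain ⟨ha, i, x, hx, hr⟩ := hr
    obtain ⟨p, h0, hn, hp, hmv⟩ := ih hr
    refine ⟨fun j => match j with | 0 => a | j + 1 => p j, rfl, hn, ?_, ?_⟩
    · intro j hj
      match j with
      | 0 => exact ha
      | j + 1 => exact hp j (by omega)
    · intro j hj
      match j with
      | 0 =>
        show Mv3 l t m d a (p 0)
        rw [h0]
        unfold Mv3
        have e1 : (a * t ^ m)⁻¹ * (a * s i x * t ^ m) = (t ^ m)⁻¹ * s i x * t ^ m := by group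
        have e2 : (a * t⁻¹ ^ m)⁻¹ * (a * s i x * t⁻¹ ^ m) = (t⁻¹ ^ m)⁻¹ * s i x * t⁻¹ ^ m := by
          rw [mul_inv_rev]
          simp only [mul_assoc, inv_mul_cancel_left]
        have e3 : a⁻¹ * (a * s i x) = s i x := by group
        rw [e1, e2, e3]
        exact hmerge i x hx
      | j + 1 => exact hmv j (by omega)

/-- **NOFOLD with FILL plugged in.** -/
theorem nofold_fill [Finite ι] [MeasurableSpace S] (μ : Measure S) [SFinite μ]
    (c : Coord l h X A L) {s : ι → ℝ → S} {t : S} {m n N0 N p cI : ℕ}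
    {err s0 s1 d lt C0 CI κ0 : ℝ} (hlt : l t ≤ lt) (hlt' : l t⁻¹ ≤ lt) (hd0 : 0 ≤ d)
    (he : 0 ≤ err) (hC0 : 0 ≤ C0)
    (hmerge : ∀ i x, |x| ≤ 1 → l ((t ^ m)⁻¹ * s i x * t ^ m) ≤ d ∨
      l ((t⁻¹ ^ m)⁻¹ * s i x * t⁻¹ ^ m) ≤ d ∨ l (s i x) ≤ d)
    (hadd : ∀ i x y, s i (x + y) = s i x * s i y) (hs0 : ∀ i, s i 0 = 1)
    (hm : ∀ i, Measurable fun q : S × ℝ => q.1 * s i q.2)
    (hinv : ∀ i x, MeasurePreserving (fun z => z * s i x) μ μ)
    {D Dq Γ1 Γ2 : Set S} {τ : S → S} {θ θ' : ENNReal} {B : S → Set S}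
    (hΓ2m : MeasurableSet Γ2) (hΓ1m : MeasurableSet Γ1) (hτm : MeasurePreserving τ μ μ)
    (hDq : MeasurableSet Dq) (hΓ1q : ∀ z ∈ Γ1, ∀ i x, |x| ≤ 1 → z * s i x ∈ Dq)
    (hΓ2D : Γ2 ⊆ D)
    (hup : ∀ z ∈ Γ1, Up3 h t m err s0 s1 z)
    (hdown : ∀ z ∈ Γ2, ∀ j ≤ m, h (z * t ^ j) ≤ h z + err)
    (hτ : ∀ z ∈ Γ2, l ((z * t ^ m)⁻¹ * (τ z * t ^ m)) ≤ d)
    (hfill : ∀ G : Set S, MeasurableSet G → (∀ z ∈ G, ∀ i, θ' ≤ win s i G z) → ∀ z0 : S,
        ∃ T : Finset S, T.card ≤ N0 ∧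
          ∀ z ∈ G, InP s cI CI z0 z → ∃ t ∈ T, Reach s G n z t)
    (hcov : ∀ z0, ∃ F : Finset S, F.card ≤ p ∧ ∀ z ∈ Γ2 ∩ B z0, ∃ z1 ∈ F, InP s cI CI z1 (τ z))
    (hN : p * N0 ≤ N)
    (hspread : ∀ Γ : Set S, MeasurableSet Γ → Γ ⊆ D → θ * μ D ≤ μ Γ → μ Γ ≠ 0 → ∃ z0,
      ∀ (Y : Finset S) (φ : S → S), Y.card ≤ N → (∀ z ∈ Γ ∩ B z0, φ z ∈ Y) →
      ∃ z ∈ Γ ∩ B z0, ∃ z' ∈ Γ ∩ B z0, φ z = φ z' ∧ |h z - h z'| ≤ C0 ∧
        exp (h z + κ0) < ‖X z - X z'‖)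
    (hbig : 2 * ((n + 1) * ((2 * m + 1) * (A * (1 + d + lt) *
      exp (C0 + (n + 1) * (L * d + 2 * err) + 3 * err + 2 * L * (d + lt))))) ≤ exp κ0) :
    μ {z | z ∈ Γ2 ∧ τ z ∈ Γ1} ≤ θ * μ D + Nat.card ι * (θ' * μ Dq) := by
  classical
  obtain ⟨Γ1', hsub, hΓ1'm, hloss, hwin⟩ := clean μ hadd hs0 hm hinv hΓ1m hDq hΓ1q θ'
  by_contra hcon
  rw [not_le] at hcon
  set Γ : Set S := {z | z ∈ Γ2 ∧ τ z ∈ Γ1'} with hΓ
  have hΓm : MeasurableSet Γ := hΓ2m.inter (hτm.measurable hΓ1'm)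
  have h1 : {z | z ∈ Γ2 ∧ τ z ∈ Γ1} ⊆ Γ ∪ τ ⁻¹' (Γ1 \ Γ1') := by
    rintro z ⟨hz, hz1⟩
    by_cases hz2 : τ z ∈ Γ1'
    · exact Or.inl ⟨hz, hz2⟩
    · exact Or.inr ⟨hz1, hz2⟩
  have hl2 : μ (τ ⁻¹' (Γ1 \ Γ1')) ≤ Nat.card ι * (θ' * μ Dq) := by
    rw [hτm.measure_preimage (hΓ1m.diff hΓ1'm).nullMeasurableSet]
    exact hloss
  have h2 : θ * μ D + Nat.card ι * (θ' * μ Dq) < μ Γ + Nat.card ι * (θ' * μ Dq) :=
    hcon.trans_le (((measure_mono h1).trans (measure_union_le _ _)).trans (add_le_add le_rfl hl2))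
  have h3 : θ * μ D < μ Γ := by
    by_contra h4
    rw [not_lt] at h4
    exact absurd h2 (not_lt.2 (add_le_add h4 le_rfl))
  have h4 : μ Γ ≠ 0 := fun h5 => by rw [h5] at h3; exact not_lt_zero' h3
  obtain ⟨z0, hz0⟩ := hspread Γ hΓm (fun z hz => hΓ2D hz.1) h3.le h4
  obtain ⟨F, hF, hFc⟩ := hcov z0
  choose T hT1 hT2 using hfill Γ1' hΓ1'm hwin
  set Y : Finset S := F.biUnion T with hY
  have hYc : Y.card ≤ N := by
    refine le_trans ?_ hN
    refine (Finset.card_biUnion_le).trans ?_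
    calc ∑ u ∈ F, (T u).card ≤ ∑ u ∈ F, N0 := Finset.sum_le_sum fun u _ => hT1 u
      _ = F.card * N0 := by rw [Finset.sum_const, smul_eq_mul]
      _ ≤ p * N0 := Nat.mul_le_mul_right _ hF
  have hch : ∀ z ∈ Γ ∩ B z0, ∃ y ∈ Y, Join3 l t m d Γ1' n (τ z) y := by
    intro z hz
    obtain ⟨z1, hz1, hin⟩ := hFc z ⟨hz.1.1, hz.2⟩
    obtain ⟨y, hy, hr⟩ := hT2 z1 (τ z) hz.1.2 hin
    exact ⟨y, Finset.mem_biUnion.2 ⟨z1, hz1, hy⟩, Join3.of_reach hmerge hr⟩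
  set φ : S → S := fun z => if hz : z ∈ Γ ∩ B z0 then (hch z hz).choose else z with hφ
  have hφY : ∀ z ∈ Γ ∩ B z0, φ z ∈ Y ∧ Join3 l t m d Γ1' n (τ z) (φ z) := by
    intro z hz
    have : φ z = (hch z hz).choose := by simp only [hφ]; rw [dif_pos hz]
    rw [this]
    exact (hch z hz).choose_spec
  obtain ⟨z, hz, z', hz', heq, hclose, hbad⟩ := hz0 Y φ hYc fun z hz => (hφY z hz).1
  -- the estimate for one point
  have hLd : 0 ≤ L * d := mul_nonneg c.L0 hd0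
  have hlt0 : 0 ≤ lt := (c.l0 t).trans hlt
  have hLlt : 0 ≤ L * (d + lt) := mul_nonneg c.L0 (by linarith)
  have hLlt2 : L * d ≤ L * (d + lt) := mul_le_mul_of_nonneg_left (by linarith) c.L0
  have hA := c.A0
  have key : ∀ x ∈ Γ ∩ B z0, ‖X (φ x) - X x‖ ≤ (n + 1) * ((2 * m + 1) * (A * (1 + d + lt) *
      exp (h x + ((n + 1) * (L * d + 2 * err) + 3 * err + 2 * L * (d + lt))))) := by
    intro x hx
    have hx2 : x ∈ Γ2 := hx.1.1
    have hx1 : τ x ∈ Γ1' := hx.1.2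
    have hU := hup _ (hsub hx1)
    have hD := hdown x hx2
    have hm := hτ x hx2
    have htop : h (τ x * t ^ m) ≤ h x + err + L * d := by
      have h5 := (c.lip' (x * t ^ m) (τ x * t ^ m)).trans (mul_le_mul_of_nonneg_left hm c.L0)
      rw [abs_le] at h5
      linarith [h5.2, hD m le_rfl]
    have ha : ‖X (τ x) - X x‖ ≤ (2 * m + 1) * (A * (1 + d + lt) *
        exp (h x + 2 * err + L * d + L * (d + lt))) := by
      refine c.merge x (τ x) t hlt hd0 m (fun j hj => ?_) (fun j hj => ?_) hm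
      · have := hD j hj; linarith
      · have := hU.up j hj; linarith
    have hb := (hφY x hx).2.close c hlt hlt' hd0 he (fun z hz => hup z (hsub hz))
    set Q := (2 * (m : ℝ) + 1) * (A * (1 + d + lt) *
      exp (h x + ((n + 1) * (L * d + 2 * err) + 3 * err + 2 * L * (d + lt)))) with hQ
    have hn0 : (0 : ℝ) ≤ n := Nat.cast_nonneg n
    have he1 : 0 ≤ (n : ℝ) * (L * d + 2 * err) := by positivity
    have ha' : ‖X (τ x) - X x‖ ≤ Q := by
      refine ha.trans ?_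
      rw [hQ]
      gcongr (2 * (m : ℝ) + 1) * (A * (1 + d + lt) * exp ?_)
      nlinarith
    have hb' : ‖X (φ x) - X (τ x)‖ ≤ n * Q := by
      refine hb.trans ?_
      rw [hQ]
      gcongr (n : ℝ) * ((2 * (m : ℝ) + 1) * (A * (1 + d + lt) * exp ?_))
      nlinarith
    calc ‖X (φ x) - X x‖ = ‖(X (φ x) - X (τ x)) + (X (τ x) - X x)‖ := by ring_nf
      _ ≤ _ := norm_add_le _ _
      _ ≤ n * Q + Q := add_le_add hb' ha'
      _ = _ := by ring
  have k1 := key z hz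
  have k2 := key z' hz'
  rw [← heq] at k2
  set W := ((n + 1) * (L * d + 2 * err) + 3 * err + 2 * L * (d + lt)) with hW
  have hfin : ‖X z - X z'‖ ≤ exp (h z + κ0) := by
    rw [abs_le] at hclose
    calc ‖X z - X z'‖ = ‖-(X (φ z) - X z) + (X (φ z) - X z')‖ := by ring_nf
      _ ≤ ‖-(X (φ z) - X z)‖ + ‖X (φ z) - X z'‖ := norm_add_le _ _
      _ ≤ (n + 1) * ((2 * m + 1) * (A * (1 + d + lt) * exp (h z + W))) +
          (n + 1) * ((2 * m + 1) * (A * (1 + d + lt) * exp (h z' + W))) := by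
          rw [norm_neg]; exact add_le_add k1 k2
      _ ≤ (n + 1) * ((2 * m + 1) * (A * (1 + d + lt) * exp (h z + (C0 + W)))) +
          (n + 1) * ((2 * m + 1) * (A * (1 + d + lt) * exp (h z + (C0 + W)))) := by
          have e1 : exp (h z + W) ≤ exp (h z + (C0 + W)) := exp_le_exp.2 (by linarith)
          have e2 : exp (h z' + W) ≤ exp (h z + (C0 + W)) :=
            exp_le_exp.2 (by linarith [hclose.1])
          gcongr
      _ = exp (h z) * (2 * ((n + 1) * ((2 * m + 1) * (A * (1 + d + lt) * exp (C0 + W))))) := by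
          rw [exp_add (h z) (C0 + W)]; ring
      _ ≤ exp (h z) * exp κ0 := by
          refine mul_le_mul_of_nonneg_left ?_ (exp_pos _).le
          refine le_trans (le_of_eq ?_) hbig
          rw [hW]
          ring_nf
      _ = exp (h z + κ0) := by rw [exp_add]
  exact absurd hbad (not_lt.2 hfin)

end Vale.Agent.P188.H616
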