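import Mathlib.MeasureTheory.Measure.Prod
import Mathlib.MeasureTheory.Group.Arithmetic
import Mathlib.MeasureTheory.Group.Defs
import Mathlib.Tactic

/-!
# P188, block FLATNESS, part 1: class-dependent moves preserve the measure

`z ↦ z * φ z` with `φ z ∈ E` depending only on the class `z E` preserves every right-invariant measure.
-/

set_option linter.all false

namespace Vale.Agent.P188.H616

open MeasureTheory Set

variable {S : Type*} [Group S] [MeasurableSpace S] [MeasurableMul₂ S]

theorem lintegral_mul_right_eq {G : Type*} [Group G] [MeasurableSpace G] [MeasurableMul₂ G]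
    {ν : Measure G} (hν : ∀ g : G, MeasurePreserving (fun x => x * g) ν ν) (g : G)
    {F : G → ENNReal} (hF : Measurable F) : ∫⁻ x, F (x * g) ∂ν = ∫⁻ x, F x ∂ν :=
  (hν g).lintegral_comp hF

theorem tau_measurePreserving (μ : Measure S) [SFinite μ]
    (hμ : ∀ g : S, MeasurePreserving (fun x => x * g) μ μ)
    {E : Type*} [Group E] [MeasurableSpace E] [MeasurableMul₂ E] [MeasurableInv E]
    (ι : E →* S) (hι : Measurable ι) (ν : Measure E) [SFinite ν]
    (hν : ∀ g : E, MeasurePreserving (fun x => x * g) ν ν)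
    {χ : E → ENNReal} (hχ : Measurable χ) (hχ1 : ∫⁻ e, χ e ∂ν = 1)
    {φ : S → E} (hφ : Measurable φ) (hφE : ∀ z e, φ (z * ι e) = φ z) :
    MeasurePreserving (fun z => z * ι (φ z)) μ μ := by
  have hT : Measurable (fun z => z * ι (φ z)) := measurable_id.mul (hι.comp hφ)
  refine ⟨hT, ?_⟩
  ext A hA
  rw [Measure.map_apply hT hA]
  set I : S → ENNReal := A.indicator 1 with hI
  have hIm : Measurable I := measurable_one.indicator hA
  have e0 : μ ((fun z => z * ι (φ z)) ⁻¹' A) = ∫⁻ z, I (z * ι (φ z)) ∂μ := by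
    rw [← lintegral_indicator_one (hT hA)]
    rfl
  have e9 : μ A = ∫⁻ z, I z ∂μ := by
    rw [hI, lintegral_indicator_one hA]
  rw [e0, e9]
  calc ∫⁻ z, I (z * ι (φ z)) ∂μ = ∫⁻ z, (∫⁻ e, I (z * ι (φ z)) * χ e ∂ν) ∂μ := by
        refine lintegral_congr fun z => ?_
        rw [lintegral_const_mul _ hχ, hχ1, mul_one]
    _ = ∫⁻ e, (∫⁻ z, I (z * ι (φ z)) * χ e ∂μ) ∂ν := by
        rw [lintegral_lintegral_swap]
        refine Measurable.aemeasurable ?_
        exact ((hIm.comp hT).comp measurable_fst).mul (hχ.comp measurable_snd)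
    _ = ∫⁻ e, (∫⁻ z, I (z * ι e * ι (φ z)) * χ e ∂μ) ∂ν := by
        refine lintegral_congr fun e => ?_
        have := lintegral_mul_right_eq hμ (ι e) (F := fun z => I (z * ι (φ z)) * χ e)
          ((hIm.comp hT).mul_const _)
        simp only [hφE] at this
        exact this.symm
    _ = ∫⁻ z, (∫⁻ e, I (z * ι e * ι (φ z)) * χ e ∂ν) ∂μ := by
        rw [lintegral_lintegral_swap]
        refine Measurable.aemeasurable ?_
        refine Measurable.mul (hIm.comp ?_) (hχ.comp measurable_fst)
        exact (measurable_snd.mul (hι.comp measurable_fst)).mul (hι.comp (hφ.comp measurable_snd))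
    _ = ∫⁻ z, (∫⁻ e, I (z * ι e) * χ (e * (φ z)⁻¹) ∂ν) ∂μ := by
        refine lintegral_congr fun z => ?_
        have := lintegral_mul_right_eq hν (φ z) (F := fun e => I (z * ι e) * χ (e * (φ z)⁻¹))
          ((hIm.comp (measurable_const.mul hι)).mul (hχ.comp (measurable_id.mul_const _)))
        simp only [map_mul, mul_inv_cancel_right, ← mul_assoc] at this
        exact this
    _ = ∫⁻ e, (∫⁻ z, I (z * ι e) * χ (e * (φ z)⁻¹) ∂μ) ∂ν := by
        rw [lintegral_lintegral_swap]
        refine Measurable.aemeasurable ?_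
        refine Measurable.mul (hIm.comp ?_) (hχ.comp ?_)
        · exact measurable_fst.mul (hι.comp measurable_snd)
        · exact measurable_snd.mul (hφ.comp measurable_fst).inv
    _ = ∫⁻ e, (∫⁻ z, I z * χ (e * (φ z)⁻¹) ∂μ) ∂ν := by
        refine lintegral_congr fun e => ?_
        have := lintegral_mul_right_eq hμ (ι e) (F := fun z => I z * χ (e * (φ z)⁻¹))
          (hIm.mul (hχ.comp (measurable_const.mul hφ.inv)))
        simp only [hφE] at this
        exact this
    _ = ∫⁻ z, (∫⁻ e, I z * χ (e * (φ z)⁻¹) ∂ν) ∂μ := by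
        rw [lintegral_lintegral_swap]
        refine Measurable.aemeasurable ?_
        refine Measurable.mul (hIm.comp measurable_snd) (hχ.comp ?_)
        exact measurable_fst.mul (hφ.comp measurable_snd).inv
    _ = ∫⁻ z, I z ∂μ := by
        refine lintegral_congr fun z => ?_
        have hm : Measurable (fun e : E => χ (e * (φ z)⁻¹)) := hχ.comp (measurable_id.mul_const _)
        rw [lintegral_const_mul _ hm]
        have := lintegral_mul_right_eq hν ((φ z)⁻¹) (F := χ) hχ
        rw [this, hχ1, mul_one]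

end Vale.Agent.P188.H616
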